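import Vale.Agent.P172.Fix

/-!
# P172, route DIM, block G1: words with repeated letters are negligible
-/

namespace Vale.Agent.P172

universe u

section Tri

variable {A G : Type} [Group G] (g : A → G) {X : Type u} [MetricSpace X] [MulAction G X]
  [IsIsometricSMul G X]

lemma wval_succ {k : ℕ} (w : Fin (k + 1) → A) : wval g w = g (w 0) * wval g (Fin.tail w) := by
  rw [wval_eq, wval_eq, List.ofFn_succ, List.map_cons, List.prod_cons]
  rfl

lemma dist_swap_le : ∀ {k : ℕ} (y w : Fin k → A) (q : X),
    dist (wval g y • q) (wval g w • q) ≤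
      ∑ i, dist (wval g y • q) (wval g (Function.update y i (w i)) • q)
  | 0, y, w, q => by
    have : y = w := Subsingleton.elim _ _
    subst this
    simp
  | k + 1, y, w, q => by
    have ih := dist_swap_le (Fin.tail y) (Fin.tail w) q
    rw [Fin.sum_univ_succ]
    have e0 : wval g (Function.update y 0 (w 0)) = g (w 0) * wval g (Fin.tail y) := by
      rw [wval_succ, Fin.tail_update_zero, Function.update_self]
    have e1 : ∀ i : Fin k, wval g (Function.update y i.succ (w i.succ)) =
        g (y 0) * wval g (Function.update (Fin.tail y) i (Fin.tail w i)) := by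
      intro i
      rw [wval_succ, Fin.tail_update_succ, Function.update_of_ne (Fin.succ_ne_zero i).symm]
      rfl
    rw [e0]
    simp only [e1]
    rw [wval_succ g y, wval_succ g w]
    simp only [mul_smul, dist_smul]
    have h1 := dist_triangle (g (y 0) • wval g (Fin.tail y) • q) (g (w 0) • wval g (Fin.tail y) • q)
      (g (w 0) • wval g (Fin.tail w) • q)
    rw [dist_smul (g (w 0))] at h1
    linarith

lemma dist_replace_le {k : ℕ} (y w : Fin k → A) (x q : X) :
    dist x (wval g w • q) ≤ (k + 1) * dist x (wval g y • q) +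
      ∑ i, dist x (wval g (Function.update y i (w i)) • q) := by
  have h1 := dist_swap_le g y w q
  have h2 : ∑ i, dist (wval g y • q) (wval g (Function.update y i (w i)) • q) ≤
      ∑ i, (dist x (wval g y • q) + dist x (wval g (Function.update y i (w i)) • q)) := by
    refine Finset.sum_le_sum fun i _ => ?_
    rw [dist_comm x (wval g y • q)]
    exact dist_triangle _ _ _
  rw [Finset.sum_add_distrib, Finset.sum_const, Finset.card_univ, Fintype.card_fin,
    nsmul_eq_mul] at h2
  have h3 := dist_triangle x (wval g y • q) (wval g w • q)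
  linarith

lemma dist_replace_sq_le {k : ℕ} (y w : Fin k → A) (x q : X) :
    dist x (wval g w • q) ^ 2 ≤ 2 * (k + 1) ^ 2 * dist x (wval g y • q) ^ 2 +
      2 * k * ∑ i, dist x (wval g (Function.update y i (w i)) • q) ^ 2 := by
  have h1 := dist_replace_le g y w x q
  have h0 : 0 ≤ dist x (wval g w • q) := dist_nonneg
  have h2 := Finset.sum_mul_sq_le_sq_mul_sq (Finset.univ : Finset (Fin k)) (fun _ => (1 : ℝ))
    (fun i => dist x (wval g (Function.update y i (w i)) • q))
  simp only [one_mul, one_pow, Finset.sum_const, Finset.card_univ, Fintype.card_fin,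
    nsmul_eq_mul, mul_one] at h2
  set a := dist x (wval g y • q)
  set s := ∑ i, dist x (wval g (Function.update y i (w i)) • q)
  have h3 : dist x (wval g w • q) ^ 2 ≤ ((k + 1) * a + s) ^ 2 := by gcongr
  nlinarith [sq_nonneg ((k + 1) * a - s)]

end Tri

section Count

/-- resampling one coordinate -/
lemma resample {A : Type} [Fintype A] {k : ℕ} (F : (Fin k → A) → ℝ) (i : Fin k) :
    ∑ y, ∑ a, F (Function.update y i a) = Fintype.card A * ∑ y, F y := by
  let e : ((Fin k → A) × A) ≃ ((Fin k → A) × A) :=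
    { toFun := fun p => (Function.update p.1 i p.2, p.1 i)
      invFun := fun p => (Function.update p.1 i p.2, p.1 i)
      left_inv := fun p => by simp
      right_inv := fun p => by simp }
  have h1 := e.sum_comp (fun p : (Fin k → A) × A => F p.1)
  rw [Fintype.sum_prod_type, Fintype.sum_prod_type] at h1
  simp only [Finset.sum_const, Finset.card_univ, nsmul_eq_mul, ← Finset.mul_sum] at h1
  exact h1

/-- the value of one coordinate is uniformly distributed and independent of the others -/
lemma sum_ind_eq {A : Type} [Fintype A] {N k : ℕ} {h : A → Fin N} {s : ℝ}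
    (hN : (Fintype.card A : ℝ) = N * s) (hs : 0 < s)
    (hh : ∀ c, ∑ b : A, (if h b = c then (1 : ℝ) else 0) = s)
    (F : (Fin k → A) → ℝ) (c : (Fin k → A) → Fin N) (j : Fin k)
    (hF : ∀ w b, F (Function.update w j b) = F w) (hc : ∀ w b, c (Function.update w j b) = c w) :
    N * ∑ w, F w * (if h (w j) = c w then (1 : ℝ) else 0) = ∑ w, F w := by
  have h1 := resample (fun w : Fin k → A => F w * (if h (w j) = c w then (1 : ℝ) else 0)) j
  simp only [hF, hc, Function.update_self, ← Finset.mul_sum, hh] at h1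
  rw [← Finset.sum_mul, hN] at h1
  have : s * (N * ∑ w, F w * (if h (w j) = c w then (1 : ℝ) else 0)) = s * ∑ w, F w := by
    linarith
  exact mul_left_cancel₀ hs.ne' this

end Count

section Al

lemma card_al (N : ℕ) : (Fintype.card (Al N) : ℝ) = N * (2 * N) := by
  simp only [Fintype.card_prod, Fintype.card_fin, Fintype.card_bool]
  push_cast
  ring

lemma sum_fst' (N : ℕ) (φ : Fin N → ℝ) : ∑ b : Al N, φ b.1.1 = 2 * N * ∑ y, φ y := by
  rw [Fintype.sum_prod_type, Fintype.sum_prod_type, Finset.mul_sum]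
  refine Finset.sum_congr rfl fun x _ => ?_
  simp only [Finset.sum_const, Finset.card_univ, nsmul_eq_mul, Fintype.card_fin,
    Fintype.card_bool]
  push_cast
  ring

lemma sum_snd' (N : ℕ) (φ : Fin N → ℝ) : ∑ b : Al N, φ b.1.2 = 2 * N * ∑ y, φ y := by
  rw [Fintype.sum_prod_type, Fintype.sum_prod_type, Finset.sum_comm, Finset.mul_sum]
  refine Finset.sum_congr rfl fun x _ => ?_
  simp only [Finset.sum_const, Finset.card_univ, nsmul_eq_mul, Fintype.card_fin,
    Fintype.card_bool]
  push_cast
  ring

lemma sum_fst (N : ℕ) (c : Fin N) : ∑ b : Al N, (if b.1.1 = c then (1 : ℝ) else 0) = 2 * N := by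
  rw [sum_fst' N fun y => if y = c then (1 : ℝ) else 0, Finset.sum_ite_eq', if_pos
    (Finset.mem_univ c), mul_one]

lemma sum_snd (N : ℕ) (c : Fin N) : ∑ b : Al N, (if b.1.2 = c then (1 : ℝ) else 0) = 2 * N := by
  rw [sum_snd' N fun y => if y = c then (1 : ℝ) else 0, Finset.sum_ite_eq', if_pos
    (Finset.mem_univ c), mul_one]

lemma good_ofFn {N k : ℕ} (w : Fin k → Al N) : Good (List.ofFn w) ↔
    (∀ i j, i ≠ j → (w i).1.1 ≠ (w j).1.1 ∧ (w i).1.2 ≠ (w j).1.2) := by
  unfold Good
  rw [List.map_ofFn, List.map_ofFn, List.nodup_ofFn, List.nodup_ofFn]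
  constructor
  · rintro ⟨h1, h2⟩ i j hij
    exact ⟨fun h => hij (h1 h), fun h => hij (h2 h)⟩
  · intro h
    refine ⟨fun i j hij => ?_, fun i j hij => ?_⟩
    · by_contra hne
      exact (h i j hne).1 hij
    · by_contra hne
      exact (h i j hne).2 hij

open Classical in
/-- the weighted number of bad words -/
lemma sum_bad_le {N k : ℕ} (F : (Fin k → Al N) → ℝ) (h0 : ∀ w, 0 ≤ F w)
    (hF : ∀ i j : Fin k, i ≠ j →
      (∀ w b, F (Function.update w i b) = F w) ∨ (∀ w b, F (Function.update w j b) = F w)) :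
    N * ∑ w, (if Good (List.ofFn w) then 0 else F w) ≤ 2 * (k : ℝ) ^ 2 * ∑ w, F w := by
  rcases Nat.eq_zero_or_pos N with rfl | hN
  · have : 0 ≤ ∑ w, F w := Finset.sum_nonneg fun w _ => h0 w
    simp only [Nat.cast_zero, zero_mul]
    positivity
  have hN' : (0 : ℝ) < 2 * N := by positivity
  have pair1 : ∀ i j : Fin k, i ≠ j →
      N * ∑ w, F w * (if (w i).1.1 = (w j).1.1 then (1 : ℝ) else 0) = ∑ w, F w := by
    intro i j hij
    rcases hF i j hij with h | h
    · exact sum_ind_eq (h := fun e : Al N => e.1.1) (card_al N) hN' (sum_fst N) F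
        (fun w => (w j).1.1) i h (fun w b => by rw [Function.update_of_ne hij.symm])
    · have := sum_ind_eq (h := fun e : Al N => e.1.1) (card_al N) hN' (sum_fst N) F
        (fun w => (w i).1.1) j h (fun w b => by rw [Function.update_of_ne hij])
      simp only [eq_comm (a := (_ : Fin N))] at this ⊢
      exact this
  have pair2 : ∀ i j : Fin k, i ≠ j →
      N * ∑ w, F w * (if (w i).1.2 = (w j).1.2 then (1 : ℝ) else 0) = ∑ w, F w := by
    intro i j hij
    rcases hF i j hij with h | h
    · exact sum_ind_eq (h := fun e : Al N => e.1.2) (card_al N) hN' (sum_snd N) F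
        (fun w => (w j).1.2) i h (fun w b => by rw [Function.update_of_ne hij.symm])
    · have := sum_ind_eq (h := fun e : Al N => e.1.2) (card_al N) hN' (sum_snd N) F
        (fun w => (w i).1.2) j h (fun w b => by rw [Function.update_of_ne hij])
      simp only [eq_comm (a := (_ : Fin N))] at this ⊢
      exact this
  have hbound : ∀ w : Fin k → Al N, (if Good (List.ofFn w) then 0 else F w) ≤
      ∑ i, ∑ j, if i ≠ j then (F w * (if (w i).1.1 = (w j).1.1 then (1 : ℝ) else 0) +
        F w * (if (w i).1.2 = (w j).1.2 then (1 : ℝ) else 0)) else 0 := by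
    intro w
    have hnn : ∀ i j : Fin k, 0 ≤ if i ≠ j then
        (F w * (if (w i).1.1 = (w j).1.1 then (1 : ℝ) else 0) +
        F w * (if (w i).1.2 = (w j).1.2 then (1 : ℝ) else 0)) else 0 := by
      intro i j
      have := h0 w
      split_ifs <;> simp [this]
    split_ifs with hg
    · exact Finset.sum_nonneg fun i _ => Finset.sum_nonneg fun j _ => hnn i j
    · rw [good_ofFn] at hg
      push Not at hg
      obtain ⟨i, j, hij, hg⟩ := hg
      calc F w ≤ if i ≠ j then (F w * (if (w i).1.1 = (w j).1.1 then (1 : ℝ) else 0) +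
            F w * (if (w i).1.2 = (w j).1.2 then (1 : ℝ) else 0)) else 0 := by
            rw [if_pos hij]
            have := h0 w
            by_cases h1 : (w i).1.1 = (w j).1.1
            · rw [if_pos h1]
              split_ifs <;> linarith
            · rw [if_pos (hg h1), if_neg h1]
              linarith
        _ ≤ ∑ j, if i ≠ j then (F w * (if (w i).1.1 = (w j).1.1 then (1 : ℝ) else 0) +
            F w * (if (w i).1.2 = (w j).1.2 then (1 : ℝ) else 0)) else 0 :=
            Finset.single_le_sum (f := fun j => if i ≠ j then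
              (F w * (if (w i).1.1 = (w j).1.1 then (1 : ℝ) else 0) +
              F w * (if (w i).1.2 = (w j).1.2 then (1 : ℝ) else 0)) else 0)
              (fun j _ => hnn i j) (Finset.mem_univ j)
        _ ≤ _ := Finset.single_le_sum (f := fun i => ∑ j, if i ≠ j then
              (F w * (if (w i).1.1 = (w j).1.1 then (1 : ℝ) else 0) +
              F w * (if (w i).1.2 = (w j).1.2 then (1 : ℝ) else 0)) else 0)
              (fun i _ => Finset.sum_nonneg fun j _ => hnn i j) (Finset.mem_univ i)
  calc N * ∑ w, (if Good (List.ofFn w) then 0 else F w)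
      ≤ N * ∑ w, ∑ i, ∑ j, (if i ≠ j then (F w * (if (w i).1.1 = (w j).1.1 then (1 : ℝ) else 0) +
        F w * (if (w i).1.2 = (w j).1.2 then (1 : ℝ) else 0)) else 0) := by
        gcongr with w
        exact hbound w
    _ = ∑ i : Fin k, ∑ j : Fin k, N * ∑ w, (if i ≠ j then
        (F w * (if (w i).1.1 = (w j).1.1 then (1 : ℝ) else 0) +
        F w * (if (w i).1.2 = (w j).1.2 then (1 : ℝ) else 0)) else 0) := by
        rw [Finset.sum_comm, Finset.mul_sum]
        refine Finset.sum_congr rfl fun i _ => ?_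
        rw [Finset.sum_comm, Finset.mul_sum]
    _ ≤ ∑ i : Fin k, ∑ j : Fin k, 2 * ∑ w, F w := by
        refine Finset.sum_le_sum fun i _ => Finset.sum_le_sum fun j _ => ?_
        have hnn : 0 ≤ ∑ w, F w := Finset.sum_nonneg fun w _ => h0 w
        by_cases hij : i = j
        · simp [hij, hnn]
        · simp only [ne_eq, hij, not_false_eq_true, if_true]
          rw [Finset.sum_add_distrib, mul_add, pair1 i j hij, pair2 i j hij]
          linarith
    _ = _ := by
        simp only [Finset.sum_const, Finset.card_univ, Fintype.card_fin, nsmul_eq_mul]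
        ring

end Al

section Main

open Classical

lemma sum_one_words (N k : ℕ) : ∑ _w : Fin k → Al N, (1 : ℝ) = (Fintype.card (Al N) : ℝ) ^ k := by
  rw [Finset.sum_const, Finset.card_univ, Fintype.card_fun, Fintype.card_fin, nsmul_eq_mul]
  push_cast
  ring

/-- most words avoid the letters of a given word -/
lemma sum_notav_le {N k : ℕ} (w : Fin k → Al N) :
    N * ∑ y : Fin k → Al N, (if ∀ i j, (w i).1.1 ≠ (y j).1.1 ∧ (w i).1.2 ≠ (y j).1.2 then (0 : ℝ)
      else 1) ≤ 2 * (k : ℝ) ^ 2 * (Fintype.card (Al N) : ℝ) ^ k := by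
  rcases Nat.eq_zero_or_pos N with rfl | hN
  · simp only [Nat.cast_zero, zero_mul]
    positivity
  have hN' : (0 : ℝ) < 2 * N := by positivity
  have pair1 : ∀ i j : Fin k, N * ∑ y : Fin k → Al N,
      (if (y j).1.1 = (w i).1.1 then (1 : ℝ) else 0) = (Fintype.card (Al N) : ℝ) ^ k := by
    intro i j
    have := sum_ind_eq (h := fun e : Al N => e.1.1) (card_al N) hN' (sum_fst N)
      (fun _ : Fin k → Al N => (1 : ℝ)) (fun _ => (w i).1.1) j (fun _ _ => rfl) (fun _ _ => rfl)
    rw [sum_one_words] at this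
    simpa only [one_mul] using this
  have pair2 : ∀ i j : Fin k, N * ∑ y : Fin k → Al N,
      (if (y j).1.2 = (w i).1.2 then (1 : ℝ) else 0) = (Fintype.card (Al N) : ℝ) ^ k := by
    intro i j
    have := sum_ind_eq (h := fun e : Al N => e.1.2) (card_al N) hN' (sum_snd N)
      (fun _ : Fin k → Al N => (1 : ℝ)) (fun _ => (w i).1.2) j (fun _ _ => rfl) (fun _ _ => rfl)
    rw [sum_one_words] at this
    simpa only [one_mul] using this
  have hnn : ∀ (y : Fin k → Al N) (i j : Fin k),
      0 ≤ (if (y j).1.1 = (w i).1.1 then (1 : ℝ) else 0) +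
        (if (y j).1.2 = (w i).1.2 then (1 : ℝ) else 0) := by
    intro y i j
    split_ifs <;> norm_num
  have hbound : ∀ y : Fin k → Al N, (if ∀ i j, (w i).1.1 ≠ (y j).1.1 ∧ (w i).1.2 ≠ (y j).1.2
      then (0 : ℝ) else 1) ≤ ∑ i, ∑ j, ((if (y j).1.1 = (w i).1.1 then (1 : ℝ) else 0) +
        (if (y j).1.2 = (w i).1.2 then (1 : ℝ) else 0)) := by
    intro y
    split_ifs with hg
    · exact Finset.sum_nonneg fun i _ => Finset.sum_nonneg fun j _ => hnn y i j
    · push Not at hg
      obtain ⟨i, j, hg⟩ := hg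
      calc (1 : ℝ) ≤ (if (y j).1.1 = (w i).1.1 then (1 : ℝ) else 0) +
            (if (y j).1.2 = (w i).1.2 then (1 : ℝ) else 0) := by
            by_cases h1 : (w i).1.1 = (y j).1.1
            · rw [if_pos h1.symm]
              split_ifs <;> norm_num
            · rw [if_pos (hg h1).symm]
              split_ifs <;> norm_num
        _ ≤ ∑ j, ((if (y j).1.1 = (w i).1.1 then (1 : ℝ) else 0) +
            (if (y j).1.2 = (w i).1.2 then (1 : ℝ) else 0)) :=
            Finset.single_le_sum (f := fun j => (if (y j).1.1 = (w i).1.1 then (1 : ℝ) else 0) +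
              (if (y j).1.2 = (w i).1.2 then (1 : ℝ) else 0))
              (fun j _ => hnn y i j) (Finset.mem_univ j)
        _ ≤ _ := Finset.single_le_sum (f := fun i => ∑ j,
              ((if (y j).1.1 = (w i).1.1 then (1 : ℝ) else 0) +
              (if (y j).1.2 = (w i).1.2 then (1 : ℝ) else 0)))
              (fun i _ => Finset.sum_nonneg fun j _ => hnn y i j) (Finset.mem_univ i)
  calc N * ∑ y : Fin k → Al N, (if ∀ i j, (w i).1.1 ≠ (y j).1.1 ∧ (w i).1.2 ≠ (y j).1.2
        then (0 : ℝ) else 1)
      ≤ N * ∑ y : Fin k → Al N, ∑ i, ∑ j, ((if (y j).1.1 = (w i).1.1 then (1 : ℝ) else 0) +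
        (if (y j).1.2 = (w i).1.2 then (1 : ℝ) else 0)) := by
        gcongr with y
        exact hbound y
    _ = ∑ i : Fin k, ∑ j : Fin k, N * ∑ y : Fin k → Al N,
        ((if (y j).1.1 = (w i).1.1 then (1 : ℝ) else 0) +
        (if (y j).1.2 = (w i).1.2 then (1 : ℝ) else 0)) := by
        rw [Finset.sum_comm, Finset.mul_sum]
        refine Finset.sum_congr rfl fun i _ => ?_
        rw [Finset.sum_comm, Finset.mul_sum]
    _ = ∑ i : Fin k, ∑ j : Fin k, 2 * (Fintype.card (Al N) : ℝ) ^ k := by
        refine Finset.sum_congr rfl fun i _ => Finset.sum_congr rfl fun j _ => ?_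
        rw [Finset.sum_add_distrib, mul_add, pair1 i j, pair2 i j]
        ring
    _ = _ := by
        simp only [Finset.sum_const, Finset.card_univ, Fintype.card_fin, nsmul_eq_mul]
        ring

/-- few words are bad -/
lemma sum_bad_one_le (N k : ℕ) : N * ∑ w : Fin k → Al N,
    (if Good (List.ofFn w) then (0 : ℝ) else 1) ≤
      2 * (k : ℝ) ^ 2 * (Fintype.card (Al N) : ℝ) ^ k := by
  have := sum_bad_le (N := N) (k := k) (fun _ => 1) (fun _ => zero_le_one)
    (fun i j _ => Or.inl fun _ _ => rfl)
  rwa [sum_one_words] at this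

lemma half_le {N k : ℕ} (hN : 0 < N) (hNk : 8 * k ^ 2 ≤ N) (w : Fin k → Al N) :
    (Fintype.card (Al N) : ℝ) ^ k / 2 ≤ ∑ y : Fin k → Al N, (if Good (List.ofFn y) ∧
      ∀ i j, (w i).1.1 ≠ (y j).1.1 ∧ (w i).1.2 ≠ (y j).1.2 then (1 : ℝ) else 0) := by
  have h1 := sum_bad_one_le N k
  have h2 := sum_notav_le w
  have h3 : ∑ _y : Fin k → Al N, (1 : ℝ) ≤ ∑ y : Fin k → Al N,
      ((if Good (List.ofFn y) ∧ ∀ i j, (w i).1.1 ≠ (y j).1.1 ∧ (w i).1.2 ≠ (y j).1.2
        then (1 : ℝ) else 0) + (if Good (List.ofFn y) then (0 : ℝ) else 1) +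
      (if ∀ i j, (w i).1.1 ≠ (y j).1.1 ∧ (w i).1.2 ≠ (y j).1.2 then (0 : ℝ) else 1)) := by
    refine Finset.sum_le_sum fun y _ => ?_
    by_cases h4 : Good (List.ofFn y) <;>
      by_cases h5 : ∀ i j, (w i).1.1 ≠ (y j).1.1 ∧ (w i).1.2 ≠ (y j).1.2 <;>
      simp [h4, h5]
  rw [sum_one_words, Finset.sum_add_distrib, Finset.sum_add_distrib] at h3
  set M := (Fintype.card (Al N) : ℝ) ^ k
  have hM : 0 ≤ M := by positivity
  have hN' : (0 : ℝ) < N := by exact_mod_cast hN
  have h6 : 8 * (k : ℝ) ^ 2 ≤ N := by exact_mod_cast hNk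
  set s1 := ∑ w : Fin k → Al N, (if Good (List.ofFn w) then (0 : ℝ) else 1)
  set s2 := ∑ y : Fin k → Al N,
    (if ∀ i j, (w i).1.1 ≠ (y j).1.1 ∧ (w i).1.2 ≠ (y j).1.2 then (0 : ℝ) else 1)
  have h7 : s1 ≤ M / 4 := by
    have : N * s1 ≤ N * (M / 4) := h1.trans (by nlinarith)
    exact le_of_mul_le_mul_left this hN'
  have h8 : s2 ≤ M / 4 := by
    have : N * s2 ≤ N * (M / 4) := h2.trans (by nlinarith)
    exact le_of_mul_le_mul_left this hN'
  linarith

lemma good_update {N k : ℕ} {y w : Fin k → Al N} (hy : Good (List.ofFn y))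
    (h : ∀ i j, (w i).1.1 ≠ (y j).1.1 ∧ (w i).1.2 ≠ (y j).1.2) (i : Fin k) :
    Good (List.ofFn (Function.update y i (w i))) := by
  rw [good_ofFn] at hy ⊢
  intro a b hab
  rcases eq_or_ne a i with rfl | ha
  · rw [Function.update_self, Function.update_of_ne hab.symm]
    exact h _ _
  · rw [Function.update_of_ne ha]
    rcases eq_or_ne b i with rfl | hb
    · rw [Function.update_self]
      exact ⟨(h _ _).1.symm, (h _ _).2.symm⟩
    · rw [Function.update_of_ne hb]
      exact hy a b hab

theorem stmtGood : StmtGood.{u} := by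
  intro k ε hε
  obtain ⟨n₁, hn₁⟩ := exists_nat_gt (16 * (k : ℝ) ^ 2 * (k + 1) ^ 2 / ε)
  refine ⟨max 1 (max (8 * k ^ 2) n₁), ?_⟩
  intro N hN G _ X _ _ _ g x q
  have hN1 : 0 < N := lt_of_lt_of_le one_pos ((le_max_left _ _).trans hN)
  have hN2 : 8 * k ^ 2 ≤ N := (le_max_left _ _).trans ((le_max_right _ _).trans hN)
  have hN3 : n₁ ≤ N := (le_max_right _ _).trans ((le_max_right _ _).trans hN)
  have hN' : (0 : ℝ) < N := by exact_mod_cast hN1
  have hN4 : 16 * (k : ℝ) ^ 2 * (k + 1) ^ 2 ≤ ε * N := by
    have h1 : 16 * (k : ℝ) ^ 2 * (k + 1) ^ 2 / ε ≤ N := hn₁.le.trans (by exact_mod_cast hN3)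
    rw [div_le_iff₀ hε] at h1
    linarith
  set M := (Fintype.card (Al N) : ℝ) ^ k with hM
  have hM0 : 0 < M := by
    rw [hM, card_al]
    positivity
  set D : (Fin k → Al N) → ℝ := fun w => dist x (wval g w • q) ^ 2 with hD
  have hD0 : ∀ w, 0 ≤ D w := fun w => by positivity
  set f : (Fin k → Al N) → ℝ := fun w => if Good (List.ofFn w) then D w else 0 with hf
  have hf0 : ∀ w, 0 ≤ f w := fun w => by
    have := hD0 w
    simp only [hf]
    split_ifs <;> simp [this]
  set Φ := ∑ w, f w with hΦ
  have hΦ0 : 0 ≤ Φ := Finset.sum_nonneg fun w _ => hf0 w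
  -- the bound for a single word
  have single : ∀ w, M / 2 * D w ≤ 2 * (k + 1) ^ 2 * Φ +
      2 * k * ∑ i, ∑ y, f (Function.update y i (w i)) := by
    intro w
    calc M / 2 * D w ≤ (∑ y : Fin k → Al N, (if Good (List.ofFn y) ∧
          ∀ i j, (w i).1.1 ≠ (y j).1.1 ∧ (w i).1.2 ≠ (y j).1.2 then (1 : ℝ) else 0)) * D w := by
          gcongr
          exact half_le hN1 hN2 w
      _ = ∑ y : Fin k → Al N, (if Good (List.ofFn y) ∧
          ∀ i j, (w i).1.1 ≠ (y j).1.1 ∧ (w i).1.2 ≠ (y j).1.2 then (1 : ℝ) else 0) * D w := by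
          rw [Finset.sum_mul]
      _ ≤ ∑ y : Fin k → Al N, (2 * (k + 1) ^ 2 * f y +
          2 * k * ∑ i, f (Function.update y i (w i))) := by
          refine Finset.sum_le_sum fun y _ => ?_
          split_ifs with h
          · have h1 := dist_replace_sq_le g y w x q
            have h2 : f y = dist x (wval g y • q) ^ 2 := by
              simp only [hf, hD]
              rw [if_pos h.1]
            have h3 : ∀ i, f (Function.update y i (w i)) =
                dist x (wval g (Function.update y i (w i)) • q) ^ 2 := by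
              intro i
              simp only [hf, hD]
              rw [if_pos (good_update h.1 h.2 i)]
            simp only [h2, h3, one_mul]
            exact h1
          · rw [zero_mul]
            have h1 := hf0 y
            have h2 : 0 ≤ ∑ i, f (Function.update y i (w i)) :=
              Finset.sum_nonneg fun i _ => hf0 _
            positivity
      _ = _ := by
          rw [Finset.sum_add_distrib, ← Finset.mul_sum, ← Finset.mul_sum, Finset.sum_comm]
  -- sum over the bad words
  set bad := ∑ w, (if Good (List.ofFn w) then 0 else D w) with hbad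
  have hnn : ∀ (i : Fin k) (w : Fin k → Al N), 0 ≤ ∑ y, f (Function.update y i (w i)) :=
    fun i w => Finset.sum_nonneg fun y _ => hf0 _
  have hsum : ∀ i : Fin k, ∑ w : Fin k → Al N, ∑ y, f (Function.update y i (w i)) = M * Φ := by
    intro i
    have h1 := resample (fun w : Fin k → Al N => ∑ y, f (Function.update y i (w i))) i
    simp only [Function.update_self] at h1
    rw [Finset.sum_const, Finset.card_univ, Fintype.card_fun, Fintype.card_fin,
      nsmul_eq_mul, Finset.sum_comm, resample f i] at h1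
    push_cast at h1
    have hc : (0 : ℝ) < Fintype.card (Al N) := by
      rw [card_al]
      positivity
    have h2 : (Fintype.card (Al N) : ℝ) * (∑ w : Fin k → Al N, ∑ y,
        f (Function.update y i (w i))) = Fintype.card (Al N) * (M * Φ) := by
      rw [← h1]
      ring
    exact mul_left_cancel₀ hc.ne' h2
  have hbad1 : N * (M / 2 * bad) ≤ 2 * (k : ℝ) ^ 2 * (2 * (k + 1) ^ 2 * Φ * M +
      2 * k * (k * (M * Φ))) := by
    have e1 : M / 2 * bad ≤ ∑ w : Fin k → Al N, (if Good (List.ofFn w) then 0 else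
        2 * (k + 1) ^ 2 * Φ) + ∑ i : Fin k, 2 * k * ∑ w : Fin k → Al N,
          (if Good (List.ofFn w) then 0 else ∑ y, f (Function.update y i (w i))) := by
      simp only [Finset.mul_sum (a := (2 * k : ℝ))]
      rw [Finset.sum_comm, ← Finset.sum_add_distrib, hbad, Finset.mul_sum]
      refine Finset.sum_le_sum fun w _ => ?_
      split_ifs with h
      · simp
      · rw [← Finset.mul_sum]
        exact single w
    have e2 := sum_bad_le (N := N) (k := k) (fun _ => 2 * (k + 1) ^ 2 * Φ)
      (fun _ => by positivity) (fun i j _ => Or.inl fun _ _ => rfl)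
    have e3 : ∀ i : Fin k, N * ∑ w : Fin k → Al N,
          (if Good (List.ofFn w) then 0 else ∑ y, f (Function.update y i (w i))) ≤
            2 * (k : ℝ) ^ 2 * (M * Φ) := by
      intro i
      rw [← hsum i]
      refine sum_bad_le (fun w => ∑ y, f (Function.update y i (w i))) (hnn i) ?_
      intro a b hab
      by_cases hai : a = i
      · right
        intro w c
        have : i ≠ b := by
          rw [← hai]
          exact hab
        rw [Function.update_of_ne this]
      · left
        intro w c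
        rw [Function.update_of_ne (Ne.symm hai)]
    have e4 : ∑ _w : Fin k → Al N, 2 * ((k : ℝ) + 1) ^ 2 * Φ = 2 * (k + 1) ^ 2 * Φ * M := by
      rw [Finset.sum_const, Finset.card_univ, Fintype.card_fun, Fintype.card_fin, nsmul_eq_mul]
      push_cast
      ring
    rw [e4] at e2
    calc N * (M / 2 * bad) ≤ N * (∑ w : Fin k → Al N, (if Good (List.ofFn w) then 0 else
        2 * (k + 1) ^ 2 * Φ) + ∑ i : Fin k, 2 * k * ∑ w : Fin k → Al N,
          (if Good (List.ofFn w) then 0 else ∑ y, f (Function.update y i (w i)))) := by gcongr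
      _ = N * ∑ w : Fin k → Al N, (if Good (List.ofFn w) then 0 else
        2 * (k + 1) ^ 2 * Φ) + ∑ i : Fin k, 2 * k * (N * ∑ w : Fin k → Al N,
          (if Good (List.ofFn w) then 0 else ∑ y, f (Function.update y i (w i)))) := by
          rw [mul_add, Finset.mul_sum (a := (N : ℝ)) (s := (Finset.univ : Finset (Fin k)))]
          congr 1
          refine Finset.sum_congr rfl fun i _ => ?_
          ring
      _ ≤ 2 * (k : ℝ) ^ 2 * (2 * (k + 1) ^ 2 * Φ * M) +
          ∑ i : Fin k, 2 * k * (2 * (k : ℝ) ^ 2 * (M * Φ)) := by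
          refine add_le_add e2 (Finset.sum_le_sum fun i _ => ?_)
          exact mul_le_mul_of_nonneg_left (e3 i) (by positivity)
      _ = _ := by
          rw [Finset.sum_const, Finset.card_univ, Fintype.card_fin, nsmul_eq_mul]
          ring
  have hbad2 : bad ≤ ε * Φ := by
    have h1 : N * M * bad ≤ N * M * (ε * Φ) := by
      calc N * M * bad = 2 * (N * (M / 2 * bad)) := by ring
        _ ≤ 2 * (2 * (k : ℝ) ^ 2 * (2 * (k + 1) ^ 2 * Φ * M + 2 * k * (k * (M * Φ)))) := by
          gcongr
        _ ≤ (16 * (k : ℝ) ^ 2 * (k + 1) ^ 2) * (M * Φ) := by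
          have h5 : 0 ≤ M * Φ := by positivity
          have h6 : (k : ℝ) ^ 2 ≤ (k + 1) ^ 2 := by
            have : (0 : ℝ) ≤ k := Nat.cast_nonneg k
            nlinarith
          have h7 : 0 ≤ (k : ℝ) ^ 2 * (M * Φ) := by positivity
          nlinarith [mul_le_mul_of_nonneg_right h6 h7]
        _ ≤ (ε * N) * (M * Φ) := by gcongr
        _ = _ := by ring
    exact le_of_mul_le_mul_left h1 (by positivity)
  -- conclusion
  have hTh : Th g k x q = (Φ + bad) / M := by
    unfold Th
    congr 1
    rw [hΦ, hbad, ← Finset.sum_add_distrib]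
    refine Finset.sum_congr rfl fun w _ => ?_
    simp only [hf, hD]
    split_ifs <;> simp
  have hgood : (∑ w : {w : Fin k → Al N // Good (List.ofFn w)}, dist x (wval g w.1 • q) ^ 2) =
      Φ := by
    rw [hΦ, ← Finset.sum_filter, ← Finset.sum_subtype_eq_sum_filter]
    refine Finset.sum_congr ?_ fun _ _ => rfl
    ext
    simp
  have hcard : (Fintype.card {w : Fin k → Al N // Good (List.ofFn w)} : ℝ) ≤ M := by
    have h1 := Fintype.card_subtype_le fun w : Fin k → Al N => Good (List.ofFn w)
    have h2 : Fintype.card (Fin k → Al N) = Fintype.card (Al N) ^ k := by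
      rw [Fintype.card_fun, Fintype.card_fin]
    rw [h2] at h1
    calc (Fintype.card {w : Fin k → Al N // Good (List.ofFn w)} : ℝ)
        ≤ ((Fintype.card (Al N) ^ k : ℕ) : ℝ) := by exact_mod_cast h1
      _ = M := by
        rw [hM]
        push_cast
        rfl
  have hcard0 : (0 : ℝ) < Fintype.card {w : Fin k → Al N // Good (List.ofFn w)} := by
    have : Nonempty {w : Fin k → Al N // Good (List.ofFn w)} := by
      by_contra hemp
      have hno : ∀ w : Fin k → Al N, ¬ Good (List.ofFn w) := by
        intro w hw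
        exact hemp ⟨⟨w, hw⟩⟩
      have h1 := sum_bad_one_le N k
      simp only [hno, if_false] at h1
      rw [sum_one_words] at h1
      change N * M ≤ 2 * (k : ℝ) ^ 2 * M at h1
      have h2 : (N : ℝ) ≤ 2 * (k : ℝ) ^ 2 := le_of_mul_le_mul_right h1 hM0
      have h3 : 8 * (k : ℝ) ^ 2 ≤ N := by exact_mod_cast hN2
      nlinarith
    exact_mod_cast Fintype.card_pos
  rw [hTh, hgood]
  calc (Φ + bad) / M ≤ (Φ + ε * Φ) / M := by gcongr
    _ = (1 + ε) * (Φ / M) := by ring
    _ ≤ _ := by gcongr

end Main

end Vale.Agent.P172
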