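import Vale.Agent.P172.B7
import Vale.Agent.P172.GoodW

/-!
# P172, route DIM, ASM1: the fixed point property of the random group (helper218)
-/

namespace Vale.Agent.P172

universe u

open Finset

open Classical in
/-- the nonlinear gap with given constants -/
def UGc (n : ℕ) (c ε : ℝ) : Prop :=
  ∀ (V : Type) [Fintype V] (adj : V → V → Prop) (p : ℝ), QR adj p ε →
  ∀ (X : Type u) [MetricSpace X] [CompleteSpace X], Cat X → JungProp X n →
  ∀ (f₁ f₂ : V → X) (r : ℝ),
    (∀ x, r ≤ (∑ u, dist (f₁ u) x ^ 2) / Fintype.card V) →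
    (∀ x, r ≤ (∑ v, dist (f₂ v) x ^ 2) / Fintype.card V) →
    (1 + c) * r ≤ (∑ u, ∑ v, if adj u v then dist (f₁ u) (f₂ v) ^ 2 else 0) /
      ((Fintype.card V) ^ 2 * p)

theorem QR.mono {V : Type} [Fintype V] {adj : V → V → Prop} {p ε ε' : ℝ} (h : QR adj p ε)
    (hε : ε ≤ ε') : QR adj p ε' := by
  have hm : 0 ≤ (Fintype.card V : ℝ) * p ^ 2 := by positivity
  have hm' : 0 ≤ (Fintype.card V : ℝ) * p := mul_nonneg (Nat.cast_nonneg _) h.pos.le
  have h1 := mul_le_mul_of_nonneg_right hε hm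
  refine ⟨h.pos, h.le_one, h.big.trans h1, fun v => (h.deg v).trans ?_, fun u u' hu =>
    (h.row u u' hu).trans h1, fun u u' hu => (h.col u u' hu).trans h1⟩
  exact mul_le_mul_of_nonneg_right (by linarith) hm'

section Words

variable {N : ℕ}

theorem gf_inv (e : Al N) : gf (Al.inv e) = (gf e)⁻¹ := by
  unfold gf Al.inv
  rcases e with ⟨⟨a, b⟩, s⟩
  cases s <;> simp

theorem Al.inv_inv (e : Al N) : Al.inv (Al.inv e) = e := by
  unfold Al.inv
  simp

theorem good_left {k k' : ℕ} {u : Fin k → Al N} {c : Fin k' → Al N} {v : Fin k → Al N}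
    (h : Good (relWord u c v)) : Good (List.ofFn u) := by
  unfold Good relWord at *
  simp only [List.map_append, List.nodup_append] at h
  exact ⟨h.1.1.1, h.2.1.1⟩

theorem good_right {k k' : ℕ} {u : Fin k → Al N} {c : Fin k' → Al N} {v : Fin k → Al N}
    (h : Good (relWord u c v)) : Good (List.ofFn v) := by
  unfold Good relWord at *
  simp only [List.map_append, List.nodup_append, List.map_reverse, List.nodup_reverse,
    List.map_map] at h
  exact ⟨h.1.2.1, h.2.2.1⟩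

/-- the letters in the group -/
def gG (W : Finset (List (Al (N + 1)))) (e : Al (N + 1)) : Gr W := PresentedGroup.mk (rl W) (gf e)

variable {W : Finset (List (Al (N + 1)))}

theorem gG_inv (e : Al (N + 1)) : gG W (Al.inv e) = (gG W e)⁻¹ := by
  unfold gG
  rw [gf_inv, map_inv]

theorem gG_list (l : List (Al (N + 1))) :
    (l.map (gG W)).prod = PresentedGroup.mk (rl W) (l.map gf).prod := by
  rw [map_list_prod, List.map_map]
  rfl

theorem gG_rel {w : List (Al (N + 1))} (hw : w ∈ W) : (w.map (gG W)).prod = 1 := by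
  rw [gG_list]
  exact PresentedGroup.one_of_mem (Or.inr ⟨w, hw, rfl⟩)

theorem gG_relWord {k k' : ℕ} {u : Fin k → Al (N + 1)} {c : Fin k' → Al (N + 1)}
    {v : Fin k → Al (N + 1)} (hw : relWord u c v ∈ W) :
    wval (gG W) u * wval (gG W) c = wval (gG W) v := by
  have h := gG_rel hw
  unfold relWord at h
  rw [List.map_append, List.map_append, List.prod_append, List.prod_append, ← wval_eq,
    ← wval_eq] at h
  have h2 : ((List.map Al.inv (List.ofFn v)).reverse.map (gG W)).prod = (wval (gG W) v)⁻¹ := by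
    rw [wval_eq, List.prod_inv_reverse, List.map_reverse, List.map_map, List.map_map]
    congr 3
    funext e
    exact gG_inv e
  rw [h2] at h
  exact mul_inv_eq_one.mp h

theorem gG_list_inv (l : List (Al (N + 1))) :
    ((l.map Al.inv).reverse.map (gG W)).prod = ((l.map (gG W)).prod)⁻¹ := by
  rw [List.prod_inv_reverse, List.map_reverse, List.map_map, List.map_map]
  congr 3
  funext e
  exact gG_inv e

/-- a point fixed by all letters is fixed by the group -/
theorem fixed_of_letters {X : Type u} [MulAction (Gr W) X] {q : X}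
    (h : ∀ e, gG W e • q = q) (x : Gr W) : x • q = q := by
  have h0 : (PresentedGroup.of (Sum.inl 0) : Gr W) = 1 :=
    PresentedGroup.one_of_mem (Or.inl rfl)
  have h1 : ∀ a b : Fin (N + 1), ((PresentedGroup.of (Sum.inl a) : Gr W)⁻¹ *
      PresentedGroup.of (Sum.inr b)) • q = q := fun a b => h ((a, b), true)
  have h2 : ∀ b : Fin (N + 1), (PresentedGroup.of (Sum.inr b) : Gr W) • q = q := by
    intro b
    have h3 := h1 0 b
    rw [h0, inv_one, one_mul] at h3
    exact h3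
  have h3 : ∀ a : Fin (N + 1), (PresentedGroup.of (Sum.inl a) : Gr W) • q = q := by
    intro a
    have h4 := h1 a 0
    rw [mul_smul, h2, inv_smul_eq_iff] at h4
    exact h4.symm
  have h4 : x ∈ MulAction.stabilizer (Gr W) q := by
    refine PresentedGroup.generated_by (rl W) (MulAction.stabilizer (Gr W) q) (fun j => ?_) x
    rw [MulAction.mem_stabilizer_iff]
    rcases j with j | j
    · exact h3 j
    · exact h2 j
  exact MulAction.mem_stabilizer_iff.mp h4

end Words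

theorem sum_subtype_le {α : Type} [Fintype α] {P : α → Prop} [Fintype {a // P a}] (f : α → ℝ)
    (hf : ∀ a, 0 ≤ f a) : ∑ a : {a // P a}, f a.1 ≤ ∑ a, f a := by
  classical
  have h : ∑ a : {a // P a}, f a.1 = ∑ a ∈ Finset.univ.filter P, f a :=
    (Finset.sum_subtype (Finset.univ.filter P) (by simp) f).symm
  rw [h]
  exact Finset.sum_le_sum_of_subset_of_nonneg (Finset.filter_subset _ _) fun a _ _ => hf a

/-- energy over the edges is controlled by the sum over the triples -/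
theorem sum_edges_le {A B : Type} [Fintype A] [Fintype B] {P : A → Prop} [Fintype {a // P a}]
    (Rel : Finset (A × B × A)) (adj : {a // P a} → {a // P a} → Prop)
    [∀ u v, Decidable (adj u v)] (hadj : ∀ u v, adj u v → ∃ b, (u.1, b, v.1) ∈ Rel)
    (D : {a // P a} → {a // P a} → ℝ) (F : B → ℝ) (hF : ∀ b, 0 ≤ F b)
    (hD : ∀ (u : {a // P a}) b (v : {a // P a}), (u.1, b, v.1) ∈ Rel → D u v = F b) :
    ∑ u : {a // P a}, ∑ v : {a // P a}, (if adj u v then D u v else 0) ≤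
      ∑ t ∈ Rel, F t.2.1 := by
  classical
  have h1 : ∀ u v : {a // P a}, (if adj u v then D u v else 0) ≤
      ∑ b, if (u.1, b, v.1) ∈ Rel then F b else 0 := by
    intro u v
    have hnn : ∀ b, (0 : ℝ) ≤ if (u.1, b, v.1) ∈ Rel then F b else 0 := by
      intro b
      split_ifs
      · exact hF b
      · exact le_rfl
    split_ifs with h
    · obtain ⟨b, hb⟩ := hadj u v h
      calc D u v = if (u.1, b, v.1) ∈ Rel then F b else 0 := by rw [if_pos hb, hD u b v hb]
        _ ≤ _ := Finset.single_le_sum (f := fun b => if (u.1, b, v.1) ∈ Rel then F b else 0)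
          (fun b _ => hnn b) (Finset.mem_univ b)
    · exact Finset.sum_nonneg fun b _ => hnn b
  have h2 : ∀ u v : A, (0 : ℝ) ≤ ∑ b, if (u, b, v) ∈ Rel then F b else 0 := by
    intro u v
    refine Finset.sum_nonneg fun b _ => ?_
    split_ifs
    · exact hF b
    · exact le_rfl
  calc ∑ u : {a // P a}, ∑ v : {a // P a}, (if adj u v then D u v else 0) ≤
      ∑ u : {a // P a}, ∑ v : {a // P a}, ∑ b, if (u.1, b, v.1) ∈ Rel then F b else 0 :=
        Finset.sum_le_sum fun u _ => Finset.sum_le_sum fun v _ => h1 u v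
    _ ≤ ∑ u : {a // P a}, ∑ v : A, ∑ b, if (u.1, b, v) ∈ Rel then F b else 0 :=
        Finset.sum_le_sum fun u _ => sum_subtype_le
          (fun v => ∑ b, if (u.1, b, v) ∈ Rel then F b else 0) (h2 u.1)
    _ ≤ ∑ u : A, ∑ v : A, ∑ b, if (u, b, v) ∈ Rel then F b else 0 :=
        sum_subtype_le (fun u => ∑ v : A, ∑ b, if (u, b, v) ∈ Rel then F b else 0)
          fun u => Finset.sum_nonneg fun v _ => h2 u v
    _ = ∑ u : A, ∑ b, ∑ v : A, if (u, b, v) ∈ Rel then F b else 0 :=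
        Finset.sum_congr rfl fun u _ => Finset.sum_comm
    _ = ∑ t : A × B × A, if t ∈ Rel then F t.2.1 else 0 := by
        rw [Fintype.sum_prod_type]
        refine Finset.sum_congr rfl fun u _ => ?_
        rw [Fintype.sum_prod_type]
    _ = ∑ t ∈ Rel, F t.2.1 := by
        rw [← Finset.sum_filter]
        congr 1
        ext t
        simp

theorem fin_arith {c ε₂ r T : ℝ} (hc : 0 < c) (hc1 : c ≤ 1) (hε₂' : ε₂ ≤ c / 10) (hr : 0 < r)
    (hT : 0 ≤ T) (hub2 : (1 + c) * (r / (1 + c / 10)) ≤ (1 + ε₂) * T) : (1 + c / 2) * r ≤ T := by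
  have h3 : (1 + c) * r ≤ (1 + c / 10) * ((1 + ε₂) * T) := by
    rw [← mul_div_assoc, div_le_iff₀ (by linarith)] at hub2
    linarith
  have h4 : (1 + ε₂) * T ≤ (1 + c / 10) * T :=
    mul_le_mul_of_nonneg_right (by linarith) hT
  have h5 : (1 + c) * r ≤ (1 + c / 10) * ((1 + c / 10) * T) :=
    h3.trans (mul_le_mul_of_nonneg_left h4 (by linarith))
  have h6 : (1 + c / 10) * (1 + c / 10) * ((1 + c / 2) * r) ≤ (1 + c) * r := by
    have : (1 + c / 10) * (1 + c / 10) * (1 + c / 2) ≤ 1 + c := by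
      nlinarith [mul_pos hc hc, mul_pos (mul_pos hc hc) hc, mul_nonneg hc.le (sub_nonneg.mpr hc1),
        mul_nonneg (mul_pos hc hc).le (sub_nonneg.mpr hc1)]
    calc (1 + c / 10) * (1 + c / 10) * ((1 + c / 2) * r) =
        (1 + c / 10) * (1 + c / 10) * (1 + c / 2) * r := by ring
      _ ≤ _ := mul_le_mul_of_nonneg_right this hr.le
  have h7 : (1 + c / 10) * (1 + c / 10) * ((1 + c / 2) * r) ≤
      (1 + c / 10) * (1 + c / 10) * T := by linarith
  exact le_of_mul_le_mul_left h7 (by positivity)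

open Classical in
/-- growth of the two-point energies -/
theorem growth {n : ℕ} {c ε ε₂ : ℝ} (hc : 0 < c) (hc1 : c ≤ 1) (hUG : UGc.{u} n c ε)
    (hε₂ : ε₂ ≤ ε) (hε₂' : ε₂ ≤ c / 10) {N : ℕ} {W : Finset (List (Al (N + 1)))} {k k' : ℕ}
    (Rel : Finset ((Fin k → Al (N + 1)) × (Fin k' → Al (N + 1)) × (Fin k → Al (N + 1))))
    (hW : ∀ t ∈ Rel, relWord t.1 t.2.1 t.2.2 ∈ W)
    (hQR : QR (V := {w : Fin k → Al (N + 1) // Good (List.ofFn w)})
      (fun u v => ∃ c, (u.1, c, v.1) ∈ Rel) (1 / ((N + 1 : ℕ) : ℝ) ^ (k - 1)) ε₂)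
    (hcount : ∀ c : Fin k' → Al (N + 1), ((Rel.filter fun t => t.2.1 = c).card : ℝ) ≤
      (1 + ε₂) * ((Fintype.card {w : Fin k → Al (N + 1) // Good (List.ofFn w)} : ℝ) ^ 2 *
        (1 / ((N + 1 : ℕ) : ℝ) ^ (k - 1)) / (Fintype.card (Al (N + 1)) : ℝ) ^ k'))
    {X : Type u} [MetricSpace X] [CompleteSpace X] [MulAction (Gr W) X]
    [IsIsometricSMul (Gr W) X] (hX : Cat X) (hJ : JungProp X n)
    (hG : ∀ x q : X, Th (gG W) k x q ≤ (1 + c / 10) *
      ((∑ w : {w : Fin k → Al (N + 1) // Good (List.ofFn w)},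
        dist x (wval (gG W) w.1 • q) ^ 2) /
        Fintype.card {w : Fin k → Al (N + 1) // Good (List.ofFn w)}))
    (p q : X) (r : ℝ) (h1 : ∀ x, r ≤ Th (gG W) k x p) (h2 : ∀ x, r ≤ Th (gG W) k x q) :
    (1 + c / 2) * r ≤ Th (gG W) k' p q := by
  rcases le_or_gt r 0 with hr | hr
  · exact (mul_nonpos_of_nonneg_of_nonpos (by linarith) hr).trans (th_nonneg (gG W) k' p q)
  obtain ⟨pp, hpp⟩ : ∃ pp : ℝ, pp = 1 / ((N + 1 : ℕ) : ℝ) ^ (k - 1) := ⟨_, rfl⟩
  have hpp0 : 0 < pp := by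
    rw [hpp]
    positivity
  rw [← hpp] at hQR hcount
  have hn : (0 : ℝ) < Fintype.card {w : Fin k → Al (N + 1) // Good (List.ofFn w)} := by
    have h := hQR.big
    rcases Nat.eq_zero_or_pos (Fintype.card {w : Fin k → Al (N + 1) // Good (List.ofFn w)})
      with h0 | h0
    · rw [h0] at h
      norm_num at h
    · exact_mod_cast h0
  have hub := hUG {w : Fin k → Al (N + 1) // Good (List.ofFn w)}
    (fun u v => ∃ c, (u.1, c, v.1) ∈ Rel) pp (hQR.mono hε₂) X hX hJ
    (fun u => wval (gG W) u.1 • p) (fun v => wval (gG W) v.1 • q) (r / (1 + c / 10))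
    (fun x => by
      rw [div_le_iff₀ (by linarith)]
      refine (h1 x).trans ((hG x p).trans (le_of_eq ?_))
      simp only [dist_comm x]
      ring)
    (fun x => by
      rw [div_le_iff₀ (by linarith)]
      refine (h2 x).trans ((hG x q).trans (le_of_eq ?_))
      simp only [dist_comm x]
      ring)
  obtain ⟨n2, hn2⟩ : ∃ n2 : ℝ,
      n2 = (Fintype.card {w : Fin k → Al (N + 1) // Good (List.ofFn w)} : ℝ) ^ 2 := ⟨_, rfl⟩
  have hn20 : 0 < n2 := by
    rw [hn2]
    positivity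
  rw [← hn2] at hub hcount
  have hAl : (0 : ℝ) < (Fintype.card (Al (N + 1)) : ℝ) ^ k' := by
    have : (0 : ℝ) < Fintype.card (Al (N + 1)) := by exact_mod_cast Fintype.card_pos
    positivity
  have hsum := sum_edges_le (P := fun w : Fin k → Al (N + 1) => Good (List.ofFn w)) Rel
    (fun u v => ∃ c, (u.1, c, v.1) ∈ Rel) (fun _ _ h => h)
    (fun u v => dist (wval (gG W) u.1 • p) (wval (gG W) v.1 • q) ^ 2)
    (fun b => dist p (wval (gG W) b • q) ^ 2) (fun _ => sq_nonneg _) (fun u b v huv => by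
      have h := gG_relWord (hW _ huv)
      rw [← h, mul_smul, dist_smul])
  have hsum2 : ∑ t ∈ Rel, dist p (wval (gG W) t.2.1 • q) ^ 2 ≤
      (1 + ε₂) * (n2 * pp) * Th (gG W) k' p q := by
    rw [← Finset.sum_fiberwise Rel (fun t => t.2.1)]
    have e : ∀ b : Fin k' → Al (N + 1), ∑ t ∈ Rel with t.2.1 = b,
        dist p (wval (gG W) t.2.1 • q) ^ 2 =
        ((Rel.filter fun t => t.2.1 = b).card : ℝ) * dist p (wval (gG W) b • q) ^ 2 := by
      intro b
      rw [Finset.sum_congr rfl fun t ht => by rw [(Finset.mem_filter.mp ht).2], Finset.sum_const,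
        nsmul_eq_mul]
    rw [Finset.sum_congr rfl fun b _ => e b]
    unfold Th
    rw [← mul_div_assoc, Finset.mul_sum, Finset.sum_div]
    refine Finset.sum_le_sum fun b _ => ?_
    have h3 := mul_le_mul_of_nonneg_right (hcount b)
      (sq_nonneg (dist p (wval (gG W) b • q)))
    refine h3.trans (le_of_eq ?_)
    ring
  have hub2 : (1 + c) * (r / (1 + c / 10)) ≤ (1 + ε₂) * Th (gG W) k' p q := by
    refine hub.trans ?_
    rw [div_le_iff₀ (mul_pos hn20 hpp0)]
    have hs := hsum.trans hsum2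
    have e : (1 + ε₂) * Th (gG W) k' p q * (n2 * pp) = (1 + ε₂) * (n2 * pp) * Th (gG W) k' p q := by
      ring
    rw [e]
    convert hs using 5
  exact fin_arith hc hc1 hε₂' hr (th_nonneg (gG W) k' p q) hub2

theorem QR.nontrivial {V : Type} [Fintype V] {adj : V → V → Prop} {p ε : ℝ} (h : QR adj p ε)
    (hε : ε < 1) : Nontrivial V := by
  have hbig := h.big
  have hp0 := h.pos
  have hp1 := h.le_one
  obtain ⟨n1, hn1⟩ : ∃ n1 : ℕ, n1 = Fintype.card V := ⟨_, rfl⟩
  have hcard : 1 < n1 := by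
    rw [← hn1] at hbig
    have h1 : (n1 : ℝ) * p ^ 2 ≤ n1 * 1 := mul_le_mul_of_nonneg_left
      (pow_le_one₀ hp0.le hp1) (Nat.cast_nonneg _)
    have h0 : 0 ≤ (n1 : ℝ) * p ^ 2 := by positivity
    rcases h0.eq_or_lt with h2 | h2
    · rw [← h2] at hbig
      norm_num at hbig
    · have := mul_lt_mul_of_pos_right hε h2
      have h3 : (1 : ℝ) < n1 := by linarith
      exact_mod_cast h3
  exact Fintype.one_lt_card_iff_nontrivial.mp (by rw [← hn1]; exact hcard)

open Classical in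
theorem QR.exists_common {V : Type} [Fintype V] {adj : V → V → Prop} {p ε : ℝ} (h : QR adj p ε)
    (hε : ε < 1) {u u' : V} (hne : u ≠ u') : ∃ v, adj u v ∧ adj u' v := by
  have hnt := h.nontrivial hε
  have hn : (0 : ℝ) < Fintype.card V := by exact_mod_cast Fintype.card_pos
  have hp0 := h.pos
  have hm0 : 0 < (Fintype.card V : ℝ) * p ^ 2 := by positivity
  have h2 := mul_lt_mul_of_pos_right hε hm0
  rw [one_mul] at h2
  have h4 := sub_le_iff_le_add.mpr (neg_le_sub_iff_le_add.mp (abs_le.mp (h.row u u' hne)).1)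
  have hpos' := Nat.cast_pos.mp ((sub_pos.mpr h2).trans_le h4)
  obtain ⟨v, hv⟩ := Finset.card_pos.mp hpos'
  exact ⟨v, (@Finset.mem_filter _ _ _ _ _).mp hv |>.2⟩

open Classical in
/-- every letter is the value of a word of even length -/
theorem even_words {N : ℕ} {W : Finset (List (Al (N + 1)))} {k k' : ℕ} {ε₂ : ℝ} (hε₂ : ε₂ < 1)
    (hk : 0 < k) (hkN : k ≤ N + 1) (hodd : Odd k')
    (Rel : Finset ((Fin k → Al (N + 1)) × (Fin k' → Al (N + 1)) × (Fin k → Al (N + 1))))
    (hW : ∀ t ∈ Rel, relWord t.1 t.2.1 t.2.2 ∈ W)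
    (hQR : QR (V := {w : Fin k → Al (N + 1) // Good (List.ofFn w)})
      (fun u v => ∃ c, (u.1, c, v.1) ∈ Rel) (1 / ((N + 1 : ℕ) : ℝ) ^ (k - 1)) ε₂)
    (a : Al (N + 1)) :
    ∃ l : List (Al (N + 1)), Even l.length ∧ (l.map (gG W)).prod = gG W a := by
  obtain ⟨m, rfl⟩ : ∃ m, k = m + 1 := ⟨k - 1, by omega⟩
  obtain ⟨pp, hpp⟩ : ∃ pp : ℝ, pp = 1 / ((N + 1 : ℕ) : ℝ) ^ (m + 1 - 1) := ⟨_, rfl⟩
  rw [← hpp] at hQR
  -- a good word starting with `a`
  obtain ⟨u, hu⟩ : ∃ u : {w : Fin (m + 1) → Al (N + 1) // Good (List.ofFn w)}, u.1 0 = a := by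
    have hinj : ∀ i j : Fin (m + 1), i ≠ j → Fin.ofNat (N + 1) i.1 ≠ Fin.ofNat (N + 1) j.1 := by
      intro i j hij h
      apply hij
      have h2 := congrArg Fin.val h
      simp only [Fin.ofNat] at h2
      rw [Nat.mod_eq_of_lt (lt_of_lt_of_le i.2 hkN), Nat.mod_eq_of_lt (lt_of_lt_of_le j.2 hkN)] at h2
      exact Fin.ext h2
    refine ⟨⟨fun i => ((a.1.1 + Fin.ofNat (N + 1) i.1, a.1.2 + Fin.ofNat (N + 1) i.1), a.2), ?_⟩, ?_⟩
    · rw [good_ofFn]
      intro i j hij
      exact ⟨fun h => hinj i j hij (add_left_cancel h), fun h => hinj i j hij (add_left_cancel h)⟩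
    · ext <;> simp [Fin.ofNat]
  have hnt := hQR.nontrivial hε₂
  obtain ⟨u', hu'⟩ := exists_ne u
  obtain ⟨v, -, c, hc⟩ := hQR.exists_common hε₂ hu'
  have hrel := gG_relWord (hW _ hc)
  have hu2 : wval (gG W) u.1 = gG W a * ((List.ofFn (Fin.tail u.1)).map (gG W)).prod := by
    rw [wval_succ, hu, wval_eq]
  refine ⟨List.ofFn v.1 ++ (((List.ofFn c).map Al.inv).reverse ++
    ((List.ofFn (Fin.tail u.1)).map Al.inv).reverse), ?_, ?_⟩
  · simp only [List.length_append, List.length_ofFn, List.length_reverse, List.length_map]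
    obtain ⟨b, hb⟩ := hodd
    exact ⟨m + b + 1, by omega⟩
  · rw [List.map_append, List.map_append, List.prod_append, List.prod_append, gG_list_inv,
      gG_list_inv, ← wval_eq, ← wval_eq, ← hrel, hu2]
    group

open Classical in
/-- **ASM1** -/
theorem asm1 {n : ℕ} {c ε ε₂ : ℝ} (hc : 0 < c) (hc1 : c ≤ 1) (hUG : UGc.{u} n c ε)
    (hε₂ : ε₂ ≤ ε) (hε₂' : ε₂ ≤ c / 10) {P : ℕ} (hlam : 4 < (1 + c / 2) ^ P) {k : ℕ → ℕ}
    (hk0 : 0 < k 0) (hk : ∀ j, k j < k (j + 1)) (hkP : k P ≤ 2 * k 0) (hodd : Odd (k 1))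
    {N : ℕ} (hN : k 0 ≤ N + 1) {W : Finset (List (Al (N + 1)))}
    (Rel : (j : ℕ) → Finset ((Fin (k j) → Al (N + 1)) × (Fin (k (j + 1)) → Al (N + 1)) ×
      (Fin (k j) → Al (N + 1))))
    (hW : ∀ j < P, ∀ t ∈ Rel j, relWord t.1 t.2.1 t.2.2 ∈ W)
    (hQR : ∀ j < P, QR (V := {w : Fin (k j) → Al (N + 1) // Good (List.ofFn w)})
      (fun u v => ∃ c, (u.1, c, v.1) ∈ Rel j) (1 / ((N + 1 : ℕ) : ℝ) ^ (k j - 1)) ε₂)
    (hcount : ∀ j < P, ∀ c : Fin (k (j + 1)) → Al (N + 1),
      (((Rel j).filter fun t => t.2.1 = c).card : ℝ) ≤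
      (1 + ε₂) * ((Fintype.card {w : Fin (k j) → Al (N + 1) // Good (List.ofFn w)} : ℝ) ^ 2 *
        (1 / ((N + 1 : ℕ) : ℝ) ^ (k j - 1)) / (Fintype.card (Al (N + 1)) : ℝ) ^ k (j + 1)))
    {X : Type u} [Nonempty X] [MetricSpace X] [CompleteSpace X] [MulAction (Gr W) X]
    [IsIsometricSMul (Gr W) X] (hX : Cat X) (hJ : JungProp X n)
    (hG : ∀ j < P, ∀ x q : X, Th (gG W) (k j) x q ≤ (1 + c / 10) *
      ((∑ w : {w : Fin (k j) → Al (N + 1) // Good (List.ofFn w)},
        dist x (wval (gG W) w.1 • q) ^ 2) /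
        Fintype.card {w : Fin (k j) → Al (N + 1) // Good (List.ofFn w)})) :
    ∃ q : X, ∀ h : Gr W, h • q = q := by
  have hP : 0 < P := by
    rcases Nat.eq_zero_or_pos P with h | h
    · rw [h] at hlam
      norm_num at hlam
    · exact h
  obtain ⟨q, hq⟩ := stmtFix (Gr W) X hX (Al (N + 1)) (gG W) Al.inv Al.inv_inv gG_inv P k
    (1 + c / 2) (by linarith) hlam hk0 hk hkP
    (fun j hj p q r h1 h2 => growth hc hc1 hUG hε₂ hε₂' (Rel j) (hW j hj) (hQR j hj)
      (hcount j hj) hX hJ (hG j hj) p q r h1 h2)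
    (fun a => even_words (by linarith) hk0 hN hodd (Rel 0) (hW 0 hP) (hQR 0 hP) a)
  exact ⟨q, fixed_of_letters hq⟩

end Vale.Agent.P172
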