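import Vale.Agent.P172.Asm1

/-!
# P172, route DIM: constants of the nonlinear gap (helper218)
-/

namespace Vale.Agent.P172

universe u

open Finset

open Classical in
theorem exists_UGc (n : ℕ) : ∃ c ε : ℝ, 0 < c ∧ c ≤ 1 ∧ 0 < ε ∧ UGc.{u} n c ε := by
  obtain ⟨c, hc, ε, hε, h⟩ := stmtUG.{u} n
  refine ⟨min c 1, ε, lt_min hc one_pos, min_le_right _ _, hε, ?_⟩
  intro V _ adj p hQR X _ _ hX hJ f₁ f₂ r h1 h2
  rcases le_or_gt r 0 with hr | hr
  · have hp := hQR.pos
    have h3 : (1 + min c 1) * r ≤ 0 := mul_nonpos_of_nonneg_of_nonpos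
      (by have := lt_min hc one_pos; linarith) hr
    refine h3.trans (div_nonneg (Finset.sum_nonneg fun u _ => Finset.sum_nonneg fun v _ => ?_)
      (by positivity))
    split_ifs
    · exact sq_nonneg _
    · exact le_rfl
  · refine le_trans ?_ (h V adj p hQR X hX hJ f₁ f₂ r h1 h2)
    exact mul_le_mul_of_nonneg_right (by have := min_le_left c 1; linarith) hr.le

end Vale.Agent.P172
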