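import Vale.Agent.P172.Bas

/-!
# P172, DIM-B, B1 and B2: first variation at the barycentre, flat triangles (helper218)
-/

namespace Vale.Agent.P172

universe u

open Set Finset

section

variable {X : Type u} [MetricSpace X] (hX : Cat X)

/-- pointwise inequality for Lemma A -/
theorem contr_aux (b x z : X) {s t : ℝ} (ht0 : 0 ≤ t) (ht1 : t ≤ 1) :
    t ^ 2 * dist b z ^ 2 + 2 * t * dist b z * (dist z (pt hX b x s) - dist b z) ≤
      dist (pt hX b x s) (pt hX b z t) ^ 2 := by
  set D := dist z (pt hX b x s) with hD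
  set δ := D - dist b z with hδ
  have h1 : D ≤ (1 - t) * dist b z + dist (pt hX b x s) (pt hX b z t) := by
    have h2 := dist_triangle z (pt hX b z t) (pt hX b x s)
    have h3 := dist_pt_right hX b z ht0 ht1
    rw [dist_comm (pt hX b z t) z] at h3
    rw [dist_comm (pt hX b x s)]
    linarith
  have hz : 0 ≤ dist b z := dist_nonneg
  have hd : 0 ≤ dist (pt hX b x s) (pt hX b z t) := dist_nonneg
  by_cases hc : 0 ≤ t * dist b z + δ
  · have h4 : (t * dist b z + δ) ^ 2 ≤ dist (pt hX b x s) (pt hX b z t) ^ 2 :=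
      pow_le_pow_left₀ hc (by rw [hδ]; linarith) 2
    nlinarith [sq_nonneg δ]
  · push Not at hc
    have h5 : 0 ≤ t * dist b z := mul_nonneg ht0 hz
    have h6 : δ < 0 := by linarith
    have h7 : t ^ 2 * dist b z ^ 2 + 2 * t * dist b z * δ ≤ 0 := by
      have : t ^ 2 * dist b z ^ 2 + 2 * t * dist b z * δ =
        (t * dist b z) * (t * dist b z + 2 * δ) := by ring
      rw [this]
      exact mul_nonpos_of_nonneg_of_nonpos h5 (by linarith)
    exact h7.trans (sq_nonneg _)

variable {ι : Type} [Fintype ι] {w : ι → ℝ} {f : ι → X} {b : X}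

/-- Lemma A -/
theorem ip_contr_nonpos (hw : ∀ i, 0 ≤ w i) (hw1 : ∑ i, w i = 1) (hb : IsBar w f b) (x : X)
    {t : ℝ} (ht0 : 0 ≤ t) (ht1 : t ≤ 1) : ∑ i, w i * ip b x (pt hX b (f i) t) ≤ 0 := by
  have key : ∀ s : ℝ, 0 < s → s ≤ 1 →
      ∑ i, w i * ip b x (pt hX b (f i) t) ≤ s * (dist b x ^ 2 / 2) := by
    intro s hs0 hs1
    set y := pt hX b x s with hy
    have hby : dist b y = s * dist b x := dist_pt_left hX b x hs0.le hs1
    have h1 := hb y
    unfold wv at h1
    -- E |z| δ ≥ 0
    have h2 : 0 ≤ ∑ i, w i * (dist b (f i) * (dist (f i) y - dist b (f i))) := by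
      have h3 : ∀ i, w i * (dist (f i) y ^ 2 - dist b (f i) ^ 2) ≤
          w i * (2 * (dist b (f i) * (dist (f i) y - dist b (f i))) + dist b y ^ 2) := by
        intro i
        refine mul_le_mul_of_nonneg_left ?_ (hw i)
        have h4 : (dist (f i) y - dist b (f i)) ^ 2 ≤ dist b y ^ 2 := by
          have h5 : |dist (f i) y - dist b (f i)| ≤ dist b y := by
            rw [dist_comm (f i) y, dist_comm b y]
            exact abs_dist_sub_le y b (f i)
          rw [← sq_abs (dist (f i) y - dist b (f i))]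
          exact pow_le_pow_left₀ (abs_nonneg _) h5 2
        nlinarith
      have h6 := Finset.sum_le_sum fun i (_ : i ∈ Finset.univ) => h3 i
      have h7 : ∑ i, w i * (dist (f i) y ^ 2 - dist b (f i) ^ 2) =
          ∑ i, w i * dist (f i) y ^ 2 - ∑ i, w i * dist (f i) b ^ 2 := by
        rw [← Finset.sum_sub_distrib]
        refine Finset.sum_congr rfl fun i _ => ?_
        rw [dist_comm b (f i)]
        ring
      have h8 : ∑ i, w i * (2 * (dist b (f i) * (dist (f i) y - dist b (f i))) + dist b y ^ 2) =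
          2 * ∑ i, w i * (dist b (f i) * (dist (f i) y - dist b (f i))) + dist b y ^ 2 := by
        rw [Finset.mul_sum]
        simp only [mul_add, Finset.sum_add_distrib]
        rw [← Finset.sum_mul, hw1, one_mul]
        congr 1
        refine Finset.sum_congr rfl fun i _ => ?_
        ring
      rw [h7, h8] at h6
      linarith
    -- pointwise bound
    have h9 : ∀ i, w i * (s * ip b x (pt hX b (f i) t)) ≤
        w i * (s ^ 2 * (dist b x ^ 2 / 2) - t * (dist b (f i) * (dist (f i) y - dist b (f i)))) := by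
      intro i
      refine mul_le_mul_of_nonneg_left ?_ (hw i)
      have h10 : s * ip b x (pt hX b (f i) t) ≤ ip b y (pt hX b (f i) t) :=
        le_ip_pt hX b x _ hs0.le hs1
      have h11 := contr_aux hX b x (f i) (s := s) ht0 ht1
      rw [← hy] at h11
      have h12 : ip b y (pt hX b (f i) t) =
          (s ^ 2 * dist b x ^ 2 + t ^ 2 * dist b (f i) ^ 2 - dist y (pt hX b (f i) t) ^ 2) / 2 := by
        unfold ip
        rw [hby, dist_pt_left hX b (f i) ht0 ht1]
        ring
      rw [h12] at h10
      linarith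
    have h13 := Finset.sum_le_sum fun i (_ : i ∈ Finset.univ) => h9 i
    have h14 : ∑ i, w i * (s * ip b x (pt hX b (f i) t)) =
        s * ∑ i, w i * ip b x (pt hX b (f i) t) := by
      rw [Finset.mul_sum]
      exact Finset.sum_congr rfl fun i _ => by ring
    have h15 : ∑ i, w i * (s ^ 2 * (dist b x ^ 2 / 2) -
        t * (dist b (f i) * (dist (f i) y - dist b (f i)))) =
        s ^ 2 * (dist b x ^ 2 / 2) -
          t * ∑ i, w i * (dist b (f i) * (dist (f i) y - dist b (f i))) := by
      have e : ∀ i, w i * (s ^ 2 * (dist b x ^ 2 / 2) -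
          t * (dist b (f i) * (dist (f i) y - dist b (f i)))) =
          w i * (s ^ 2 * (dist b x ^ 2 / 2)) -
            t * (w i * (dist b (f i) * (dist (f i) y - dist b (f i)))) := fun i => by ring
      rw [Finset.sum_congr rfl fun i _ => e i, Finset.sum_sub_distrib, ← Finset.sum_mul, hw1,
        one_mul, ← Finset.mul_sum]
    rw [h14, h15] at h13
    have h16 : s * ∑ i, w i * ip b x (pt hX b (f i) t) ≤ s * (s * (dist b x ^ 2 / 2)) := by
      nlinarith [mul_nonneg ht0 h2]
    exact le_of_mul_le_mul_left h16 hs0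
  by_contra hcon
  push Not at hcon
  set S := ∑ i, w i * ip b x (pt hX b (f i) t) with hS
  by_cases hx : dist b x ^ 2 / 2 ≤ 0
  · have := key 1 one_pos le_rfl
    linarith
  · push Not at hx
    have h1 := key (min 1 (S / (dist b x ^ 2))) (lt_min one_pos (div_pos hcon (by linarith)))
      (min_le_left _ _)
    have h2 : min 1 (S / (dist b x ^ 2)) * (dist b x ^ 2 / 2) ≤ S / 2 := by
      calc min 1 (S / (dist b x ^ 2)) * (dist b x ^ 2 / 2) ≤
          (S / (dist b x ^ 2)) * (dist b x ^ 2 / 2) :=
            mul_le_mul_of_nonneg_right (min_le_right _ _) hx.le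
        _ = S / 2 := by
            have : dist b x ^ 2 ≠ 0 := by intro h; rw [h] at hx; simp at hx
            rw [div_mul_eq_mul_div, div_eq_iff this]
            ring
    linarith

/-- special case `t = 1` for arbitrary test points -/
theorem ip_sum_nonpos (hw1 : ∑ i, w i = 1) (hb : IsBar w f b) (x : X) :
    ∑ i, w i * ip b x (f i) ≤ 0 := by
  have h1 := hb x
  unfold wv at h1
  have h2 : ∑ i, w i * ip b x (f i) = (dist b x ^ 2 + ∑ i, w i * dist (f i) b ^ 2 -
      ∑ i, w i * dist (f i) x ^ 2) / 2 := by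
    unfold ip
    have e : ∀ i, w i * ((dist b x ^ 2 + dist b (f i) ^ 2 - dist x (f i) ^ 2) / 2) =
        w i * (dist b x ^ 2 / 2) + (w i * dist (f i) b ^ 2) / 2 - (w i * dist (f i) x ^ 2) / 2 := by
      intro i
      rw [dist_comm b (f i), dist_comm x (f i)]
      ring
    rw [Finset.sum_congr rfl fun i _ => e i, Finset.sum_sub_distrib, Finset.sum_add_distrib,
      ← Finset.sum_mul, hw1, ← Finset.sum_div, ← Finset.sum_div]
    ring
  rw [h2]
  linarith

end

end Vale.Agent.P172
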