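import Vale.Agent.P172.B1

/-!
# P172, DIM-B, B2: flat triangles (helper218)
-/

namespace Vale.Agent.P172

universe u

open Set Finset

section

variable {X : Type u} [MetricSpace X] (hX : Cat X)

/-- defect of the median at `b` in the triangle `b, x, y` -/
noncomputable def dft (b x y : X) : ℝ :=
  dist b x ^ 2 / 2 + dist b y ^ 2 / 2 - dist x y ^ 2 / 4 - dist b (mp hX x y) ^ 2

theorem dft_nonneg (b x y : X) : 0 ≤ dft hX b x y := by
  have h := mp_spec hX x y b
  unfold dft
  linarith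

theorem dft_self (b x : X) : dft hX b x x = 0 := by
  unfold dft
  rw [mp_self, dist_self]
  ring

/-- square of the comparison median -/
theorem med_eq (b x y : X) : dist b (mp hX x y) ^ 2 =
    (dist b x ^ 2 + dist b y ^ 2) / 4 + ip b x y / 2 - dft hX b x y := by
  unfold dft ip
  ring

/-- real inequality used in `dft_le` -/
theorem real_aux {Q η m t S lam : ℝ} (hQm : m ^ 2 ≤ Q) (hη0 : 0 ≤ η) (_hm : 0 ≤ m)
    (h1 : Q + m ^ 2 - t * S / 2 ≤ 2 * (m * Real.sqrt (Q + η))) (hl : 0 < lam) :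
    Q - m ^ 2 ≤ lam * Q + (η + t * S / 2) / lam := by
  have hQ0 : 0 ≤ Q := (sq_nonneg _).trans hQm
  have hG0 : 0 ≤ Q + η := add_nonneg hQ0 hη0
  obtain ⟨g, hg⟩ : ∃ g, g = Real.sqrt (Q + η) := ⟨_, rfl⟩
  obtain ⟨a, ha⟩ : ∃ a, a = Real.sqrt Q := ⟨_, rfl⟩
  have hg2 : g ^ 2 = Q + η := by rw [hg]; exact Real.sq_sqrt hG0
  have ha2 : a ^ 2 = Q := by rw [ha]; exact Real.sq_sqrt hQ0
  have hag : a ≤ g := by rw [hg, ha]; exact Real.sqrt_le_sqrt (by linarith)
  have ha0 : 0 ≤ a := by rw [ha]; exact Real.sqrt_nonneg _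
  have hma : m ≤ a := by rw [ha]; exact Real.le_sqrt_of_sq_le hQm
  rw [← hg] at h1
  clear hg ha
  have h5 : (g - m) ^ 2 ≤ η + t * S / 2 := by nlinarith
  have h6 : (a - m) ^ 2 ≤ η + t * S / 2 :=
    (pow_le_pow_left₀ (by linarith) (by linarith) 2).trans h5
  have h7 : Q - m ^ 2 ≤ 2 * a * (a - m) := by
    rw [← ha2]
    nlinarith
  have h8 : 2 * a * (a - m) ≤ lam * a ^ 2 + (a - m) ^ 2 / lam := by
    have h9 : 0 ≤ (lam * a - (a - m)) ^ 2 / lam := by positivity
    have h10 : (lam * a - (a - m)) ^ 2 / lam =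
        lam * a ^ 2 - 2 * a * (a - m) + (a - m) ^ 2 / lam := by
      field_simp
      ring
    linarith
  have h11 : (a - m) ^ 2 / lam ≤ (η + t * S / 2) / lam :=
    div_le_div_of_nonneg_right h6 hl.le
  rw [ha2] at h8
  linarith

/-- pointwise form of B2 -/
theorem dft_le (b x y : X) {t lam : ℝ} (ht0 : 0 < t) (ht1 : t ≤ 1) (hl : 0 < lam) :
    dft hX b x y ≤ lam * ((dist b x ^ 2 + dist b y ^ 2) / 4 + ip b x y / 2) +
      (((ip b (pt hX b x t) (pt hX b y t)) / t ^ 2 - ip b x y) / 2 +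
        t * (dist b x ^ 2 + dist b y ^ 2) / 2) / lam := by
  set m := mp hX x y with hm
  set xt := pt hX b x t with hxt
  set yt := pt hX b y t with hyt
  set M := mp hX xt yt with hM
  set S := dist b x ^ 2 + dist b y ^ 2 with hS
  have hS0 : 0 ≤ S := add_nonneg (sq_nonneg _) (sq_nonneg _)
  set Q := S / 4 + ip b x y / 2 with hQ
  set η := ((ip b xt yt) / t ^ 2 - ip b x y) / 2 with hη
  have dx : dist b xt = t * dist b x := dist_pt_left hX b x ht0.le ht1
  have dy : dist b yt = t * dist b y := dist_pt_left hX b y ht0.le ht1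
  have hΔ : dft hX b x y = Q - dist b m ^ 2 := by
    unfold dft
    rw [hQ, hS]
    unfold ip
    ring
  have hQm : dist b m ^ 2 ≤ Q := by
    have := dft_nonneg hX b x y
    linarith
  -- η ≥ 0
  have hη0 : 0 ≤ η := by
    have h1 : t * ip b x y ≤ ip b xt y := le_ip_pt hX b x y ht0.le ht1
    have h2 : t * ip b xt y ≤ ip b xt yt := le_ip_pt' hX b xt y ht0.le ht1
    have h3 : t ^ 2 * ip b x y ≤ ip b xt yt := by nlinarith
    have h4 : ip b x y ≤ ip b xt yt / t ^ 2 := by
      rw [le_div_iff₀ (by positivity)]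
      linarith
    rw [hη]
    linarith
  -- upper bound for |M|
  have hM1 : dist b M ^ 2 ≤ t ^ 2 * (Q + η) := by
    have h1 := mp_spec hX xt yt b
    rw [← hM] at h1
    have h2 := dist_sq_eq b xt yt
    have h3 : t ^ 2 * (Q + η) = t ^ 2 * (S / 4) + ip b xt yt / 2 := by
      rw [hQ, hη]
      field_simp
      ring
    rw [h3]
    rw [h2, dx, dy] at h1
    rw [hS]
    nlinarith
  -- lower bound for <M, m>
  have hM2 : t * (Q + dist b m ^ 2) - t ^ 2 * S / 2 ≤ 2 * ip b M m := by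
    have h1 := mp_spec hX xt yt m
    rw [← hM] at h1
    have h2 : t * ip b x m ≤ ip b xt m := le_ip_pt hX b x m ht0.le ht1
    have h3 : t * ip b y m ≤ ip b yt m := le_ip_pt hX b y m ht0.le ht1
    have h4 := dist_sq_eq b xt m
    have h5 := dist_sq_eq b yt m
    have h6 : ip b x m + ip b y m = Q + dist b m ^ 2 := by
      unfold ip
      rw [hm, dist_mp_left, dist_comm y, dist_mp_right, hQ, hS]
      unfold ip
      ring
    have h7 : ip b M m = (dist b M ^ 2 + dist b m ^ 2 - dist m M ^ 2) / 2 := by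
      unfold ip
      rw [dist_comm M m]
    rw [dist_comm m xt, dist_comm m yt, h4, h5, dx, dy] at h1
    rw [h7]
    have h8 : t * (Q + dist b m ^ 2) ≤ ip b xt m + ip b yt m := by
      rw [← h6]
      linarith
    have h9 := sq_nonneg (dist b M)
    have h10 := sq_nonneg (dist xt yt)
    rw [hS]
    nlinarith
  have hG0 : 0 ≤ Q + η := by
    have := sq_nonneg (dist b m)
    linarith
  set g := Real.sqrt (Q + η) with hg
  have hg2 : g ^ 2 = Q + η := Real.sq_sqrt hG0
  have hg0 : 0 ≤ g := Real.sqrt_nonneg _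
  have hMg : dist b M ≤ t * g := by
    refine abs_le_of_sq_le_sq' ?_ (mul_nonneg ht0.le hg0) |>.2
    rw [mul_pow, hg2]
    exact hM1
  have h1 : Q + dist b m ^ 2 - t * S / 2 ≤ 2 * (dist b m * g) := by
    have h2 := ip_le_mul b M m
    have h3 : dist b M * dist b m ≤ t * g * dist b m :=
      mul_le_mul_of_nonneg_right hMg dist_nonneg
    have h4 : t * (Q + dist b m ^ 2 - t * S / 2) ≤ t * (2 * (dist b m * g)) := by
      nlinarith
    exact le_of_mul_le_mul_left h4 ht0
  have h12 := real_aux hQm hη0 (dist_nonneg (x := b) (y := m)) h1 hl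
  rw [hΔ]
  exact h12

variable {ι : Type} [Fintype ι] {w : ι → ℝ} {f : ι → X} {b : X}

/-- average of the squared norms -/
noncomputable def vr (w : ι → ℝ) (f : ι → X) (b : X) : ℝ := ∑ i, w i * dist b (f i) ^ 2

theorem ip_sum_contr2 (hw : ∀ i, 0 ≤ w i) (hw1 : ∑ i, w i = 1) (hb : IsBar w f b)
    {t : ℝ} (ht0 : 0 ≤ t) (ht1 : t ≤ 1) :
    ∑ i, ∑ j, w i * w j * ip b (pt hX b (f i) t) (pt hX b (f j) t) ≤ 0 := by
  refine Finset.sum_nonpos fun i _ => ?_
  have h := ip_contr_nonpos hX hw hw1 hb (pt hX b (f i) t) ht0 ht1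
  have e : ∑ j, w i * w j * ip b (pt hX b (f i) t) (pt hX b (f j) t) =
      w i * ∑ j, w j * ip b (pt hX b (f i) t) (pt hX b (f j) t) := by
    rw [Finset.mul_sum]
    exact Finset.sum_congr rfl fun j _ => by ring
  rw [e]
  exact mul_nonpos_of_nonneg_of_nonpos (hw i) h

/-- **B2** If the average of the scalar products is at least `-δ² R`, the average of the defects of
the triangles `b, x, y` is at most `δ R`. -/
theorem dft_avg_le (hw : ∀ i, 0 ≤ w i) (hw1 : ∑ i, w i = 1) (hb : IsBar w f b) {δ : ℝ}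
    (hδ : 0 < δ) (hI : -(δ ^ 2 * vr w f b) ≤ ∑ i, ∑ j, w i * w j * ip b (f i) (f j)) :
    ∑ i, ∑ j, w i * w j * dft hX b (f i) (f j) ≤ δ * vr w f b := by
  set R := vr w f b with hR
  have hR0 : 0 ≤ R := Finset.sum_nonneg fun i _ => mul_nonneg (hw i) (sq_nonneg _)
  set I := ∑ i, ∑ j, w i * w j * ip b (f i) (f j) with hIdef
  have hI0 : I ≤ 0 := by
    refine Finset.sum_nonpos fun i _ => ?_
    have h := ip_sum_nonpos hw1 hb (f i)
    have e : ∑ j, w i * w j * ip b (f i) (f j) = w i * ∑ j, w j * ip b (f i) (f j) := by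
      rw [Finset.mul_sum]
      exact Finset.sum_congr rfl fun j _ => by ring
    rw [e]
    exact mul_nonpos_of_nonneg_of_nonpos (hw i) h
  -- sums of norms
  have eS : ∑ i, ∑ j, w i * w j * (dist b (f i) ^ 2 + dist b (f j) ^ 2) = 2 * R := by
    have e1 : ∀ i, ∑ j, w i * w j * (dist b (f i) ^ 2 + dist b (f j) ^ 2) =
        w i * dist b (f i) ^ 2 + w i * R := by
      intro i
      have e2 : ∀ j, w i * w j * (dist b (f i) ^ 2 + dist b (f j) ^ 2) =
          (w i * dist b (f i) ^ 2) * w j + w i * (w j * dist b (f j) ^ 2) := fun j => by ring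
      rw [Finset.sum_congr rfl fun j _ => e2 j, Finset.sum_add_distrib, ← Finset.mul_sum,
        ← Finset.mul_sum, hw1, mul_one, hR]
      rfl
    rw [Finset.sum_congr rfl fun i _ => e1 i, Finset.sum_add_distrib, ← Finset.sum_mul, hw1,
      one_mul, hR]
    unfold vr
    ring
  have key : ∀ t : ℝ, 0 < t → t ≤ 1 →
      ∑ i, ∑ j, w i * w j * dft hX b (f i) (f j) ≤ δ * R + t * (R / δ) := by
    intro t ht0 ht1
    have hT := ip_sum_contr2 hX hw hw1 hb ht0.le ht1
    set T := ∑ i, ∑ j, w i * w j * ip b (pt hX b (f i) t) (pt hX b (f j) t) with hTdef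
    have h1 : ∀ i j, w i * w j * dft hX b (f i) (f j) ≤
        (δ / 4 + t / (2 * δ)) * (w i * w j * (dist b (f i) ^ 2 + dist b (f j) ^ 2)) +
        (δ / 2 - 1 / (2 * δ)) * (w i * w j * ip b (f i) (f j)) +
        (1 / (2 * δ * t ^ 2)) * (w i * w j * ip b (pt hX b (f i) t) (pt hX b (f j) t)) := by
      intro i j
      have h2 := mul_le_mul_of_nonneg_left (dft_le hX b (f i) (f j) ht0 ht1 hδ)
        (mul_nonneg (hw i) (hw j))
      refine h2.trans (le_of_eq ?_)
      field_simp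
      ring
    have h3 := Finset.sum_le_sum fun i (_ : i ∈ Finset.univ) =>
      Finset.sum_le_sum fun j (_ : j ∈ Finset.univ) => h1 i j
    have h4 : ∑ i, ∑ j, ((δ / 4 + t / (2 * δ)) *
          (w i * w j * (dist b (f i) ^ 2 + dist b (f j) ^ 2)) +
        (δ / 2 - 1 / (2 * δ)) * (w i * w j * ip b (f i) (f j)) +
        (1 / (2 * δ * t ^ 2)) * (w i * w j * ip b (pt hX b (f i) t) (pt hX b (f j) t))) =
        (δ / 4 + t / (2 * δ)) * (2 * R) + (δ / 2 - 1 / (2 * δ)) * I +
          (1 / (2 * δ * t ^ 2)) * T := by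
      rw [← eS, hIdef, hTdef]
      simp only [Finset.sum_add_distrib, Finset.mul_sum]
    rw [h4] at h3
    refine h3.trans ?_
    have h5 : (1 / (2 * δ * t ^ 2)) * T ≤ 0 :=
      mul_nonpos_of_nonneg_of_nonpos (by positivity) hT
    have h6 : (δ / 2 - 1 / (2 * δ)) * I ≤ (δ / 2) * R := by
      have h7 : (δ / 2) * I ≤ 0 := mul_nonpos_of_nonneg_of_nonpos (by positivity) hI0
      have h8 : (1 / (2 * δ)) * (-I) ≤ (1 / (2 * δ)) * (δ ^ 2 * R) :=
        mul_le_mul_of_nonneg_left (by linarith) (by positivity)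
      have h9 : (1 / (2 * δ)) * (δ ^ 2 * R) = (δ / 2) * R := by
        field_simp
      nlinarith
    have h10 : (δ / 4 + t / (2 * δ)) * (2 * R) = (δ / 2) * R + t * (R / δ) := by
      field_simp
      ring
    linarith
  by_contra hcon
  push Not at hcon
  set L := ∑ i, ∑ j, w i * w j * dft hX b (f i) (f j) with hL
  have hRd : 0 ≤ R / δ := div_nonneg hR0 hδ.le
  have hgap : 0 < L - δ * R := by linarith
  have h1 := key (min 1 ((L - δ * R) / (2 * (R / δ + 1)))) (lt_min one_pos (by positivity))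
    (min_le_left _ _)
  have h2 : min 1 ((L - δ * R) / (2 * (R / δ + 1))) * (R / δ) ≤ (L - δ * R) / 2 := by
    calc min 1 ((L - δ * R) / (2 * (R / δ + 1))) * (R / δ) ≤
        ((L - δ * R) / (2 * (R / δ + 1))) * (R / δ) :=
          mul_le_mul_of_nonneg_right (min_le_right _ _) hRd
      _ ≤ ((L - δ * R) / (2 * (R / δ + 1))) * (R / δ + 1) :=
          mul_le_mul_of_nonneg_left (by linarith) (by positivity)
      _ = (L - δ * R) / 2 := by
          have : R / δ + 1 ≠ 0 := by positivity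
          field_simp
  linarith

end

end Vale.Agent.P172
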