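import Vale.Agent.P172.B6

/-!
# P172, DIM-B, B6: the Jung inequality for samples (helper218)
-/

namespace Vale.Agent.P172

universe u

open Set Finset

section Marg

variable {V : Type} [Fintype V] {ι : Type} [Fintype ι] [DecidableEq ι]

/-- one-coordinate marginal -/
theorem sum_marg (j : ι) (Φ : V → ℝ) :
    ∑ g : ι → V, Φ (g j) = (Fintype.card V : ℝ) ^ (Fintype.card ι - 1) * ∑ b, Φ b := by
  classical
  rw [← (Equiv.funSplitAt j V).symm.sum_comp, Fintype.sum_prod_type, Finset.mul_sum]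
  refine Finset.sum_congr rfl fun a _ => ?_
  have e1 : ∀ g : {k : ι // k ≠ j} → V, ((Equiv.funSplitAt j V).symm (a, g)) j = a := by
    intro g
    simp [Equiv.funSplitAt, Equiv.piSplitAt]
  rw [Finset.sum_congr rfl fun g _ => by rw [e1 g], Finset.sum_const, Finset.card_univ,
    Fintype.card_fun, nsmul_eq_mul]
  have h : Fintype.card {k : ι // k ≠ j} = Fintype.card ι - 1 := by
    rw [Fintype.card_subtype_compl]
    simp
  rw [h]
  push_cast
  ring

/-- two-coordinate marginal -/
theorem sum_marg2 {i j : ι} (hij : j ≠ i) (Ψ : V → V → ℝ) :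
    ∑ g : ι → V, Ψ (g i) (g j) =
      (Fintype.card V : ℝ) ^ (Fintype.card ι - 2) * ∑ a, ∑ b, Ψ a b := by
  classical
  rw [← (Equiv.funSplitAt i V).symm.sum_comp, Fintype.sum_prod_type, Finset.mul_sum]
  refine Finset.sum_congr rfl fun a _ => ?_
  have e1 : ∀ g : {k : ι // k ≠ i} → V, ((Equiv.funSplitAt i V).symm (a, g)) i = a := by
    intro g
    simp [Equiv.funSplitAt, Equiv.piSplitAt]
  have e2 : ∀ g : {k : ι // k ≠ i} → V, ((Equiv.funSplitAt i V).symm (a, g)) j = g ⟨j, hij⟩ := by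
    intro g
    simp [Equiv.funSplitAt, Equiv.piSplitAt, hij]
  rw [Finset.sum_congr rfl fun g _ => by rw [e1 g, e2 g],
    sum_marg (⟨j, hij⟩ : {k : ι // k ≠ i}) (fun b => Ψ a b)]
  have h : Fintype.card {k : ι // k ≠ i} = Fintype.card ι - 1 := by
    rw [Fintype.card_subtype_compl]
    simp
  rw [h]
  congr 2

end Marg

section

variable {X : Type u} [MetricSpace X] {V : Type} [Fintype V] [Nonempty V]

/-- **B6** in dimension `≤ n` the squared distances of a finite sample space cannot be nearly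
constant equal to twice the variance. -/
theorem jung_gap (hbar : HasBar X) {n : ℕ} (hjung : JungProp X n) {J : ℕ} (hJ : 2 ≤ J)
    (f : V → X) {r : ℝ} (hr0 : 0 ≤ r) (hr : ∀ x, r ≤ (∑ v, dist (f v) x ^ 2) / Fintype.card V) :
    (((J : ℝ) - 1) / J) ^ 2 * r ≤ (n : ℝ) / (2 * (n + 1)) * (2 * r + J ^ 2 *
      ((∑ a, ∑ b, |dist (f a) (f b) ^ 2 - 2 * r|) / (Fintype.card V : ℝ) ^ 2)) := by
  classical
  set θ : ℝ := (n : ℝ) / (2 * (n + 1)) with hθ
  have hθ0 : 0 ≤ θ := by positivity
  set S := ∑ a, ∑ b, |dist (f a) (f b) ^ 2 - 2 * r| with hS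
  have hS0 : 0 ≤ S := Finset.sum_nonneg fun _ _ => Finset.sum_nonneg fun _ _ => abs_nonneg _
  have hV : (0 : ℝ) < Fintype.card V := by exact_mod_cast Fintype.card_pos
  have hJ0 : (0 : ℝ) < J := by
    have : (2 : ℝ) ≤ J := by exact_mod_cast hJ
    linarith
  have hex : ∀ s : Fin J → V, ∃ b, IsBar (fun _ : Fin J => (1 : ℝ) / J) (fun j => f (s j)) b := by
    intro s
    refine hbar _ _ _ (fun _ => by positivity) ?_
    rw [Finset.sum_const, Finset.card_univ, Fintype.card_fin, nsmul_eq_mul]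
    field_simp
  choose B hB using hex
  set D : (Fin J → V) → ℝ := fun s => 2 * r +
    ∑ i, ∑ j, if j ≠ i then |dist (f (s i)) (f (s j)) ^ 2 - 2 * r| else 0 with hD
  have hDnn : ∀ s, ∀ i j : Fin J, dist (f (s i)) (f (s j)) ^ 2 ≤ D s := by
    intro s i j
    have hnn : ∀ i j : Fin J, (0 : ℝ) ≤
        if j ≠ i then |dist (f (s i)) (f (s j)) ^ 2 - 2 * r| else 0 := by
      intro i j
      split_ifs
      · exact abs_nonneg _
      · exact le_rfl
    by_cases h : j ≠ i
    · have h1 : |dist (f (s i)) (f (s j)) ^ 2 - 2 * r| ≤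
          ∑ i, ∑ j, if j ≠ i then |dist (f (s i)) (f (s j)) ^ 2 - 2 * r| else 0 := by
        calc |dist (f (s i)) (f (s j)) ^ 2 - 2 * r| =
            if j ≠ i then |dist (f (s i)) (f (s j)) ^ 2 - 2 * r| else 0 := by rw [if_pos h]
          _ ≤ ∑ j, if j ≠ i then |dist (f (s i)) (f (s j)) ^ 2 - 2 * r| else 0 :=
              Finset.single_le_sum (f := fun j => if j ≠ i then
                |dist (f (s i)) (f (s j)) ^ 2 - 2 * r| else 0) (fun j _ => hnn i j)
                (Finset.mem_univ j)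
          _ ≤ _ := Finset.single_le_sum (f := fun i => ∑ j, if j ≠ i then
                |dist (f (s i)) (f (s j)) ^ 2 - 2 * r| else 0)
                (fun i _ => Finset.sum_nonneg fun j _ => hnn i j) (Finset.mem_univ i)
      have h2 := le_abs_self (dist (f (s i)) (f (s j)) ^ 2 - 2 * r)
      simp only [hD]
      linarith
    · push Not at h
      rw [h, dist_self]
      have h1 : (0 : ℝ) ≤ ∑ i, ∑ j, if j ≠ i then |dist (f (s i)) (f (s j)) ^ 2 - 2 * r| else 0 :=
        Finset.sum_nonneg fun i _ => Finset.sum_nonneg fun j _ => hnn i j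
      simp only [hD]
      nlinarith
  -- sum of D
  have hsumD : ∑ s : Fin J → V, D s ≤
      (Fintype.card V : ℝ) ^ J * (2 * r + J ^ 2 * (S / (Fintype.card V : ℝ) ^ 2)) := by
    simp only [hD, Finset.sum_add_distrib]
    have e1 : ∑ _s : Fin J → V, 2 * r = (Fintype.card V : ℝ) ^ J * (2 * r) := by
      rw [Finset.sum_const, Finset.card_univ, Fintype.card_fun, Fintype.card_fin, nsmul_eq_mul]
      push_cast
      ring
    have e2 : ∑ s : Fin J → V, ∑ i, ∑ j,
        (if j ≠ i then |dist (f (s i)) (f (s j)) ^ 2 - 2 * r| else 0) ≤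
        (Fintype.card V : ℝ) ^ J * (J ^ 2 * (S / (Fintype.card V : ℝ) ^ 2)) := by
      rw [Finset.sum_comm]
      have h1 : ∀ i : Fin J, ∑ s : Fin J → V, ∑ j,
          (if j ≠ i then |dist (f (s i)) (f (s j)) ^ 2 - 2 * r| else 0) ≤
          J * ((Fintype.card V : ℝ) ^ (J - 2) * S) := by
        intro i
        rw [Finset.sum_comm]
        have h2 : ∀ j : Fin J, ∑ s : Fin J → V,
            (if j ≠ i then |dist (f (s i)) (f (s j)) ^ 2 - 2 * r| else 0) ≤
            (Fintype.card V : ℝ) ^ (J - 2) * S := by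
          intro j
          by_cases h : j ≠ i
          · simp only [if_pos h]
            rw [sum_marg2 h (fun a b => |dist (f a) (f b) ^ 2 - 2 * r|), Fintype.card_fin]
          · simp only [if_neg h, Finset.sum_const_zero]
            positivity
        refine (Finset.sum_le_sum fun j _ => h2 j).trans (le_of_eq ?_)
        rw [Finset.sum_const, Finset.card_univ, Fintype.card_fin, nsmul_eq_mul]
      refine (Finset.sum_le_sum fun i _ => h1 i).trans (le_of_eq ?_)
      rw [Finset.sum_const, Finset.card_univ, Fintype.card_fin, nsmul_eq_mul]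
      obtain ⟨k, rfl⟩ : ∃ k, J = k + 2 := ⟨J - 2, by omega⟩
      rw [Nat.add_sub_cancel, pow_add]
      field_simp
    rw [e1]
    calc _ ≤ (Fintype.card V : ℝ) ^ J * (2 * r) +
        (Fintype.card V : ℝ) ^ J * (J ^ 2 * (S / (Fintype.card V : ℝ) ^ 2)) := by linarith
      _ = _ := by ring
  -- lower bound
  have hlow : J * ((((J : ℝ) - 1) / J) ^ 2 * r * (Fintype.card V : ℝ) ^ J) ≤
      ∑ s : Fin J → V, ∑ i, dist (f (s i)) (B s) ^ 2 := by
    rw [Finset.sum_comm]
    have h1 := Finset.sum_le_sum fun i (_ : i ∈ (Finset.univ : Finset (Fin J))) =>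
      sample_var hbar hJ f B hB hr i
    rwa [Finset.sum_const, Finset.card_univ, Fintype.card_fin, nsmul_eq_mul] at h1
  -- conclusion up to δ
  have key : ∀ δ : ℝ, 0 < δ → (((J : ℝ) - 1) / J) ^ 2 * r ≤
      θ * (2 * r + J ^ 2 * (S / (Fintype.card V : ℝ) ^ 2)) + δ := by
    intro δ hδ
    have h1 : ∀ s : Fin J → V, ∑ i, dist (f (s i)) (B s) ^ 2 ≤ J * (θ * D s + δ) := by
      intro s
      obtain ⟨x, hx⟩ := hjung J (fun j => f (s j)) (D s) (by omega) (hDnn s) δ hδ
      have h2 := hB s x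
      unfold wv at h2
      rw [← Finset.mul_sum, ← Finset.mul_sum] at h2
      have h3 : ∑ i, dist (f (s i)) (B s) ^ 2 ≤ ∑ i, dist (f (s i)) x ^ 2 := by
        have h4 : 1 / (J : ℝ) * ∑ i, dist (f (s i)) (B s) ^ 2 ≤
            1 / (J : ℝ) * ∑ i, dist (f (s i)) x ^ 2 := by
          have := sq_nonneg (dist (B s) x)
          linarith
        exact le_of_mul_le_mul_left h4 (by positivity)
      refine h3.trans ((Finset.sum_le_sum fun i _ => hx i).trans (le_of_eq ?_))
      rw [Finset.sum_const, Finset.card_univ, Fintype.card_fin, nsmul_eq_mul]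
    have h2 := hlow.trans (Finset.sum_le_sum fun s _ => h1 s)
    rw [← Finset.mul_sum] at h2
    have h3 := le_of_mul_le_mul_left h2 hJ0
    rw [Finset.sum_add_distrib, ← Finset.mul_sum, Finset.sum_const, Finset.card_univ,
      Fintype.card_fun, Fintype.card_fin, nsmul_eq_mul] at h3
    push_cast at h3
    have hVJ : (0 : ℝ) < (Fintype.card V : ℝ) ^ J := by positivity
    have h4 : (Fintype.card V : ℝ) ^ J * ((((J : ℝ) - 1) / J) ^ 2 * r) ≤
        (Fintype.card V : ℝ) ^ J *
          (θ * (2 * r + J ^ 2 * (S / (Fintype.card V : ℝ) ^ 2)) + δ) := by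
      have h5 := mul_le_mul_of_nonneg_left hsumD hθ0
      nlinarith
    exact le_of_mul_le_mul_left h4 hVJ
  exact le_of_forall_pos_le_add key

end

end Vale.Agent.P172
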