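import Vale.Agent.P172.B2
import Vale.Agent.P172.B6b

/-!
# P172, DIM-B, B3-B5: the abstract averaging argument (helper218)
-/

namespace Vale.Agent.P172

universe u

open Finset

/-- averages over one and two points -/
noncomputable def E1 {V : Type} [Fintype V] (φ : V → ℝ) : ℝ := (∑ v, φ v) / Fintype.card V

noncomputable def E2 {V : Type} [Fintype V] (φ : V → V → ℝ) : ℝ :=
  (∑ a, ∑ b, φ a b) / (Fintype.card V : ℝ) ^ 2

open Classical in
/-- average over the edges -/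
noncomputable def Ee {V : Type} [Fintype V] (adj : V → V → Prop) (p : ℝ) (ψ : V → V → ℝ) : ℝ :=
  (∑ u, ∑ v, if adj u v then ψ u v else 0) / ((Fintype.card V : ℝ) ^ 2 * p)

open Classical in
/-- properties of the average over copies of `K_{2,3}` -/
structure KS {V : Type} [Fintype V] (adj : V → V → Prop) (p κ η : ℝ)
    (K : (V → V → (Fin 3 → V) → ℝ) → ℝ) : Prop where
  mono : ∀ Φ Ψ, (∀ u u' v, Φ u u' v ≤ Ψ u u' v) → K Φ ≤ K Ψ
  add : ∀ Φ Ψ, K (fun u u' v => Φ u u' v + Ψ u u' v) = K Φ + K Ψ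
  smul : ∀ (c : ℝ) Φ, K (fun u u' v => c * Φ u u' v) = c * K Φ
  one : K (fun _ _ _ => 1) ≤ 1
  uu : ∀ φ : V → V → ℝ, (∀ u, φ u u = 0) → K (fun u u' _ => φ u u') = E2 φ
  edge : ∀ (ψ : V → V → ℝ) (i : Fin 3), (∀ u v, 0 ≤ ψ u v) →
    K (fun u _ v => ψ u (v i)) ≤ κ * Ee adj p ψ
  edge' : ∀ (ψ : V → V → ℝ) (i : Fin 3), (∀ u v, 0 ≤ ψ u v) →
    K (fun _ u' v => ψ u' (v i)) ≤ κ * Ee adj p ψ
  vv_le : ∀ (φ : V → V → ℝ) (i j : Fin 3), i ≠ j → (∀ a b, 0 ≤ φ a b) → (∀ a, φ a a = 0) →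
    K (fun _ _ v => φ (v i) (v j)) ≤ κ * E2 φ
  vv_ge : ∀ (φ : V → V → ℝ) (i j : Fin 3), i ≠ j → (∀ a b, 0 ≤ φ a b) → (∀ a, φ a a = 0) →
    E2 φ ≤ κ * K (fun _ _ v => φ (v i) (v j))
  v1 : ∀ (φ : V → ℝ) (i : Fin 3), (∀ a, 0 ≤ φ a) → K (fun _ _ v => φ (v i)) ≤ κ * E1 φ
  diag : ∀ (φ : V → ℝ) (i j : Fin 3), i ≠ j → (∀ a, 0 ≤ φ a) →
    K (fun _ _ v => if v i = v j then φ (v i) else 0) ≤ η * E1 φ

section Basic

variable {V : Type} [Fintype V]

theorem E1_mono {φ ψ : V → ℝ} (h : ∀ v, φ v ≤ ψ v) : E1 φ ≤ E1 ψ :=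
  div_le_div_of_nonneg_right (Finset.sum_le_sum fun v _ => h v) (Nat.cast_nonneg _)

theorem E2_mono {φ ψ : V → V → ℝ} (h : ∀ a b, φ a b ≤ ψ a b) : E2 φ ≤ E2 ψ :=
  div_le_div_of_nonneg_right
    (Finset.sum_le_sum fun a _ => Finset.sum_le_sum fun b _ => h a b) (by positivity)

theorem E1_nonneg {φ : V → ℝ} (h : ∀ v, 0 ≤ φ v) : 0 ≤ E1 φ :=
  div_nonneg (Finset.sum_nonneg fun v _ => h v) (Nat.cast_nonneg _)

theorem E2_nonneg {φ : V → V → ℝ} (h : ∀ a b, 0 ≤ φ a b) : 0 ≤ E2 φ :=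
  div_nonneg (Finset.sum_nonneg fun a _ => Finset.sum_nonneg fun b _ => h a b) (by positivity)

theorem E1_add (φ ψ : V → ℝ) : E1 (fun v => φ v + ψ v) = E1 φ + E1 ψ := by
  unfold E1
  rw [Finset.sum_add_distrib, add_div]

theorem E1_sub (φ ψ : V → ℝ) : E1 (fun v => φ v - ψ v) = E1 φ - E1 ψ := by
  unfold E1
  rw [Finset.sum_sub_distrib, sub_div]

theorem E1_mul (c : ℝ) (φ : V → ℝ) : E1 (fun v => c * φ v) = c * E1 φ := by
  unfold E1
  rw [← Finset.mul_sum, mul_div_assoc]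

theorem E1_const [Nonempty V] (c : ℝ) : E1 (fun _ : V => c) = c := by
  unfold E1
  have hV : (Fintype.card V : ℝ) ≠ 0 := by exact_mod_cast Fintype.card_ne_zero
  rw [Finset.sum_const, Finset.card_univ, nsmul_eq_mul]
  field_simp

theorem E2_add (φ ψ : V → V → ℝ) : E2 (fun a b => φ a b + ψ a b) = E2 φ + E2 ψ := by
  unfold E2
  simp only [Finset.sum_add_distrib]
  rw [add_div]

theorem E2_mul (c : ℝ) (φ : V → V → ℝ) : E2 (fun a b => c * φ a b) = c * E2 φ := by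
  unfold E2
  simp only [← Finset.mul_sum]
  rw [mul_div_assoc]

theorem E2_eq (φ : V → V → ℝ) : E2 φ = E1 fun a => E1 fun b => φ a b := by
  unfold E2 E1
  rw [← Finset.sum_div, div_div, sq]

theorem E2_comm (φ : V → V → ℝ) : E2 (fun a b => φ b a) = E2 φ := by
  unfold E2
  rw [Finset.sum_comm]

theorem E2_left [Nonempty V] (φ : V → ℝ) : E2 (fun a _ => φ a) = E1 φ := by
  rw [E2_eq]
  congr 1
  funext a
  exact E1_const _

theorem E2_right [Nonempty V] (φ : V → ℝ) : E2 (fun _ b => φ b) = E1 φ := by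
  rw [E2_eq]
  exact E1_const _

theorem abs_E1_le (φ : V → ℝ) : |E1 φ| ≤ E1 fun v => |φ v| := by
  unfold E1
  rw [abs_div, abs_of_nonneg (Nat.cast_nonneg (α := ℝ) (Fintype.card V))]
  exact div_le_div_of_nonneg_right (Finset.abs_sum_le_sum_abs _ _) (Nat.cast_nonneg _)

end Basic

section Geo

variable {X : Type u} [MetricSpace X] (hX : Cat X)

/-- concavity of the scalar product up to the defect -/
theorem ip_mp_ge (b x y z : X) :
    ip b x z / 2 + ip b y z / 2 - dft hX b x y / 2 ≤ ip b (mp hX x y) z := by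
  have h := mp_spec hX x y z
  unfold dft ip
  rw [dist_comm (mp hX x y) z, dist_comm x z, dist_comm y z]
  linarith

variable {V : Type} [Fintype V] [Nonempty V] (f : V → X) (b : X)

/-- `D_{12}(z)` -/
noncomputable def Dd (a a' z : V) : ℝ :=
  ip b (mp hX (f a) (f a')) (f z) - ip b (f a) (f z) / 2 - ip b (f a') (f z) / 2

/-- its mean absolute value -/
noncomputable def Hh (a a' : V) : ℝ := E1 fun z => |Dd hX f b a a' z|

omit [Nonempty V] in
theorem Hh_nonneg (a a' : V) : 0 ≤ Hh hX f b a a' := E1_nonneg fun _ => abs_nonneg _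

theorem Hh_self (a : V) : Hh hX f b a a = 0 := by
  unfold Hh Dd
  have : (fun z => |ip b (mp hX (f a) (f a)) (f z) - ip b (f a) (f z) / 2 -
      ip b (f a) (f z) / 2|) = fun _ : V => (0 : ℝ) := by
    funext z
    rw [mp_self]
    ring_nf
    simp
  rw [this, E1_const]

/-- mean scalar product -/
noncomputable def Gg (a : V) : ℝ := E1 fun z => ip b (f a) (f z)

variable {f b}

theorem card_pos' : (0 : ℝ) < Fintype.card V := by exact_mod_cast Fintype.card_pos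

theorem E1_ip_nonpos (hb : IsBar (fun _ : V => (1 : ℝ) / Fintype.card V) f b) (x : X) :
    E1 (fun z => ip b x (f z)) ≤ 0 := by
  have hV : (Fintype.card V : ℝ) ≠ 0 := (card_pos' (V := V)).ne'
  have h := ip_sum_nonpos (w := fun _ : V => (1 : ℝ) / Fintype.card V) (by
    rw [Finset.sum_const, Finset.card_univ, nsmul_eq_mul]; field_simp) hb x
  rw [← Finset.mul_sum] at h
  unfold E1
  rw [div_eq_inv_mul, ← one_div]
  exact h

theorem Hh_le (hb : IsBar (fun _ : V => (1 : ℝ) / Fintype.card V) f b) (a a' : V) :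
    Hh hX f b a a' ≤ dft hX b (f a) (f a') - Gg f b a / 2 - Gg f b a' / 2 := by
  have h1 : ∀ z, |Dd hX f b a a' z| ≤ Dd hX f b a a' z + dft hX b (f a) (f a') := by
    intro z
    have h2 := ip_mp_ge hX b (f a) (f a') (f z)
    have h3 := dft_nonneg hX b (f a) (f a')
    rw [abs_le]
    constructor
    · unfold Dd
      linarith
    · linarith
  have h4 : Hh hX f b a a' ≤ E1 (fun z => Dd hX f b a a' z + dft hX b (f a) (f a')) :=
    E1_mono h1
  refine h4.trans ?_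
  rw [E1_add, E1_const]
  have h5 : E1 (fun z => Dd hX f b a a' z) =
      E1 (fun z => ip b (mp hX (f a) (f a')) (f z)) - Gg f b a / 2 - Gg f b a' / 2 := by
    unfold Dd
    rw [E1_sub, E1_sub]
    unfold Gg
    have e : ∀ c : V, (fun z => ip b (f c) (f z) / 2) = fun z => (1 / 2) * ip b (f c) (f z) :=
      fun c => by funext z; ring
    rw [e a, e a', E1_mul, E1_mul]
    ring
  rw [h5]
  have h6 := E1_ip_nonpos hb (mp hX (f a) (f a'))
  linarith

end Geo

end Vale.Agent.P172
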