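import Vale.Agent.P172.B3

/-!
# P172, DIM-B, B4-B5: the main estimate (helper218)
-/

namespace Vale.Agent.P172

universe u

open Finset

section

variable {X : Type u} [MetricSpace X] (hX : Cat X) {V : Type} [Fintype V] [Nonempty V]

theorem wsum_eq_E2 (φ : V → V → ℝ) :
    ∑ i, ∑ j, (1 : ℝ) / Fintype.card V * (1 / Fintype.card V) * φ i j = E2 φ := by
  have hV : (Fintype.card V : ℝ) ≠ 0 := (card_pos' (V := V)).ne'
  unfold E2
  simp only [← Finset.mul_sum]
  field_simp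

omit [Nonempty V] in
theorem E2_sub (φ ψ : V → V → ℝ) : E2 (fun a b => φ a b - ψ a b) = E2 φ - E2 ψ := by
  have h := E2_add (fun a b => φ a b - ψ a b) ψ
  simp only [sub_add_cancel] at h
  linarith

variable {f : V → X} {b : X}

omit [Nonempty V] in
theorem bar_E1 (hb : IsBar (fun _ : V => (1 : ℝ) / Fintype.card V) f b) (x : X) :
    E1 (fun v => dist b (f v) ^ 2) + dist b x ^ 2 ≤ E1 fun v => dist (f v) x ^ 2 := by
  have h := hb x
  unfold wv at h
  rw [← Finset.mul_sum, ← Finset.mul_sum] at h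
  unfold E1
  simp only [dist_comm b (f _)]
  rw [div_eq_inv_mul, ← one_div, div_eq_inv_mul (∑ v, dist (f v) x ^ 2), ← one_div]
  exact h

theorem E2_ge (hb : IsBar (fun _ : V => (1 : ℝ) / Fintype.card V) f b) :
    2 * E1 (fun v => dist b (f v) ^ 2) ≤ E2 fun a a' => dist (f a) (f a') ^ 2 := by
  rw [← E2_comm, E2_eq]
  have h : ∀ a, E1 (fun v => dist b (f v) ^ 2) + dist b (f a) ^ 2 ≤
      E1 fun v => dist (f v) (f a) ^ 2 := fun a => bar_E1 hb (f a)
  have h2 := E1_mono h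
  rw [E1_add, E1_const] at h2
  linarith

theorem E2_ip (b : X) (f : V → X) : E2 (fun a a' => ip b (f a) (f a')) =
    E1 (fun v => dist b (f v) ^ 2) - E2 (fun a a' => dist (f a) (f a') ^ 2) / 2 := by
  have e : (fun a a' => ip b (f a) (f a')) = fun a a' =>
      (1 / 2) * ((dist b (f a) ^ 2 + dist b (f a') ^ 2) - dist (f a) (f a') ^ 2) := by
    funext a a'
    unfold ip
    ring
  rw [e, E2_mul, E2_sub, E2_add, E2_left (fun a => dist b (f a) ^ 2),
    E2_right (fun a => dist b (f a) ^ 2)]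
  ring

omit [Nonempty V] in
theorem E1_Gg (b : X) (f : V → X) :
    E1 (fun a => Gg f b a) = E2 (fun a a' => ip b (f a) (f a')) := by
  rw [E2_eq]
  rfl

/-- arithmetic-geometric mean -/
theorem amgm {σ x y : ℝ} (hσ : 0 < σ) : x * y ≤ σ / 2 * y ^ 2 + x ^ 2 / (2 * σ) := by
  have h : 0 ≤ (σ * y - x) ^ 2 / (2 * σ) := by positivity
  have e : (σ * y - x) ^ 2 / (2 * σ) = σ / 2 * y ^ 2 + x ^ 2 / (2 * σ) - x * y := by
    field_simp
    ring
  linarith

theorem sq_mp_le (b x y : X) : dist b (mp hX x y) ^ 2 ≤ dist b x ^ 2 / 2 + dist b y ^ 2 / 2 := by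
  have := mp_spec hX x y b
  nlinarith [sq_nonneg (dist x y)]

/-- pointwise estimate (5), averaged over `z` -/
theorem lip_avg {σ : ℝ} (hσ : 0 < σ) (f : V → X) (b m m' : X) :
    E1 (fun z => |ip b m (f z) - ip b m' (f z)|) ≤
      (3 * σ / 2) * (dist b m ^ 2 + dist b m' ^ 2 + E1 (fun v => dist b (f v) ^ 2)) +
        dist m m' ^ 2 / (2 * σ) := by
  have h : ∀ z, |ip b m (f z) - ip b m' (f z)| ≤
      ((3 * σ / 2) * (dist b m ^ 2 + dist b m' ^ 2) + dist m m' ^ 2 / (2 * σ)) +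
        (3 * σ / 2) * dist b (f z) ^ 2 := by
    intro z
    have h1 := abs_ip_sub_le b m m' (f z)
    have h2 := amgm (x := dist m m') (y := dist b m + dist b m' + dist b (f z)) hσ
    have h3 : (dist b m + dist b m' + dist b (f z)) ^ 2 ≤
        3 * (dist b m ^ 2 + dist b m' ^ 2 + dist b (f z) ^ 2) := by
      nlinarith [sq_nonneg (dist b m - dist b m'), sq_nonneg (dist b m - dist b (f z)),
        sq_nonneg (dist b m' - dist b (f z))]
    have h4 := mul_le_mul_of_nonneg_left h3 (by positivity : 0 ≤ σ / 2)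
    linarith
  refine (E1_mono h).trans (le_of_eq ?_)
  rw [E1_add, E1_const, E1_mul]
  ring

end

section Main

variable {X : Type u} [MetricSpace X] (hX : Cat X) {V : Type} [Fintype V] [Nonempty V]

/-- the facts extracted from near-equality -/
structure Ctx {adj : V → V → Prop} {p κ η : ℝ} {K : (V → V → (Fin 3 → V) → ℝ) → ℝ}
    (_hK : KS adj p κ η K) (f g : V → X) (b : X) (σ R : ℝ) : Prop where
  κ1 : 1 ≤ κ
  κ2 : κ ≤ 2
  σ0 : 0 < σ
  σ1 : σ ≤ 1
  ησ : η ≤ σ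
  R0 : 0 < R
  bar : IsBar (fun _ : V => (1 : ℝ) / Fintype.card V) f b
  Req : R = E1 fun v => dist b (f v) ^ 2
  hs : ∀ i j : Fin 3, i ≠ j →
      K (fun u u' v => dist (mp hX (g u) (g u')) (mp hX (f (v i)) (f (v j))) ^ 2) ≤ σ ^ 2 * R
  hI : -(σ ^ 2 * R) ≤ E2 (fun a a' => ip b (f a) (f a'))
  hd : E2 (fun a a' => dft hX b (f a) (f a')) ≤ σ * R

variable {adj : V → V → Prop} {p κ η : ℝ} {K : (V → V → (Fin 3 → V) → ℝ) → ℝ}
  {hK : KS adj p κ η K} {f g : V → X} {b : X} {σ R : ℝ}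

theorem KS.nonneg (hK : KS adj p κ η K) (Φ : V → V → (Fin 3 → V) → ℝ)
    (h : ∀ u u' v, 0 ≤ Φ u u' v) : 0 ≤ K Φ := by
  have h1 := hK.mono (fun _ _ _ => (0 : ℝ) * 0) Φ (fun u u' v => by simpa using h u u' v)
  rw [hK.smul 0 (fun _ _ _ => (0 : ℝ)), zero_mul] at h1
  exact h1

/-- four-cycle inequality, averaged -/
theorem quad_avg (hK : KS adj p κ η K) (hκ0 : 0 < κ) {e : ℝ}
    (hE : Ee adj p (fun u v => dist (g u) (f v) ^ 2) ≤ e) (i j : Fin 3) (hij : i ≠ j) :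
      4 * K (fun u u' v => dist (mp hX (g u) (g u')) (mp hX (f (v i)) (f (v j))) ^ 2) +
        E2 (fun a a' => dist (g a) (g a') ^ 2) + E2 (fun a a' => dist (f a) (f a') ^ 2) / κ ≤
        4 * κ * e := by
  have h1 := hK.mono (fun u u' v =>
    (4 * dist (mp hX (g u) (g u')) (mp hX (f (v i)) (f (v j))) ^ 2 +
      dist (g u) (g u') ^ 2) + dist (f (v i)) (f (v j)) ^ 2) (fun u u' v =>
    ((dist (g u) (f (v i)) ^ 2 + dist (g u) (f (v j)) ^ 2) + dist (g u') (f (v i)) ^ 2) +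
      dist (g u') (f (v j)) ^ 2) (fun u u' v => quad hX (g u) (g u') (f (v i)) (f (v j)))
  rw [hK.add (fun u u' v => 4 * dist (mp hX (g u) (g u')) (mp hX (f (v i)) (f (v j))) ^ 2 +
      dist (g u) (g u') ^ 2) (fun _ _ v => dist (f (v i)) (f (v j)) ^ 2),
    hK.add (fun u u' v => 4 * dist (mp hX (g u) (g u')) (mp hX (f (v i)) (f (v j))) ^ 2)
      (fun u u' _ => dist (g u) (g u') ^ 2),
    hK.smul 4 (fun u u' v => dist (mp hX (g u) (g u')) (mp hX (f (v i)) (f (v j))) ^ 2),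
    hK.uu (fun u u' => dist (g u) (g u') ^ 2) (fun u => by rw [dist_self]; norm_num),
    hK.add (fun u u' v => (dist (g u) (f (v i)) ^ 2 + dist (g u) (f (v j)) ^ 2) +
      dist (g u') (f (v i)) ^ 2) (fun _ u' v => dist (g u') (f (v j)) ^ 2),
    hK.add (fun u _ v => dist (g u) (f (v i)) ^ 2 + dist (g u) (f (v j)) ^ 2)
      (fun _ u' v => dist (g u') (f (v i)) ^ 2),
    hK.add (fun u _ v => dist (g u) (f (v i)) ^ 2) (fun u _ v => dist (g u) (f (v j)) ^ 2)] at h1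
  have h2 := hK.edge (fun u v => dist (g u) (f v) ^ 2) i (fun _ _ => sq_nonneg _)
  have h3 := hK.edge (fun u v => dist (g u) (f v) ^ 2) j (fun _ _ => sq_nonneg _)
  have h4 := hK.edge' (fun u v => dist (g u) (f v) ^ 2) i (fun _ _ => sq_nonneg _)
  have h5 := hK.edge' (fun u v => dist (g u) (f v) ^ 2) j (fun _ _ => sq_nonneg _)
  have h6 : κ * Ee adj p (fun u v => dist (g u) (f v) ^ 2) ≤ κ * e :=
    mul_le_mul_of_nonneg_left hE hκ0.le
  have h7 := hK.vv_ge (fun a a' => dist (f a) (f a') ^ 2) i j hij (fun _ _ => sq_nonneg _)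
    (fun a => by rw [dist_self]; norm_num)
  have h8 : E2 (fun a a' => dist (f a) (f a') ^ 2) / κ ≤
      K (fun _ _ v => dist (f (v i)) (f (v j)) ^ 2) := by
    rw [div_le_iff₀ hκ0]
    linarith
  linarith

/-- existence of the context -/
theorem exists_ctx (hbar : HasBar X) (hK : KS adj p κ η K) (hκ1 : 1 ≤ κ) (hκ2 : κ ≤ 2)
    {c : ℝ} (hσ : 0 < σ) (hσ1 : σ ≤ 1) (hησ : η ≤ σ) (hc0 : 0 ≤ c)
    (hc1 : κ * (4 * κ * (1 + c) - 2) ≤ 2 + 2 * σ ^ 2)
    (hc2 : κ * (1 + c) - 1 / 2 - 1 / (2 * κ) ≤ σ ^ 2)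
    (f g : V → X) {r : ℝ} (hr : 0 < r) (hg : ∀ x, r ≤ E1 fun v => dist (g v) x ^ 2)
    (hf : ∀ x, r ≤ E1 fun v => dist (f v) x ^ 2)
    (hE : Ee adj p (fun u v => dist (g u) (f v) ^ 2) ≤ (1 + c) * r) :
    ∃ b R, r ≤ R ∧ (∀ x, R ≤ E1 fun v => dist (f v) x ^ 2) ∧ Ctx hX hK f g b σ R := by
  classical
  have hV : (Fintype.card V : ℝ) ≠ 0 := (card_pos' (V := V)).ne'
  have hw1 : ∑ _v : V, (1 : ℝ) / Fintype.card V = 1 := by
    rw [Finset.sum_const, Finset.card_univ, nsmul_eq_mul]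
    field_simp
  have hw0 : ∀ _v : V, (0 : ℝ) ≤ 1 / Fintype.card V := fun _ => by positivity
  obtain ⟨b, hb⟩ := hbar V (fun _ => 1 / Fintype.card V) f hw0 hw1
  obtain ⟨b₁, hb₁⟩ := hbar V (fun _ => 1 / Fintype.card V) g hw0 hw1
  obtain ⟨R, hR⟩ : ∃ R, R = E1 (fun v => dist b (f v) ^ 2) := ⟨_, rfl⟩
  have hκ0 : 0 < κ := by linarith
  have hrR : r ≤ R := by
    have h := hf b
    simp only [dist_comm (f _) b] at h
    rw [hR]
    exact h
  have hR0 : 0 < R := hr.trans_le hrR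
  have hmin : ∀ x, R ≤ E1 fun v => dist (f v) x ^ 2 := by
    intro x
    have h := bar_E1 hb x
    have := sq_nonneg (dist b x)
    linarith
  have hA1 : 2 * r ≤ E2 fun a a' => dist (g a) (g a') ^ 2 := by
    have h1 := E2_ge hb₁
    have h2 := hg b₁
    simp only [dist_comm (g _) b₁] at h2
    linarith
  have hA2 := E2_ge hb
  rw [← hR] at hA2
  have hquad := quad_avg hX hK hκ0 hE
  have hip := E2_ip b f
  rw [← hR] at hip
  obtain ⟨A₁, hA₁⟩ : ∃ A₁, A₁ = E2 fun a a' => dist (g a) (g a') ^ 2 := ⟨_, rfl⟩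
  obtain ⟨A₂, hA₂⟩ : ∃ A₂, A₂ = E2 fun a a' => dist (f a) (f a') ^ 2 := ⟨_, rfl⟩
  rw [← hA₁] at hA1 hquad
  rw [← hA₂] at hA2 hquad hip
  have hA2u : A₂ ≤ (2 + 2 * σ ^ 2) * R := by
    have h1 := hquad 0 1 (by decide)
    have h2 := hK.nonneg
      (fun u u' v => dist (mp hX (g u) (g u')) (mp hX (f (v 0)) (f (v 1))) ^ 2)
      (fun _ _ _ => sq_nonneg _)
    have h3 : A₂ / κ ≤ (4 * κ * (1 + c) - 2) * r := by
      have e : 4 * κ * ((1 + c) * r) = (4 * κ * (1 + c) - 2) * r + 2 * r := by ring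
      linarith
    have h4 : A₂ ≤ κ * ((4 * κ * (1 + c) - 2) * r) := by
      rw [div_le_iff₀ hκ0] at h3
      linarith
    calc A₂ ≤ κ * ((4 * κ * (1 + c) - 2) * r) := h4
      _ = κ * (4 * κ * (1 + c) - 2) * r := by ring
      _ ≤ (2 + 2 * σ ^ 2) * r := mul_le_mul_of_nonneg_right hc1 hr.le
      _ ≤ (2 + 2 * σ ^ 2) * R := mul_le_mul_of_nonneg_left hrR (by positivity)
  have hs : ∀ i j : Fin 3, i ≠ j →
      K (fun u u' v => dist (mp hX (g u) (g u')) (mp hX (f (v i)) (f (v j))) ^ 2) ≤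
        σ ^ 2 * R := by
    intro i j hij
    have h1 := hquad i j hij
    have h2 : 2 * R / κ ≤ A₂ / κ := div_le_div_of_nonneg_right hA2 hκ0.le
    have h3 : K (fun u u' v => dist (mp hX (g u) (g u')) (mp hX (f (v i)) (f (v j))) ^ 2) ≤
        (κ * (1 + c) - 1 / 2) * r - R / (2 * κ) := by
      have e : 2 * R / κ = 4 * (R / (2 * κ)) := by field_simp; ring
      rw [e] at h2
      have e2 : 4 * ((κ * (1 + c) - 1 / 2) * r) = 4 * κ * ((1 + c) * r) - 2 * r := by ring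
      linarith
    have h4 : (κ * (1 + c) - 1 / 2) * r ≤ (κ * (1 + c) - 1 / 2) * R := by
      refine mul_le_mul_of_nonneg_left hrR ?_
      have : κ * 1 ≤ κ * (1 + c) := mul_le_mul_of_nonneg_left (by linarith) hκ0.le
      linarith
    have h5 : (κ * (1 + c) - 1 / 2) * R - R / (2 * κ) ≤ σ ^ 2 * R := by
      have := mul_le_mul_of_nonneg_right hc2 hR0.le
      have e : R / (2 * κ) = 1 / (2 * κ) * R := by ring
      rw [e]
      linarith
    linarith
  have hI : -(σ ^ 2 * R) ≤ E2 (fun a a' => ip b (f a) (f a')) := by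
    rw [hip]
    linarith
  have hvr : vr (fun _ : V => (1 : ℝ) / Fintype.card V) f b = R := by
    unfold vr
    rw [← Finset.mul_sum, hR]
    unfold E1
    rw [div_eq_inv_mul (∑ v, dist b (f v) ^ 2), ← one_div]
  have hdft : E2 (fun a a' => dft hX b (f a) (f a')) ≤ σ * R := by
    have h := dft_avg_le hX hw0 hw1 hb hσ (by rw [hvr, wsum_eq_E2]; exact hI)
    rw [hvr, wsum_eq_E2] at h
    exact h
  exact ⟨b, R, hrR, hmin, ⟨hκ1, hκ2, hσ, hσ1, hησ, hR0, hb, hR, hs, hI, hdft⟩⟩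

namespace Ctx

variable {hX}
variable (C : Ctx hX hK f g b σ R)

include C

theorem sR0 : 0 < σ * R := mul_pos C.σ0 C.R0

theorem sq_le : σ ^ 2 * R ≤ σ * R := by
  have h : σ ^ 2 ≤ σ := by nlinarith [C.σ0, C.σ1]
  exact mul_le_mul_of_nonneg_right h C.R0.le

theorem HE : E2 (Hh hX f b) ≤ 2 * (σ * R) := by
  have h1 : E2 (Hh hX f b) ≤ E2 (fun a a' => (dft hX b (f a) (f a') - Gg f b a / 2) -
      Gg f b a' / 2) := E2_mono fun a a' => Hh_le hX C.bar a a'
  rw [E2_sub, E2_sub, E2_left (fun a => Gg f b a / 2), E2_right (fun a => Gg f b a / 2)] at h1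
  have e : E1 (fun a => Gg f b a / 2) = E2 (fun a a' => ip b (f a) (f a')) / 2 := by
    have : (fun a => Gg f b a / 2) = fun a => (1 / 2) * Gg f b a := by funext a; ring
    rw [this, E1_mul, E1_Gg]
    ring
  rw [e] at h1
  have h2 := C.hI
  have h3 := C.hd
  have h4 := C.sq_le
  linarith

theorem HK (i j : Fin 3) (hij : i ≠ j) :
    K (fun _ _ v => Hh hX f b (v i) (v j)) ≤ 4 * (σ * R) := by
  have h1 := hK.vv_le (Hh hX f b) i j hij (Hh_nonneg hX f b) (Hh_self hX f b)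
  have h2 : κ * E2 (Hh hX f b) ≤ 2 * (2 * (σ * R)) := by
    have h3 : 0 ≤ E2 (Hh hX f b) := E2_nonneg (Hh_nonneg hX f b)
    exact mul_le_mul C.κ2 C.HE h3 (by norm_num)
  linarith

theorem Kv (i : Fin 3) : K (fun _ _ v => dist b (f (v i)) ^ 2) ≤ 2 * R := by
  have h1 := hK.v1 (fun a => dist b (f a) ^ 2) i (fun _ => sq_nonneg _)
  rw [← C.Req] at h1
  have h2 := mul_le_mul_of_nonneg_right C.κ2 C.R0.le
  linarith

theorem Km (i j : Fin 3) :
    K (fun _ _ v => dist b (mp hX (f (v i)) (f (v j))) ^ 2) ≤ 2 * R := by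
  have h1 := hK.mono (fun _ _ v => dist b (mp hX (f (v i)) (f (v j))) ^ 2)
    (fun _ _ v => (1 / 2) * dist b (f (v i)) ^ 2 + (1 / 2) * dist b (f (v j)) ^ 2)
    (fun _ _ v => by have := sq_mp_le hX b (f (v i)) (f (v j)); linarith)
  rw [hK.add (fun _ _ v => (1 / 2) * dist b (f (v i)) ^ 2)
    (fun _ _ v => (1 / 2) * dist b (f (v j)) ^ 2), hK.smul (1 / 2)
    (fun _ _ v => dist b (f (v i)) ^ 2), hK.smul (1 / 2)
    (fun _ _ v => dist b (f (v j)) ^ 2)] at h1
  have h2 := C.Kv i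
  have h3 := C.Kv j
  linarith

theorem Kd : K (fun _ _ v =>
    dist (mp hX (f (v 0)) (f (v 1))) (mp hX (f (v 0)) (f (v 2))) ^ 2) ≤ 4 * (σ ^ 2 * R) := by
  have h1 := hK.mono
    (fun _ _ v => dist (mp hX (f (v 0)) (f (v 1))) (mp hX (f (v 0)) (f (v 2))) ^ 2)
    (fun u u' v => 2 * dist (mp hX (g u) (g u')) (mp hX (f (v 0)) (f (v 1))) ^ 2 +
      2 * dist (mp hX (g u) (g u')) (mp hX (f (v 0)) (f (v 2))) ^ 2)
    (fun u u' v => by
      have h := dist_triangle (mp hX (f (v 0)) (f (v 1))) (mp hX (g u) (g u'))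
        (mp hX (f (v 0)) (f (v 2)))
      rw [dist_comm (mp hX (f (v 0)) (f (v 1))) (mp hX (g u) (g u'))] at h
      have h2 := pow_le_pow_left₀ dist_nonneg h 2
      nlinarith [sq_nonneg (dist (mp hX (g u) (g u')) (mp hX (f (v 0)) (f (v 1))) -
        dist (mp hX (g u) (g u')) (mp hX (f (v 0)) (f (v 2))))])
  rw [hK.add (fun u u' v => 2 * dist (mp hX (g u) (g u')) (mp hX (f (v 0)) (f (v 1))) ^ 2)
    (fun u u' v => 2 * dist (mp hX (g u) (g u')) (mp hX (f (v 0)) (f (v 2))) ^ 2),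
    hK.smul 2 (fun u u' v => dist (mp hX (g u) (g u')) (mp hX (f (v 0)) (f (v 1))) ^ 2),
    hK.smul 2 (fun u u' v => dist (mp hX (g u) (g u')) (mp hX (f (v 0)) (f (v 2))) ^ 2)] at h1
  have h2 := C.hs 0 1 (by decide)
  have h3 := C.hs 0 2 (by decide)
  linarith

theorem Kd' : 1 / (2 * σ) * K (fun _ _ v =>
    dist (mp hX (f (v 0)) (f (v 1))) (mp hX (f (v 0)) (f (v 2))) ^ 2) ≤ 2 * (σ * R) := by
  have hσ := C.σ0
  rw [one_div, ← div_eq_inv_mul, div_le_iff₀ (by positivity)]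
  have := C.Kd
  nlinarith

theorem L5 : K (fun _ _ v => E1 fun z => |ip b (mp hX (f (v 0)) (f (v 1))) (f z) -
      ip b (mp hX (f (v 0)) (f (v 2))) (f z)|) ≤ (19 / 2) * (σ * R) := by
  have hσ := C.σ0
  have hR0 := C.R0
  have h1 := hK.mono (fun _ _ v => E1 fun z => |ip b (mp hX (f (v 0)) (f (v 1))) (f z) -
    ip b (mp hX (f (v 0)) (f (v 2))) (f z)|)
    (fun _ _ v => ((3 * σ / 2) * dist b (mp hX (f (v 0)) (f (v 1))) ^ 2 +
      (3 * σ / 2) * dist b (mp hX (f (v 0)) (f (v 2))) ^ 2) +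
      ((1 / (2 * σ)) * dist (mp hX (f (v 0)) (f (v 1))) (mp hX (f (v 0)) (f (v 2))) ^ 2 +
        (3 * σ / 2) * R))
    (fun _ _ v => by
      have h := lip_avg hσ f b (mp hX (f (v 0)) (f (v 1))) (mp hX (f (v 0)) (f (v 2)))
      rw [← C.Req] at h
      refine h.trans (le_of_eq ?_)
      ring)
  have hconst : K (fun _ _ _ => ((3 * σ / 2) * R) * 1) ≤ (3 * σ / 2) * R := by
    rw [hK.smul ((3 * σ / 2) * R) (fun _ _ _ => (1 : ℝ))]
    have h2 := mul_le_mul_of_nonneg_left hK.one (by positivity : 0 ≤ (3 * σ / 2) * R)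
    linarith
  rw [mul_one] at hconst
  rw [hK.add (fun _ _ v => (3 * σ / 2) * dist b (mp hX (f (v 0)) (f (v 1))) ^ 2 +
      (3 * σ / 2) * dist b (mp hX (f (v 0)) (f (v 2))) ^ 2) (fun _ _ v =>
      (1 / (2 * σ)) * dist (mp hX (f (v 0)) (f (v 1))) (mp hX (f (v 0)) (f (v 2))) ^ 2 +
        (3 * σ / 2) * R),
    hK.add (fun _ _ v => (3 * σ / 2) * dist b (mp hX (f (v 0)) (f (v 1))) ^ 2)
      (fun _ _ v => (3 * σ / 2) * dist b (mp hX (f (v 0)) (f (v 2))) ^ 2),
    hK.add (fun _ _ v =>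
      (1 / (2 * σ)) * dist (mp hX (f (v 0)) (f (v 1))) (mp hX (f (v 0)) (f (v 2))) ^ 2)
      (fun _ _ _ => (3 * σ / 2) * R),
    hK.smul (3 * σ / 2) (fun _ _ v => dist b (mp hX (f (v 0)) (f (v 1))) ^ 2),
    hK.smul (3 * σ / 2) (fun _ _ v => dist b (mp hX (f (v 0)) (f (v 2))) ^ 2),
    hK.smul (1 / (2 * σ)) (fun _ _ v =>
      dist (mp hX (f (v 0)) (f (v 1))) (mp hX (f (v 0)) (f (v 2))) ^ 2)] at h1
  have h2 := mul_le_mul_of_nonneg_left (C.Km 0 1) (by positivity : 0 ≤ 3 * σ / 2)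
  have h3 := mul_le_mul_of_nonneg_left (C.Km 0 2) (by positivity : 0 ≤ 3 * σ / 2)
  have h4 := C.Kd'
  linarith

theorem KP : K (fun _ _ v => E1 fun z => |ip b (f (v 1)) (f z) - ip b (f (v 2)) (f z)|) ≤
    35 * (σ * R) := by
  have h1 := hK.mono
    (fun _ _ v => E1 fun z => |ip b (f (v 1)) (f z) - ip b (f (v 2)) (f z)|)
    (fun _ _ v => 2 * ((Hh hX f b (v 0) (v 1) + Hh hX f b (v 0) (v 2)) +
      E1 fun z => |ip b (mp hX (f (v 0)) (f (v 1))) (f z) -
        ip b (mp hX (f (v 0)) (f (v 2))) (f z)|))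
    (fun _ _ v => by
      unfold Hh
      rw [← E1_add, ← E1_add, ← E1_mul]
      refine E1_mono fun z => ?_
      have e : ip b (f (v 1)) (f z) - ip b (f (v 2)) (f z) =
          2 * ((ip b (mp hX (f (v 0)) (f (v 1))) (f z) -
            ip b (mp hX (f (v 0)) (f (v 2))) (f z)) - Dd hX f b (v 0) (v 1) z +
            Dd hX f b (v 0) (v 2) z) := by
        unfold Dd
        ring
      rw [e, abs_mul, abs_of_pos (two_pos : (0 : ℝ) < 2)]
      refine mul_le_mul_of_nonneg_left ?_ (by norm_num)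
      refine (abs_add_le _ _).trans ?_
      have := abs_sub (ip b (mp hX (f (v 0)) (f (v 1))) (f z) -
            ip b (mp hX (f (v 0)) (f (v 2))) (f z)) (Dd hX f b (v 0) (v 1) z)
      linarith)
  rw [hK.smul 2 (fun _ _ v => (Hh hX f b (v 0) (v 1) + Hh hX f b (v 0) (v 2)) +
      E1 fun z => |ip b (mp hX (f (v 0)) (f (v 1))) (f z) -
        ip b (mp hX (f (v 0)) (f (v 2))) (f z)|),
    hK.add (fun _ _ v => Hh hX f b (v 0) (v 1) + Hh hX f b (v 0) (v 2)) (fun _ _ v =>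
      E1 fun z => |ip b (mp hX (f (v 0)) (f (v 1))) (f z) -
        ip b (mp hX (f (v 0)) (f (v 2))) (f z)|),
    hK.add (fun _ _ v => Hh hX f b (v 0) (v 1)) (fun _ _ v => Hh hX f b (v 0) (v 2))] at h1
  have h2 := C.HK 0 1 (by decide)
  have h3 := C.HK 0 2 (by decide)
  have h4 := C.L5
  linarith

theorem P : E2 (fun a a' => E1 fun z => |ip b (f a) (f z) - ip b (f a') (f z)|) ≤
    70 * (σ * R) := by
  have h4 := hK.vv_ge (fun a a' => E1 fun z => |ip b (f a) (f z) - ip b (f a') (f z)|) 1 2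
    (by decide) (fun _ _ => E1_nonneg fun _ => abs_nonneg _)
    (fun a => by
      have : (fun z => |ip b (f a) (f z) - ip b (f a) (f z)|) = fun _ : V => (0 : ℝ) := by
        funext z
        simp
      rw [this, E1_const])
  have h6 := hK.nonneg (fun _ _ v => E1 fun z => |ip b (f (v 1)) (f z) - ip b (f (v 2)) (f z)|)
    (fun _ _ _ => E1_nonneg fun _ => abs_nonneg _)
  have h7 := mul_le_mul_of_nonneg_right C.κ2 h6
  have h8 := C.KP
  linarith

theorem Q : E2 (fun a a' => |ip b (f a) (f a')|) ≤ 71 * (σ * R) := by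
  have hsymm : ∀ z, E1 (fun a => ip b (f a) (f z)) = Gg f b z := by
    intro z
    unfold Gg
    congr 1
    funext a
    exact ip_comm _ _ _
  have h1 : ∀ a z, |ip b (f a) (f z)| ≤
      E1 (fun a' => |ip b (f a) (f z) - ip b (f a') (f z)|) + -Gg f b z := by
    intro a z
    have h2 : ip b (f a) (f z) = E1 (fun a' => ip b (f a) (f z) - ip b (f a') (f z)) +
        Gg f b z := by
      rw [E1_sub, E1_const, hsymm]
      ring
    have h3 := abs_E1_le (fun a' => ip b (f a) (f z) - ip b (f a') (f z))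
    have h4 : |Gg f b z| = -Gg f b z := abs_of_nonpos (E1_ip_nonpos C.bar (f z))
    calc |ip b (f a) (f z)| = |E1 (fun a' => ip b (f a) (f z) - ip b (f a') (f z)) +
        Gg f b z| := by rw [← h2]
      _ ≤ |E1 (fun a' => ip b (f a) (f z) - ip b (f a') (f z))| + |Gg f b z| := abs_add_le _ _
      _ ≤ _ := by rw [h4]; linarith
  have h2 := E2_mono h1
  rw [E2_add, E2_right (fun z => -Gg f b z)] at h2
  have e1 : E1 (fun z => -Gg f b z) = -E2 (fun a a' => ip b (f a) (f a')) := by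
    have : (fun z => -Gg f b z) = fun z => (-1) * Gg f b z := by funext z; ring
    rw [this, E1_mul, E1_Gg]
    ring
  have e2 : E2 (fun a z => E1 (fun a' => |ip b (f a) (f z) - ip b (f a') (f z)|)) =
      E2 (fun a a' => E1 fun z => |ip b (f a) (f z) - ip b (f a') (f z)|) := by
    rw [E2_eq, E2_eq]
    congr 1
    funext a
    rw [← E2_eq (fun z a' => |ip b (f a) (f z) - ip b (f a') (f z)|), ← E2_comm, E2_eq]
  rw [e1, e2] at h2
  have h3 := C.P
  have h4 := C.hI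
  have h5 := C.sq_le
  linarith

theorem Kip (i j : Fin 3) (hij : i ≠ j) : K (fun _ _ v => |ip b (f (v i)) (f (v j))|) ≤
    143 * (σ * R) := by
  classical
  have h1 := hK.mono (fun _ _ v => |ip b (f (v i)) (f (v j))|)
    (fun _ _ v => (if v i = v j then 0 else |ip b (f (v i)) (f (v j))|) +
      if v i = v j then dist b (f (v i)) ^ 2 else 0)
    (fun _ _ v => by
      by_cases h : v i = v j
      · rw [if_pos h, if_pos h, ← h]
        have : ip b (f (v i)) (f (v i)) = dist b (f (v i)) ^ 2 := by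
          unfold ip
          rw [dist_self]
          ring
        rw [this, abs_of_nonneg (sq_nonneg _), zero_add]
      · rw [if_neg h, if_neg h, add_zero])
  rw [hK.add (fun _ _ v => if v i = v j then 0 else |ip b (f (v i)) (f (v j))|)
    (fun _ _ v => if v i = v j then dist b (f (v i)) ^ 2 else 0)] at h1
  have h2 := hK.vv_le (fun a a' => if a = a' then 0 else |ip b (f a) (f a')|) i j hij
    (fun a a' => by split_ifs; exacts [le_rfl, abs_nonneg _]) (fun a => by simp)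
  have h3 := hK.diag (fun a => dist b (f a) ^ 2) i j hij (fun _ => sq_nonneg _)
  rw [← C.Req] at h3
  have h4 : E2 (fun a a' => if a = a' then 0 else |ip b (f a) (f a')|) ≤ 71 * (σ * R) := by
    refine le_trans (E2_mono fun a a' => ?_) C.Q
    split_ifs
    · exact abs_nonneg _
    · exact le_rfl
  have h5 : 0 ≤ E2 (fun a a' => if a = a' then 0 else |ip b (f a) (f a')|) :=
    E2_nonneg fun a a' => by split_ifs; exacts [le_rfl, abs_nonneg _]
  have h6 : κ * E2 (fun a a' => if a = a' then 0 else |ip b (f a) (f a')|) ≤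
      2 * (71 * (σ * R)) := mul_le_mul C.κ2 h4 h5 (by norm_num)
  have h7 := mul_le_mul_of_nonneg_right C.ησ C.R0.le
  linarith

theorem KN : K (fun _ _ v => |dist b (f (v 1)) ^ 2 - dist b (f (v 2)) ^ 2|) ≤
    612 * (σ * R) := by
  have hσ := C.σ0
  have h1 := hK.mono (fun _ _ v => |dist b (f (v 1)) ^ 2 - dist b (f (v 2)) ^ 2|)
    (fun _ _ v => 4 * (((σ * dist b (mp hX (f (v 0)) (f (v 1))) ^ 2 +
      σ * dist b (mp hX (f (v 0)) (f (v 2))) ^ 2) +
      (1 / (2 * σ)) * dist (mp hX (f (v 0)) (f (v 1))) (mp hX (f (v 0)) (f (v 2))) ^ 2) +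
      (((1 / 2) * |ip b (f (v 0)) (f (v 1))| + (1 / 2) * |ip b (f (v 0)) (f (v 2))|) +
      (dft hX b (f (v 0)) (f (v 1)) + dft hX b (f (v 0)) (f (v 2))))))
    (fun _ _ v => by
      have e1 := med_eq hX b (f (v 0)) (f (v 1))
      have e2 := med_eq hX b (f (v 0)) (f (v 2))
      have h2 : |dist b (mp hX (f (v 0)) (f (v 1))) ^ 2 -
          dist b (mp hX (f (v 0)) (f (v 2))) ^ 2| ≤
          (σ * dist b (mp hX (f (v 0)) (f (v 1))) ^ 2 +
            σ * dist b (mp hX (f (v 0)) (f (v 2))) ^ 2) +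
          (1 / (2 * σ)) * dist (mp hX (f (v 0)) (f (v 1))) (mp hX (f (v 0)) (f (v 2))) ^ 2 := by
        generalize mp hX (f (v 0)) (f (v 1)) = m
        generalize mp hX (f (v 0)) (f (v 2)) = m'
        have h3 : |dist b m - dist b m'| ≤ dist m m' := by
          rw [dist_comm b m, dist_comm b m']
          exact abs_dist_sub_le m m' b
        have e : dist b m ^ 2 - dist b m' ^ 2 =
            (dist b m - dist b m') * (dist b m + dist b m') := by ring
        have hs : 0 ≤ dist b m + dist b m' := add_nonneg dist_nonneg dist_nonneg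
        rw [e, abs_mul, abs_of_nonneg hs]
        have h4 := mul_le_mul_of_nonneg_right h3 hs
        have h5 := amgm (x := dist m m') (y := dist b m + dist b m') hσ
        have h6 : σ / 2 * (dist b m + dist b m') ^ 2 ≤ σ * dist b m ^ 2 + σ * dist b m' ^ 2 := by
          have h7 : (dist b m + dist b m') ^ 2 ≤ 2 * (dist b m ^ 2 + dist b m' ^ 2) := by
            nlinarith [sq_nonneg (dist b m - dist b m')]
          have h8 := mul_le_mul_of_nonneg_left h7 (by positivity : 0 ≤ σ / 2)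
          linarith
        have e3 : (1 / (2 * σ)) * dist m m' ^ 2 = dist m m' ^ 2 / (2 * σ) := by ring
        rw [e3]
        linarith
      have e3 : dist b (f (v 1)) ^ 2 - dist b (f (v 2)) ^ 2 =
          4 * ((dist b (mp hX (f (v 0)) (f (v 1))) ^ 2 -
            dist b (mp hX (f (v 0)) (f (v 2))) ^ 2) +
            (-(ip b (f (v 0)) (f (v 1)) / 2) + ip b (f (v 0)) (f (v 2)) / 2 +
            (dft hX b (f (v 0)) (f (v 1)) - dft hX b (f (v 0)) (f (v 2))))) := by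
        rw [e1, e2]
        ring
      have d1 := dft_nonneg hX b (f (v 0)) (f (v 1))
      have d2 := dft_nonneg hX b (f (v 0)) (f (v 2))
      rw [e3, abs_mul, abs_of_pos (by norm_num : (0 : ℝ) < 4)]
      refine mul_le_mul_of_nonneg_left ?_ (by norm_num)
      refine (abs_add_le _ _).trans (add_le_add h2 ?_)
      refine (abs_add_le _ _).trans (add_le_add ?_ ?_)
      · refine (abs_add_le _ _).trans (le_of_eq ?_)
        rw [abs_neg, abs_div, abs_div, abs_of_pos (two_pos : (0 : ℝ) < 2)]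
        ring
      · refine (abs_sub _ _).trans (le_of_eq ?_)
        rw [abs_of_nonneg d1, abs_of_nonneg d2])
  rw [hK.smul 4 (fun _ _ v => ((σ * dist b (mp hX (f (v 0)) (f (v 1))) ^ 2 +
      σ * dist b (mp hX (f (v 0)) (f (v 2))) ^ 2) +
      (1 / (2 * σ)) * dist (mp hX (f (v 0)) (f (v 1))) (mp hX (f (v 0)) (f (v 2))) ^ 2) +
      (((1 / 2) * |ip b (f (v 0)) (f (v 1))| + (1 / 2) * |ip b (f (v 0)) (f (v 2))|) +
      (dft hX b (f (v 0)) (f (v 1)) + dft hX b (f (v 0)) (f (v 2))))),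
    hK.add (fun _ _ v => (σ * dist b (mp hX (f (v 0)) (f (v 1))) ^ 2 +
      σ * dist b (mp hX (f (v 0)) (f (v 2))) ^ 2) +
      (1 / (2 * σ)) * dist (mp hX (f (v 0)) (f (v 1))) (mp hX (f (v 0)) (f (v 2))) ^ 2)
      (fun _ _ v => ((1 / 2) * |ip b (f (v 0)) (f (v 1))| +
        (1 / 2) * |ip b (f (v 0)) (f (v 2))|) +
      (dft hX b (f (v 0)) (f (v 1)) + dft hX b (f (v 0)) (f (v 2)))),
    hK.add (fun _ _ v => σ * dist b (mp hX (f (v 0)) (f (v 1))) ^ 2 +
      σ * dist b (mp hX (f (v 0)) (f (v 2))) ^ 2) (fun _ _ v =>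
      (1 / (2 * σ)) * dist (mp hX (f (v 0)) (f (v 1))) (mp hX (f (v 0)) (f (v 2))) ^ 2),
    hK.add (fun _ _ v => σ * dist b (mp hX (f (v 0)) (f (v 1))) ^ 2) (fun _ _ v =>
      σ * dist b (mp hX (f (v 0)) (f (v 2))) ^ 2),
    hK.smul σ (fun _ _ v => dist b (mp hX (f (v 0)) (f (v 1))) ^ 2),
    hK.smul σ (fun _ _ v => dist b (mp hX (f (v 0)) (f (v 2))) ^ 2),
    hK.smul (1 / (2 * σ)) (fun _ _ v =>
      dist (mp hX (f (v 0)) (f (v 1))) (mp hX (f (v 0)) (f (v 2))) ^ 2),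
    hK.add (fun _ _ v => (1 / 2) * |ip b (f (v 0)) (f (v 1))| +
      (1 / 2) * |ip b (f (v 0)) (f (v 2))|) (fun _ _ v =>
      dft hX b (f (v 0)) (f (v 1)) + dft hX b (f (v 0)) (f (v 2))),
    hK.add (fun _ _ v => (1 / 2) * |ip b (f (v 0)) (f (v 1))|) (fun _ _ v =>
      (1 / 2) * |ip b (f (v 0)) (f (v 2))|),
    hK.smul (1 / 2) (fun _ _ v => |ip b (f (v 0)) (f (v 1))|),
    hK.smul (1 / 2) (fun _ _ v => |ip b (f (v 0)) (f (v 2))|),
    hK.add (fun _ _ v => dft hX b (f (v 0)) (f (v 1))) (fun _ _ v =>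
      dft hX b (f (v 0)) (f (v 2)))] at h1
  have h2 := mul_le_mul_of_nonneg_left (C.Km 0 1) hσ.le
  have h3 := mul_le_mul_of_nonneg_left (C.Km 0 2) hσ.le
  have h4 := C.Kd'
  have h5 := C.Kip 0 1 (by decide)
  have h6 := C.Kip 0 2 (by decide)
  have hd : ∀ i j : Fin 3, i ≠ j → K (fun _ _ v => dft hX b (f (v i)) (f (v j))) ≤
      2 * (σ * R) := by
    intro i j hij
    have h7 := hK.vv_le (fun a a' => dft hX b (f a) (f a')) i j hij
      (fun a a' => dft_nonneg hX b (f a) (f a')) (fun a => dft_self hX b (f a))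
    have h8 : 0 ≤ E2 (fun a a' => dft hX b (f a) (f a')) :=
      E2_nonneg fun a a' => dft_nonneg hX b (f a) (f a')
    have h9 : κ * E2 (fun a a' => dft hX b (f a) (f a')) ≤ 2 * (σ * R) :=
      mul_le_mul C.κ2 C.hd h8 (by norm_num)
    linarith
  have h7 := hd 0 1 (by decide)
  have h8 := hd 0 2 (by decide)
  linarith

theorem N2 : E2 (fun a a' => |dist b (f a) ^ 2 - dist b (f a') ^ 2|) ≤ 1224 * (σ * R) := by
  have h4 := hK.vv_ge (fun a a' => |dist b (f a) ^ 2 - dist b (f a') ^ 2|) 1 2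
    (by decide) (fun _ _ => abs_nonneg _) (fun a => by simp)
  have h6 := hK.nonneg (fun _ _ v => |dist b (f (v 1)) ^ 2 - dist b (f (v 2)) ^ 2|)
    (fun _ _ _ => abs_nonneg _)
  have h7 := mul_le_mul_of_nonneg_right C.κ2 h6
  have h8 := C.KN
  linarith

theorem fin : E2 (fun a a' => |dist (f a) (f a') ^ 2 - 2 * R|) ≤ 3000 * σ * R := by
  have h1 : ∀ a, |dist b (f a) ^ 2 - R| ≤
      E1 (fun a' => |dist b (f a) ^ 2 - dist b (f a') ^ 2|) := by
    intro a
    have e : dist b (f a) ^ 2 - R = E1 (fun a' => dist b (f a) ^ 2 - dist b (f a') ^ 2) := by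
      rw [E1_sub, E1_const, ← C.Req]
    rw [e]
    exact abs_E1_le _
  have h2 := E1_mono h1
  rw [← E2_eq] at h2
  have h3 : ∀ a a', |dist (f a) (f a') ^ 2 - 2 * R| ≤
      (|dist b (f a) ^ 2 - R| + |dist b (f a') ^ 2 - R|) + 2 * |ip b (f a) (f a')| := by
    intro a a'
    have e : dist (f a) (f a') ^ 2 - 2 * R =
        ((dist b (f a) ^ 2 - R) + (dist b (f a') ^ 2 - R)) + -(2 * ip b (f a) (f a')) := by
      rw [dist_sq_eq b]
      ring
    rw [e]
    refine (abs_add_le _ _).trans (add_le_add (abs_add_le _ _) (le_of_eq ?_))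
    rw [abs_neg, abs_mul, abs_of_pos (two_pos : (0 : ℝ) < 2)]
  have h4 := E2_mono h3
  rw [E2_add, E2_add, E2_mul, E2_left (fun a => |dist b (f a) ^ 2 - R|),
    E2_right (fun a => |dist b (f a) ^ 2 - R|)] at h4
  have h5 := C.N2
  have h6 := C.Q
  have h7 := C.sR0
  linarith

end Ctx

end Main

end Vale.Agent.P172
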