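import Vale.Agent.P172.B4

/-!
# P172, DIM-B: the average over copies of `K_{2,3}` in a quasi-random graph (helper218)
-/

namespace Vale.Agent.P172

open Finset

section

variable {V : Type} [Fintype V]

open Classical in
/-- average over `u ≠ u'` of the average over triples of common neighbours -/
noncomputable def Kq (adj : V → V → Prop) (Φ : V → V → (Fin 3 → V) → ℝ) : ℝ :=
  (∑ u, ∑ u', if u = u' then 0 else
    (∑ s : Fin 3 → {v // adj u v ∧ adj u' v}, Φ u u' (fun i => (s i).1)) /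
      (Fintype.card {v // adj u v ∧ adj u' v} : ℝ) ^ 3) / (Fintype.card V : ℝ) ^ 2

open Classical in
/-- indicator of adjacency -/
noncomputable def Mi (adj : V → V → Prop) (u v : V) : ℝ := if adj u v then 1 else 0

omit [Fintype V] in
theorem Mi_nonneg (adj : V → V → Prop) (u v : V) : 0 ≤ Mi adj u v := by
  unfold Mi
  split_ifs
  · exact zero_le_one
  · exact le_rfl

omit [Fintype V] in
theorem Mi_sq (adj : V → V → Prop) (u v : V) : Mi adj u v * Mi adj u v = Mi adj u v := by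
  unfold Mi
  split_ifs <;> simp

open Classical in
/-- codegree -/
noncomputable def cc (adj : V → V → Prop) (u u' : V) : ℝ :=
  (Fintype.card {v // adj u v ∧ adj u' v} : ℝ)

theorem sum_sub (adj : V → V → Prop) (u u' : V) (φ : V → ℝ) [Fintype {v // adj u v ∧ adj u' v}] :
    ∑ b : {v // adj u v ∧ adj u' v}, φ b.1 = ∑ v, Mi adj u v * Mi adj u' v * φ v := by
  classical
  have h : ∀ v, Mi adj u v * Mi adj u' v * φ v = if adj u v ∧ adj u' v then φ v else 0 := by
    intro v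
    unfold Mi
    by_cases h1 : adj u v <;> by_cases h2 : adj u' v <;> simp [h1, h2]
  simp only [h]
  rw [← Finset.sum_filter]
  exact (Finset.sum_subtype (Finset.univ.filter fun v => adj u v ∧ adj u' v) (by simp) φ).symm

theorem cc_eq (adj : V → V → Prop) (u u' : V) : cc adj u u' = ∑ v, Mi adj u v * Mi adj u' v := by
  classical
  have h := sum_sub adj u u' (fun _ => 1)
  simp only [mul_one] at h
  rw [← h]
  unfold cc
  simp

open Classical in
theorem marg1 (adj : V → V → Prop) (u u' : V) (h0 : cc adj u u' ≠ 0) (i : Fin 3) (φ : V → ℝ) :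
    (∑ s : Fin 3 → {v // adj u v ∧ adj u' v}, φ (s i).1) /
      (Fintype.card {v // adj u v ∧ adj u' v} : ℝ) ^ 3 =
      (∑ v, Mi adj u v * Mi adj u' v * φ v) / cc adj u u' := by
  rw [sum_marg i (fun b : {v // adj u v ∧ adj u' v} => φ b.1), sum_sub]
  have e : (Fintype.card {v // adj u v ∧ adj u' v} : ℝ) = cc adj u u' := rfl
  rw [e, Fintype.card_fin]
  norm_num
  field_simp

open Classical in
theorem marg2 (adj : V → V → Prop) (u u' : V) (h0 : cc adj u u' ≠ 0) (i j : Fin 3) (hij : i ≠ j)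
    (φ : V → V → ℝ) :
    (∑ s : Fin 3 → {v // adj u v ∧ adj u' v}, φ (s i).1 (s j).1) /
      (Fintype.card {v // adj u v ∧ adj u' v} : ℝ) ^ 3 =
      (∑ v, ∑ v', Mi adj u v * Mi adj u' v * (Mi adj u v' * Mi adj u' v' * φ v v')) /
        cc adj u u' ^ 2 := by
  rw [sum_marg2 hij.symm (fun a b : {v // adj u v ∧ adj u' v} => φ a.1 b.1)]
  have e : (Fintype.card {v // adj u v ∧ adj u' v} : ℝ) = cc adj u u' := rfl
  have e2 : ∑ a : {v // adj u v ∧ adj u' v}, ∑ b : {v // adj u v ∧ adj u' v}, φ a.1 b.1 =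
      ∑ v, ∑ v', Mi adj u v * Mi adj u' v * (Mi adj u v' * Mi adj u' v' * φ v v') := by
    have h1 : ∀ a : {v // adj u v ∧ adj u' v}, ∑ b : {v // adj u v ∧ adj u' v}, φ a.1 b.1 =
        ∑ v', Mi adj u v' * Mi adj u' v' * φ a.1 v' := fun a => sum_sub adj u u' (φ a.1)
    rw [Finset.sum_congr rfl fun a _ => h1 a, sum_sub adj u u' (fun v =>
      ∑ v', Mi adj u v' * Mi adj u' v' * φ v v')]
    refine Finset.sum_congr rfl fun v _ => ?_
    rw [Finset.mul_sum]
  rw [e, e2, Fintype.card_fin]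
  norm_num
  field_simp

open Classical in
theorem Kq_le (adj : V → V → Prop) (Φ : V → V → (Fin 3 → V) → ℝ) (B : V → V → ℝ)
    (h0 : ∀ u, 0 ≤ B u u)
    (h : ∀ u u', u ≠ u' →
      (∑ s : Fin 3 → {v // adj u v ∧ adj u' v}, Φ u u' (fun i => (s i).1)) /
      (Fintype.card {v // adj u v ∧ adj u' v} : ℝ) ^ 3 ≤ B u u') :
    Kq adj Φ ≤ (∑ u, ∑ u', B u u') / (Fintype.card V : ℝ) ^ 2 := by
  classical
  unfold Kq
  refine div_le_div_of_nonneg_right (Finset.sum_le_sum fun u _ => Finset.sum_le_sum fun u' _ => ?_)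
    (by positivity)
  split_ifs with huu
  · rw [← huu]
    exact h0 u
  · exact h u u' huu

open Classical in
theorem le_Kq (adj : V → V → Prop) (Φ : V → V → (Fin 3 → V) → ℝ) (B : V → V → ℝ)
    (h0 : ∀ u, B u u ≤ 0)
    (h : ∀ u u', u ≠ u' →
      B u u' ≤ (∑ s : Fin 3 → {v // adj u v ∧ adj u' v}, Φ u u' (fun i => (s i).1)) /
      (Fintype.card {v // adj u v ∧ adj u' v} : ℝ) ^ 3) :
    (∑ u, ∑ u', B u u') / (Fintype.card V : ℝ) ^ 2 ≤ Kq adj Φ := by
  classical
  unfold Kq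
  refine div_le_div_of_nonneg_right (Finset.sum_le_sum fun u _ => Finset.sum_le_sum fun u' _ => ?_)
    (by positivity)
  split_ifs with huu
  · rw [← huu]
    exact h0 u
  · exact h u u' huu

/-- numerical form of quasi-randomness -/
structure QF (adj : V → V → Prop) (p ε m : ℝ) : Prop where
  n0 : (0 : ℝ) < Fintype.card V
  p0 : 0 < p
  ε0 : 0 < ε
  ε1 : ε ≤ 1 / 20
  m0 : 0 < m
  meq : m = Fintype.card V * p ^ 2
  big : 1 ≤ ε * m
  deg : ∀ v, ∑ u, Mi adj u v ≤ (1 + ε) * (Fintype.card V * p)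
  row1 : ∀ u u', u ≠ u' → (1 - ε) * m ≤ cc adj u u'
  row2 : ∀ u u', u ≠ u' → cc adj u u' ≤ (1 + ε) * m
  col1 : ∀ v v', v ≠ v' → (1 - ε) * m ≤ ∑ u, Mi adj u v * Mi adj u v'
  col2 : ∀ v v', v ≠ v' → ∑ u, Mi adj u v * Mi adj u v' ≤ (1 + ε) * m

theorem QR.qf {adj : V → V → Prop} {p ε : ℝ} (h : QR adj p ε) (hε : ε ≤ 1 / 20) :
    QF adj p ε (Fintype.card V * p ^ 2) := by
  classical
  have hbig := h.big
  have hn : (0 : ℝ) < Fintype.card V := by
    rcases Nat.eq_zero_or_pos (Fintype.card V) with h0 | h0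
    · rw [h0] at hbig
      norm_num at hbig
    · exact_mod_cast h0
  have hm : 0 < (Fintype.card V : ℝ) * p ^ 2 := mul_pos hn (pow_pos h.pos 2)
  have hε0 : 0 < ε := by
    by_contra hc
    push Not at hc
    have := mul_nonpos_of_nonpos_of_nonneg hc hm.le
    linarith
  have hcc : ∀ u u', cc adj u u' = ((Finset.univ.filter fun v => adj u v ∧ adj u' v).card : ℝ) := by
    intro u u'
    unfold cc
    rw [Fintype.card_subtype]
  have hcol : ∀ v v', ∑ u, Mi adj u v * Mi adj u v' =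
      ((Finset.univ.filter fun u => adj u v ∧ adj u v').card : ℝ) := by
    intro v v'
    rw [Finset.card_filter]
    push_cast
    refine Finset.sum_congr rfl fun u _ => ?_
    unfold Mi
    by_cases h1 : adj u v <;> by_cases h2 : adj u v' <;> simp [h1, h2]
  refine ⟨hn, h.pos, hε0, hε, hm, rfl, hbig, ?_, ?_, ?_, ?_, ?_⟩
  · intro v
    have h1 := h.deg v
    rw [Finset.card_filter] at h1
    push_cast at h1
    unfold Mi
    convert h1 using 2
  · intro u u' huu
    have h1 := abs_le.mp (h.row u u' huu)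
    rw [hcc]
    have h2 := h1.1
    convert (by linarith : (1 - ε) * (Fintype.card V * p ^ 2) ≤
      ((Finset.univ.filter fun v => adj u v ∧ adj u' v).card : ℝ)) using 1
  · intro u u' huu
    have h1 := abs_le.mp (h.row u u' huu)
    rw [hcc]
    have h2 := h1.2
    linarith
  · intro u u' huu
    have h1 := abs_le.mp (h.col u u' huu)
    rw [hcol]
    have h2 := h1.1
    linarith
  · intro u u' huu
    have h1 := abs_le.mp (h.col u u' huu)
    rw [hcol]
    have h2 := h1.2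
    linarith

variable {adj : V → V → Prop} {p ε m : ℝ}

theorem QF.cc0 (Q : QF adj p ε m) {u u' : V} (h : u ≠ u') : 0 < cc adj u u' := by
  have h1 := Q.row1 u u' h
  have h2 := Q.ε1
  have h3 := Q.m0
  have : 0 < (1 - ε) * m := mul_pos (by linarith) h3
  linarith

theorem QF.edge (Q : QF adj p ε m) (ψ : V → V → ℝ) (i : Fin 3) (hψ : ∀ u v, 0 ≤ ψ u v) :
    Kq adj (fun u _ v => ψ u (v i)) ≤ (1 + 8 * ε) * Ee adj p ψ := by
  classical
  have hn := Q.n0
  have hp := Q.p0
  have hε := Q.ε1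
  have hε0 := Q.ε0
  have hm := Q.m0
  have hd : 0 < (1 - ε) * m := mul_pos (by linarith) hm
  have h1 : Kq adj (fun u _ v => ψ u (v i)) ≤
      (∑ u, ∑ u', (∑ v, Mi adj u v * Mi adj u' v * ψ u v) / ((1 - ε) * m)) /
        (Fintype.card V : ℝ) ^ 2 := by
    refine Kq_le adj _ (fun u u' => (∑ v, Mi adj u v * Mi adj u' v * ψ u v) / ((1 - ε) * m))
      (fun u => ?_) (fun u u' huu => ?_)
    · exact div_nonneg (Finset.sum_nonneg fun v _ => mul_nonneg (mul_nonneg (Mi_nonneg _ _ _)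
        (Mi_nonneg _ _ _)) (hψ _ _)) hd.le
    · have h2 := marg1 adj u u' (Q.cc0 huu).ne' i (fun v => ψ u v)
      have h3 : (∑ v, Mi adj u v * Mi adj u' v * ψ u v) / cc adj u u' ≤
          (∑ v, Mi adj u v * Mi adj u' v * ψ u v) / ((1 - ε) * m) :=
        div_le_div_of_nonneg_left (Finset.sum_nonneg fun v _ => mul_nonneg (mul_nonneg
          (Mi_nonneg _ _ _) (Mi_nonneg _ _ _)) (hψ _ _)) hd (Q.row1 u u' huu)
      exact le_trans (le_of_eq h2) h3
  refine h1.trans ?_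
  obtain ⟨S, hS⟩ : ∃ S, S = ∑ u, ∑ v, if adj u v then ψ u v else 0 := ⟨_, rfl⟩
  have hS0 : 0 ≤ S := by
    rw [hS]
    exact Finset.sum_nonneg fun u _ => Finset.sum_nonneg fun v _ => by
      split_ifs
      · exact hψ _ _
      · exact le_rfl
  have h2 : ∑ u, ∑ u', (∑ v, Mi adj u v * Mi adj u' v * ψ u v) / ((1 - ε) * m) ≤
      ((1 + ε) * (Fintype.card V * p)) * S / ((1 - ε) * m) := by
    simp only [← Finset.sum_div]
    refine div_le_div_of_nonneg_right ?_ hd.le
    rw [hS, Finset.mul_sum]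
    refine Finset.sum_le_sum fun u _ => ?_
    rw [Finset.sum_comm, Finset.mul_sum]
    refine Finset.sum_le_sum fun v _ => ?_
    have e : ∑ u', Mi adj u v * Mi adj u' v * ψ u v =
        (∑ u', Mi adj u' v) * (Mi adj u v * ψ u v) := by
      rw [Finset.sum_mul]
      exact Finset.sum_congr rfl fun u' _ => by ring
    have e2 : Mi adj u v * ψ u v = if adj u v then ψ u v else 0 := by
      unfold Mi
      split_ifs <;> simp
    rw [e, e2]
    refine mul_le_mul_of_nonneg_right (Q.deg v) ?_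
    split_ifs
    · exact hψ _ _
    · exact le_rfl
  refine (div_le_div_of_nonneg_right h2 (by positivity)).trans ?_
  have e3 : Ee adj p ψ = S / ((Fintype.card V : ℝ) ^ 2 * p) := by
    unfold Ee
    rw [hS]
  rw [e3]
  have e4 : (1 + ε) * (Fintype.card V * p) * S / ((1 - ε) * m) / (Fintype.card V : ℝ) ^ 2 =
      ((1 + ε) / (1 - ε)) * (S / ((Fintype.card V : ℝ) ^ 2 * p)) := by
    rw [Q.meq]
    have : (1 - ε) ≠ 0 := by
      have : 0 < 1 - ε := by linarith
      exact this.ne'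
    field_simp
  rw [e4]
  refine mul_le_mul_of_nonneg_right ?_ (by positivity)
  rw [div_le_iff₀ (by linarith)]
  nlinarith

theorem QF.edge' (Q : QF adj p ε m) (ψ : V → V → ℝ) (i : Fin 3) (hψ : ∀ u v, 0 ≤ ψ u v) :
    Kq adj (fun _ u' v => ψ u' (v i)) ≤ (1 + 8 * ε) * Ee adj p ψ := by
  classical
  have hn := Q.n0
  have hp := Q.p0
  have hε := Q.ε1
  have hε0 := Q.ε0
  have hm := Q.m0
  have hd : 0 < (1 - ε) * m := mul_pos (by linarith) hm
  have h1 : Kq adj (fun _ u' v => ψ u' (v i)) ≤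
      (∑ u, ∑ u', (∑ v, Mi adj u v * Mi adj u' v * ψ u' v) / ((1 - ε) * m)) /
        (Fintype.card V : ℝ) ^ 2 := by
    refine Kq_le adj _ (fun u u' => (∑ v, Mi adj u v * Mi adj u' v * ψ u' v) / ((1 - ε) * m))
      (fun u => ?_) (fun u u' huu => ?_)
    · exact div_nonneg (Finset.sum_nonneg fun v _ => mul_nonneg (mul_nonneg (Mi_nonneg _ _ _)
        (Mi_nonneg _ _ _)) (hψ _ _)) hd.le
    · have h2 := marg1 adj u u' (Q.cc0 huu).ne' i (fun v => ψ u' v)
      have h3 : (∑ v, Mi adj u v * Mi adj u' v * ψ u' v) / cc adj u u' ≤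
          (∑ v, Mi adj u v * Mi adj u' v * ψ u' v) / ((1 - ε) * m) :=
        div_le_div_of_nonneg_left (Finset.sum_nonneg fun v _ => mul_nonneg (mul_nonneg
          (Mi_nonneg _ _ _) (Mi_nonneg _ _ _)) (hψ _ _)) hd (Q.row1 u u' huu)
      exact le_trans (le_of_eq h2) h3
  refine h1.trans ?_
  obtain ⟨S, hS⟩ : ∃ S, S = ∑ u, ∑ v, if adj u v then ψ u v else 0 := ⟨_, rfl⟩
  have hS0 : 0 ≤ S := by
    rw [hS]
    exact Finset.sum_nonneg fun u _ => Finset.sum_nonneg fun v _ => by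
      split_ifs
      · exact hψ _ _
      · exact le_rfl
  have h2 : ∑ u, ∑ u', (∑ v, Mi adj u v * Mi adj u' v * ψ u' v) / ((1 - ε) * m) ≤
      ((1 + ε) * (Fintype.card V * p)) * S / ((1 - ε) * m) := by
    simp only [← Finset.sum_div]
    refine div_le_div_of_nonneg_right ?_ hd.le
    rw [hS, Finset.mul_sum, Finset.sum_comm]
    refine Finset.sum_le_sum fun u _ => ?_
    rw [Finset.sum_comm, Finset.mul_sum]
    refine Finset.sum_le_sum fun v _ => ?_
    have e : ∑ u', Mi adj u' v * Mi adj u v * ψ u v =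
        (∑ u', Mi adj u' v) * (Mi adj u v * ψ u v) := by
      rw [Finset.sum_mul]
      exact Finset.sum_congr rfl fun u' _ => by ring
    have e2 : Mi adj u v * ψ u v = if adj u v then ψ u v else 0 := by
      unfold Mi
      split_ifs <;> simp
    rw [e, e2]
    refine mul_le_mul_of_nonneg_right (Q.deg v) ?_
    split_ifs
    · exact hψ _ _
    · exact le_rfl
  refine (div_le_div_of_nonneg_right h2 (by positivity)).trans ?_
  have e3 : Ee adj p ψ = S / ((Fintype.card V : ℝ) ^ 2 * p) := by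
    unfold Ee
    rw [hS]
  rw [e3]
  have e4 : (1 + ε) * (Fintype.card V * p) * S / ((1 - ε) * m) / (Fintype.card V : ℝ) ^ 2 =
      ((1 + ε) / (1 - ε)) * (S / ((Fintype.card V : ℝ) ^ 2 * p)) := by
    rw [Q.meq]
    have : (1 - ε) ≠ 0 := by
      have : 0 < 1 - ε := by linarith
      exact this.ne'
    field_simp
  rw [e4]
  refine mul_le_mul_of_nonneg_right ?_ (by positivity)
  rw [div_le_iff₀ (by linarith)]
  nlinarith

/-- rearranging the fourfold sum -/
theorem four_sum (adj : V → V → Prop) (φ : V → V → ℝ) :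
    ∑ u, ∑ u', (∑ v, ∑ v', Mi adj u v * Mi adj u' v * (Mi adj u v' * Mi adj u' v' * φ v v')) =
      ∑ v, ∑ v', (∑ u, Mi adj u v * Mi adj u v') ^ 2 * φ v v' := by
  have h1 : ∀ u, ∑ u', ∑ v, ∑ v', Mi adj u v * Mi adj u' v *
      (Mi adj u v' * Mi adj u' v' * φ v v') =
      ∑ v, ∑ v', ∑ u', Mi adj u v * Mi adj u' v * (Mi adj u v' * Mi adj u' v' * φ v v') := by
    intro u
    rw [Finset.sum_comm]
    exact Finset.sum_congr rfl fun v _ => Finset.sum_comm
  rw [Finset.sum_congr rfl fun u _ => h1 u, Finset.sum_comm]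
  refine Finset.sum_congr rfl fun v _ => ?_
  rw [Finset.sum_comm]
  refine Finset.sum_congr rfl fun v' _ => ?_
  rw [sq, Finset.sum_mul_sum, Finset.sum_mul]
  refine Finset.sum_congr rfl fun u _ => ?_
  rw [Finset.sum_mul]
  exact Finset.sum_congr rfl fun u' _ => by ring

theorem Mi_prod_nonneg (adj : V → V → Prop) (φ : V → V → ℝ) (hφ : ∀ a b, 0 ≤ φ a b) (u u' : V) :
    0 ≤ ∑ v, ∑ v', Mi adj u v * Mi adj u' v * (Mi adj u v' * Mi adj u' v' * φ v v') :=
  Finset.sum_nonneg fun v _ => Finset.sum_nonneg fun v' _ =>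
    mul_nonneg (mul_nonneg (Mi_nonneg _ _ _) (Mi_nonneg _ _ _))
      (mul_nonneg (mul_nonneg (Mi_nonneg _ _ _) (Mi_nonneg _ _ _)) (hφ _ _))

theorem QF.vv_le (Q : QF adj p ε m) (φ : V → V → ℝ) (i j : Fin 3) (hij : i ≠ j)
    (hφ : ∀ a b, 0 ≤ φ a b) (hφ0 : ∀ a, φ a a = 0) :
    Kq adj (fun _ _ v => φ (v i) (v j)) ≤ (1 + 8 * ε) * E2 φ := by
  classical
  have hn := Q.n0
  have hε := Q.ε1
  have hε0 := Q.ε0
  have hm := Q.m0
  have hd : 0 < (1 - ε) * m := mul_pos (by linarith) hm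
  have h1 : Kq adj (fun _ _ v => φ (v i) (v j)) ≤
      (∑ u, ∑ u', (∑ v, ∑ v', Mi adj u v * Mi adj u' v *
        (Mi adj u v' * Mi adj u' v' * φ v v')) / ((1 - ε) * m) ^ 2) /
        (Fintype.card V : ℝ) ^ 2 := by
    refine Kq_le adj _ (fun u u' => (∑ v, ∑ v', Mi adj u v * Mi adj u' v *
        (Mi adj u v' * Mi adj u' v' * φ v v')) / ((1 - ε) * m) ^ 2)
      (fun u => ?_) (fun u u' huu => ?_)
    · exact div_nonneg (Mi_prod_nonneg adj φ hφ u u) (by positivity)
    · have h2 := marg2 adj u u' (Q.cc0 huu).ne' i j hij φ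
      have h3 : (∑ v, ∑ v', Mi adj u v * Mi adj u' v *
        (Mi adj u v' * Mi adj u' v' * φ v v')) / cc adj u u' ^ 2 ≤
          (∑ v, ∑ v', Mi adj u v * Mi adj u' v *
        (Mi adj u v' * Mi adj u' v' * φ v v')) / ((1 - ε) * m) ^ 2 :=
        div_le_div_of_nonneg_left (Mi_prod_nonneg adj φ hφ u u') (by positivity)
          (pow_le_pow_left₀ hd.le (Q.row1 u u' huu) 2)
      exact le_trans (le_of_eq h2) h3
  refine h1.trans ?_
  have h2 : ∑ u, ∑ u', (∑ v, ∑ v', Mi adj u v * Mi adj u' v *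
        (Mi adj u v' * Mi adj u' v' * φ v v')) / ((1 - ε) * m) ^ 2 ≤
      ((1 + ε) * m) ^ 2 * (∑ a, ∑ b, φ a b) / ((1 - ε) * m) ^ 2 := by
    simp only [← Finset.sum_div]
    refine div_le_div_of_nonneg_right ?_ (by positivity)
    rw [four_sum, Finset.mul_sum]
    refine Finset.sum_le_sum fun v _ => ?_
    rw [Finset.mul_sum]
    refine Finset.sum_le_sum fun v' _ => ?_
    by_cases hvv : v = v'
    · rw [← hvv, hφ0]
      simp
    · refine mul_le_mul_of_nonneg_right (pow_le_pow_left₀ ?_ (Q.col2 v v' hvv) 2) (hφ _ _)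
      exact Finset.sum_nonneg fun u _ => mul_nonneg (Mi_nonneg _ _ _) (Mi_nonneg _ _ _)
  refine (div_le_div_of_nonneg_right h2 (by positivity)).trans ?_
  have e4 : ((1 + ε) * m) ^ 2 * (∑ a, ∑ b, φ a b) / ((1 - ε) * m) ^ 2 /
      (Fintype.card V : ℝ) ^ 2 = ((1 + ε) ^ 2 / (1 - ε) ^ 2) * E2 φ := by
    unfold E2
    have : (1 - ε) ≠ 0 := by
      have : 0 < 1 - ε := by linarith
      exact this.ne'
    field_simp
  rw [e4]
  refine mul_le_mul_of_nonneg_right ?_ (E2_nonneg hφ)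
  rw [div_le_iff₀ (by have : 0 < 1 - ε := by linarith
                      positivity)]
  nlinarith [mul_pos hε0 hε0, mul_pos (mul_pos hε0 hε0) hε0]

theorem QF.vv_ge (Q : QF adj p ε m) (φ : V → V → ℝ) (i j : Fin 3) (hij : i ≠ j)
    (hφ : ∀ a b, 0 ≤ φ a b) (hφ0 : ∀ a, φ a a = 0) :
    E2 φ ≤ (1 + 8 * ε) * Kq adj (fun _ _ v => φ (v i) (v j)) := by
  classical
  have hn := Q.n0
  have hε := Q.ε1
  have hε0 := Q.ε0
  have hm := Q.m0
  have hd : 0 < (1 + ε) * m := mul_pos (by linarith) hm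
  have h1 : (∑ u, ∑ u', (if u = u' then 0 else (∑ v, ∑ v', Mi adj u v * Mi adj u' v *
        (Mi adj u v' * Mi adj u' v' * φ v v')) / ((1 + ε) * m) ^ 2)) /
        (Fintype.card V : ℝ) ^ 2 ≤ Kq adj (fun _ _ v => φ (v i) (v j)) := by
    refine le_Kq adj _ (fun u u' => if u = u' then 0 else (∑ v, ∑ v', Mi adj u v * Mi adj u' v *
        (Mi adj u v' * Mi adj u' v' * φ v v')) / ((1 + ε) * m) ^ 2)
      (fun u => by simp) (fun u u' huu => ?_)
    have h2 := marg2 adj u u' (Q.cc0 huu).ne' i j hij φ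
    have h3 : (∑ v, ∑ v', Mi adj u v * Mi adj u' v *
        (Mi adj u v' * Mi adj u' v' * φ v v')) / ((1 + ε) * m) ^ 2 ≤
        (∑ v, ∑ v', Mi adj u v * Mi adj u' v *
        (Mi adj u v' * Mi adj u' v' * φ v v')) / cc adj u u' ^ 2 :=
      div_le_div_of_nonneg_left (Mi_prod_nonneg adj φ hφ u u') (pow_pos (Q.cc0 huu) 2)
        (pow_le_pow_left₀ (Q.cc0 huu).le (Q.row2 u u' huu) 2)
    rw [if_neg huu]
    exact le_trans h3 (le_of_eq h2.symm)
  have h2 : ((1 - ε) * m * ((1 - 2 * ε) * m)) * (∑ a, ∑ b, φ a b) / ((1 + ε) * m) ^ 2 ≤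
      ∑ u, ∑ u', (if u = u' then 0 else (∑ v, ∑ v', Mi adj u v * Mi adj u' v *
        (Mi adj u v' * Mi adj u' v' * φ v v')) / ((1 + ε) * m) ^ 2) := by
    have e1 : ∀ u u' : V, (if u = u' then (0 : ℝ) else (∑ v, ∑ v', Mi adj u v * Mi adj u' v *
        (Mi adj u v' * Mi adj u' v' * φ v v')) / ((1 + ε) * m) ^ 2) =
        (∑ v, ∑ v', Mi adj u v * Mi adj u' v *
        (Mi adj u v' * Mi adj u' v' * φ v v')) / ((1 + ε) * m) ^ 2 -
        if u = u' then (∑ v, ∑ v', Mi adj u v * Mi adj u v *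
        (Mi adj u v' * Mi adj u v' * φ v v')) / ((1 + ε) * m) ^ 2 else 0 := by
      intro u u'
      by_cases h : u = u'
      · rw [if_pos h, if_pos h, ← h, sub_self]
      · rw [if_neg h, if_neg h, sub_zero]
    rw [Finset.sum_congr rfl fun u _ => Finset.sum_congr rfl fun u' _ => e1 u u']
    simp only [Finset.sum_sub_distrib, Finset.sum_ite_eq, Finset.mem_univ, if_true]
    simp only [← Finset.sum_div]
    rw [← sub_div]
    refine div_le_div_of_nonneg_right ?_ (by positivity)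
    rw [four_sum]
    have e2 : ∑ u, ∑ v, ∑ v', Mi adj u v * Mi adj u v * (Mi adj u v' * Mi adj u v' * φ v v') =
        ∑ v, ∑ v', (∑ u, Mi adj u v * Mi adj u v') * φ v v' := by
      rw [Finset.sum_comm]
      refine Finset.sum_congr rfl fun v _ => ?_
      rw [Finset.sum_comm]
      refine Finset.sum_congr rfl fun v' _ => ?_
      rw [Finset.sum_mul]
      refine Finset.sum_congr rfl fun u _ => ?_
      rw [Mi_sq, Mi_sq]
      ring
    rw [e2, ← Finset.sum_sub_distrib, Finset.mul_sum]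
    refine Finset.sum_le_sum fun v _ => ?_
    rw [← Finset.sum_sub_distrib, Finset.mul_sum]
    refine Finset.sum_le_sum fun v' _ => ?_
    by_cases hvv : v = v'
    · rw [← hvv, hφ0]
      simp
    · rw [← sub_mul]
      refine mul_le_mul_of_nonneg_right ?_ (hφ _ _)
      have h3 := Q.col1 v v' hvv
      obtain ⟨x, hx⟩ : ∃ x, x = ∑ u, Mi adj u v * Mi adj u v' := ⟨_, rfl⟩
      rw [← hx] at h3 ⊢
      have hb := Q.big
      have h4 : (1 - 2 * ε) * m ≤ x - 1 := by linarith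
      have h5 : 0 ≤ (1 - 2 * ε) * m := mul_nonneg (by linarith) hm.le
      have h6 : 0 ≤ (1 - ε) * m := mul_nonneg (by linarith) hm.le
      have h7 := mul_le_mul h3 h4 h5 (h6.trans h3)
      nlinarith
  have h3 := (div_le_div_of_nonneg_right h2 (by positivity :
    (0 : ℝ) ≤ (Fintype.card V : ℝ) ^ 2)).trans h1
  have e4 : ((1 - ε) * m * ((1 - 2 * ε) * m)) * (∑ a, ∑ b, φ a b) / ((1 + ε) * m) ^ 2 /
      (Fintype.card V : ℝ) ^ 2 = ((1 - ε) * (1 - 2 * ε) / (1 + ε) ^ 2) * E2 φ := by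
    unfold E2
    have : (1 + ε) ≠ 0 := by
      have : 0 < 1 + ε := by linarith
      exact this.ne'
    field_simp
  rw [e4] at h3
  have hE := E2_nonneg hφ
  have h4 : 1 ≤ (1 + 8 * ε) * ((1 - ε) * (1 - 2 * ε) / (1 + ε) ^ 2) := by
    rw [← mul_div_assoc, le_div_iff₀ (by positivity)]
    nlinarith [mul_pos hε0 hε0, mul_pos (mul_pos hε0 hε0) hε0]
  calc E2 φ = 1 * E2 φ := (one_mul _).symm
    _ ≤ (1 + 8 * ε) * ((1 - ε) * (1 - 2 * ε) / (1 + ε) ^ 2) * E2 φ :=
        mul_le_mul_of_nonneg_right h4 hE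
    _ = (1 + 8 * ε) * (((1 - ε) * (1 - 2 * ε) / (1 + ε) ^ 2) * E2 φ) := by ring
    _ ≤ _ := mul_le_mul_of_nonneg_left h3 (by linarith)

/-- rearranging the triple sum -/
theorem three_sum (adj : V → V → Prop) (φ : V → ℝ) :
    ∑ u, ∑ u', (∑ v, Mi adj u v * Mi adj u' v * φ v) = ∑ v, (∑ u, Mi adj u v) ^ 2 * φ v := by
  have h1 : ∀ u, ∑ u', ∑ v, Mi adj u v * Mi adj u' v * φ v =
      ∑ v, ∑ u', Mi adj u v * Mi adj u' v * φ v := fun u => Finset.sum_comm
  rw [Finset.sum_congr rfl fun u _ => h1 u, Finset.sum_comm]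
  refine Finset.sum_congr rfl fun v _ => ?_
  rw [sq, Finset.sum_mul_sum, Finset.sum_mul]
  refine Finset.sum_congr rfl fun u _ => ?_
  rw [Finset.sum_mul]

theorem QF.three_le (Q : QF adj p ε m) (φ : V → ℝ) (hφ : ∀ a, 0 ≤ φ a) :
    ∑ u, ∑ u', (∑ v, Mi adj u v * Mi adj u' v * φ v) ≤
      ((1 + ε) * (Fintype.card V * p)) ^ 2 * ∑ v, φ v := by
  rw [three_sum, Finset.mul_sum]
  refine Finset.sum_le_sum fun v _ => mul_le_mul_of_nonneg_right
    (pow_le_pow_left₀ (Finset.sum_nonneg fun u _ => Mi_nonneg _ _ _) (Q.deg v) 2) (hφ v)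

theorem QF.v1 (Q : QF adj p ε m) (φ : V → ℝ) (i : Fin 3) (hφ : ∀ a, 0 ≤ φ a) :
    Kq adj (fun _ _ v => φ (v i)) ≤ (1 + 8 * ε) * E1 φ := by
  classical
  have hn := Q.n0
  have hp := Q.p0
  have hε := Q.ε1
  have hε0 := Q.ε0
  have hm := Q.m0
  have hd : 0 < (1 - ε) * m := mul_pos (by linarith) hm
  have h1 : Kq adj (fun _ _ v => φ (v i)) ≤
      (∑ u, ∑ u', (∑ v, Mi adj u v * Mi adj u' v * φ v) / ((1 - ε) * m)) /
        (Fintype.card V : ℝ) ^ 2 := by
    refine Kq_le adj _ (fun u u' => (∑ v, Mi adj u v * Mi adj u' v * φ v) / ((1 - ε) * m))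
      (fun u => ?_) (fun u u' huu => ?_)
    · exact div_nonneg (Finset.sum_nonneg fun v _ => mul_nonneg (mul_nonneg (Mi_nonneg _ _ _)
        (Mi_nonneg _ _ _)) (hφ _)) hd.le
    · have h2 := marg1 adj u u' (Q.cc0 huu).ne' i φ
      have h3 : (∑ v, Mi adj u v * Mi adj u' v * φ v) / cc adj u u' ≤
          (∑ v, Mi adj u v * Mi adj u' v * φ v) / ((1 - ε) * m) :=
        div_le_div_of_nonneg_left (Finset.sum_nonneg fun v _ => mul_nonneg (mul_nonneg
          (Mi_nonneg _ _ _) (Mi_nonneg _ _ _)) (hφ _)) hd (Q.row1 u u' huu)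
      exact le_trans (le_of_eq h2) h3
  refine h1.trans ?_
  simp only [← Finset.sum_div]
  have h2 := div_le_div_of_nonneg_right (div_le_div_of_nonneg_right (Q.three_le φ hφ) hd.le)
    (by positivity : (0 : ℝ) ≤ (Fintype.card V : ℝ) ^ 2)
  refine h2.trans ?_
  have e4 : ((1 + ε) * (Fintype.card V * p)) ^ 2 * (∑ v, φ v) / ((1 - ε) * m) /
      (Fintype.card V : ℝ) ^ 2 = ((1 + ε) ^ 2 / (1 - ε)) * E1 φ := by
    unfold E1
    rw [Q.meq]
    have : (1 - ε) ≠ 0 := by
      have : 0 < 1 - ε := by linarith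
      exact this.ne'
    field_simp
  rw [e4]
  refine mul_le_mul_of_nonneg_right ?_ (E1_nonneg hφ)
  rw [div_le_iff₀ (by linarith)]
  nlinarith

theorem QF.diag (Q : QF adj p ε m) (φ : V → ℝ) (i j : Fin 3) (hij : i ≠ j) (hφ : ∀ a, 0 ≤ φ a)
    [DecidableEq V] :
    Kq adj (fun _ _ v => if v i = v j then φ (v i) else 0) ≤ 2 * ε * E1 φ := by
  classical
  have hn := Q.n0
  have hp := Q.p0
  have hε := Q.ε1
  have hε0 := Q.ε0
  have hm := Q.m0
  have hd : 0 < (1 - ε) * m := mul_pos (by linarith) hm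
  have h1 : Kq adj (fun _ _ v => if v i = v j then φ (v i) else 0) ≤
      (∑ u, ∑ u', (∑ v, Mi adj u v * Mi adj u' v * φ v) / ((1 - ε) * m) ^ 2) /
        (Fintype.card V : ℝ) ^ 2 := by
    refine Kq_le adj _ (fun u u' => (∑ v, Mi adj u v * Mi adj u' v * φ v) / ((1 - ε) * m) ^ 2)
      (fun u => ?_) (fun u u' huu => ?_)
    · exact div_nonneg (Finset.sum_nonneg fun v _ => mul_nonneg (mul_nonneg (Mi_nonneg _ _ _)
        (Mi_nonneg _ _ _)) (hφ _)) (by positivity)
    · have h2 := marg2 adj u u' (Q.cc0 huu).ne' i j hij (fun v v' => if v = v' then φ v else 0)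
      have e : ∑ v, ∑ v', Mi adj u v * Mi adj u' v *
          (Mi adj u v' * Mi adj u' v' * (if v = v' then φ v else 0)) =
          ∑ v, Mi adj u v * Mi adj u' v * φ v := by
        refine Finset.sum_congr rfl fun v _ => ?_
        simp only [mul_ite, mul_zero, Finset.sum_ite_eq, Finset.mem_univ, if_true]
        have h3 := Mi_sq adj u v
        have h4 := Mi_sq adj u' v
        calc Mi adj u v * Mi adj u' v * (Mi adj u v * Mi adj u' v * φ v) =
            (Mi adj u v * Mi adj u v) * (Mi adj u' v * Mi adj u' v) * φ v := by ring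
          _ = _ := by rw [h3, h4]
      rw [e] at h2
      have h3 : (∑ v, Mi adj u v * Mi adj u' v * φ v) / cc adj u u' ^ 2 ≤
          (∑ v, Mi adj u v * Mi adj u' v * φ v) / ((1 - ε) * m) ^ 2 :=
        div_le_div_of_nonneg_left (Finset.sum_nonneg fun v _ => mul_nonneg (mul_nonneg
          (Mi_nonneg _ _ _) (Mi_nonneg _ _ _)) (hφ _)) (by positivity)
          (pow_le_pow_left₀ hd.le (Q.row1 u u' huu) 2)
      exact le_trans (le_of_eq h2) h3
  refine h1.trans ?_
  simp only [← Finset.sum_div]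
  have h2 := div_le_div_of_nonneg_right (div_le_div_of_nonneg_right (Q.three_le φ hφ)
    (by positivity : (0 : ℝ) ≤ ((1 - ε) * m) ^ 2))
    (by positivity : (0 : ℝ) ≤ (Fintype.card V : ℝ) ^ 2)
  refine h2.trans ?_
  have e4 : ((1 + ε) * (Fintype.card V * p)) ^ 2 * (∑ v, φ v) / ((1 - ε) * m) ^ 2 /
      (Fintype.card V : ℝ) ^ 2 = ((1 + ε) ^ 2 / (1 - ε) ^ 2 * (1 / m)) * E1 φ := by
    unfold E1
    rw [Q.meq]
    have : (1 - ε) ≠ 0 := by
      have : 0 < 1 - ε := by linarith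
      exact this.ne'
    field_simp
  rw [e4]
  refine mul_le_mul_of_nonneg_right ?_ (E1_nonneg hφ)
  have h3 : 1 / m ≤ ε := by
    rw [div_le_iff₀ hm]
    exact Q.big
  have h4 : (1 + ε) ^ 2 / (1 - ε) ^ 2 ≤ 2 := by
    rw [div_le_iff₀ (by have : 0 < 1 - ε := by linarith
                        positivity)]
    nlinarith
  exact mul_le_mul h4 h3 (by positivity) (by norm_num)

/-- the average is a `KS` -/
theorem QF.ks (Q : QF adj p ε m) : KS adj p (1 + 8 * ε) (2 * ε) (Kq adj) := by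
  classical
  have hn := Q.n0
  refine ⟨?_, ?_, ?_, ?_, ?_, Q.edge, Q.edge', Q.vv_le, Q.vv_ge, Q.v1, ?_⟩
  · intro Φ Ψ h
    unfold Kq
    refine div_le_div_of_nonneg_right (Finset.sum_le_sum fun u _ => Finset.sum_le_sum
      fun u' _ => ?_) (by positivity)
    split_ifs
    · exact le_rfl
    · exact div_le_div_of_nonneg_right (Finset.sum_le_sum fun s _ => h _ _ _) (by positivity)
  · intro Φ Ψ
    unfold Kq
    rw [← add_div, ← Finset.sum_add_distrib]
    congr 1
    refine Finset.sum_congr rfl fun u _ => ?_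
    rw [← Finset.sum_add_distrib]
    refine Finset.sum_congr rfl fun u' _ => ?_
    split_ifs
    · simp
    · rw [Finset.sum_add_distrib, add_div]
  · intro c Φ
    unfold Kq
    rw [← mul_div_assoc, Finset.mul_sum]
    congr 1
    refine Finset.sum_congr rfl fun u _ => ?_
    rw [Finset.mul_sum]
    refine Finset.sum_congr rfl fun u' _ => ?_
    split_ifs
    · simp
    · rw [← Finset.mul_sum, mul_div_assoc]
  · refine (Kq_le adj _ (fun _ _ => 1) (fun _ => zero_le_one) (fun u u' huu => ?_)).trans ?_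
    · rw [Finset.sum_const, Finset.card_univ, Fintype.card_fun, Fintype.card_fin, nsmul_eq_mul]
      push_cast
      rw [mul_one]
      exact div_self_le_one _
    · simp only [Finset.sum_const, Finset.card_univ, nsmul_eq_mul, mul_one]
      rw [← sq]
      exact div_self_le_one _
  · intro φ hφ
    unfold Kq E2
    congr 1
    refine Finset.sum_congr rfl fun u _ => Finset.sum_congr rfl fun u' _ => ?_
    split_ifs with huu
    · rw [← huu, hφ]
    · have h1 : (Fintype.card {v // adj u v ∧ adj u' v} : ℝ) ≠ 0 := (Q.cc0 huu).ne'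
      rw [Finset.sum_const, Finset.card_univ, Fintype.card_fun, Fintype.card_fin, nsmul_eq_mul]
      push_cast
      field_simp
  · intro φ i j hij hφ
    have h := Q.diag φ i j hij hφ
    convert h using 1

end

end Vale.Agent.P172
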