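import Vale.Agent.P172.Bas

/-!
# P172, DIM-B, B6: sample variances and the Jung inequality (helper218)
-/

namespace Vale.Agent.P172

universe u

open Set Finset

/-- existence of barycentres -/
def HasBar (X : Type u) [MetricSpace X] : Prop :=
  ∀ (ι : Type) [Fintype ι] (w : ι → ℝ) (f : ι → X), (∀ i, 0 ≤ w i) → ∑ i, w i = 1 →
    ∃ b, IsBar w f b

section

variable {X : Type u} [MetricSpace X]

/-- real inequality: leave one out -/
theorem leave_real {J a g D : ℝ} (hJ : 1 < J) (ha : 0 ≤ a) (hg : 0 ≤ g) (hD : 0 ≤ D)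
    (h1 : a ^ 2 + (2 * J - 1) * g ^ 2 ≤ D ^ 2) (h2 : D ≤ a + g) :
    ((J - 1) / J) ^ 2 * D ^ 2 ≤ a ^ 2 := by
  have h3 : (J - 1) * g ≤ a := by
    rcases hg.eq_or_lt with h | h
    · rw [← h]; simpa using ha
    · have h4 : D ^ 2 ≤ (a + g) ^ 2 := pow_le_pow_left₀ hD h2 2
      have h5 : g * ((J - 1) * g) ≤ g * a := by nlinarith
      exact le_of_mul_le_mul_left h5 h
  have h6 : (J - 1) * D ≤ J * a := by
    have : (J - 1) * D ≤ (J - 1) * (a + g) := mul_le_mul_of_nonneg_left h2 (by linarith)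
    nlinarith
  have h7 : (J - 1) / J * D ≤ a := by
    rw [div_mul_eq_mul_div, div_le_iff₀ (by linarith)]
    linarith
  have h8 : 0 ≤ (J - 1) / J * D := mul_nonneg (div_nonneg (by linarith) (by linarith)) hD
  calc ((J - 1) / J) ^ 2 * D ^ 2 = ((J - 1) / J * D) ^ 2 := by ring
    _ ≤ a ^ 2 := pow_le_pow_left₀ h8 h7 2

/-- leave one out: `B` is the barycentre of all `J` points, `b` of the points `≠ i` -/
theorem leave_one {J : ℕ} (hJ : 2 ≤ J) (x : Fin J → X) (i : Fin J) {B b : X}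
    (hB : IsBar (fun _ : Fin J => (1 : ℝ) / J) x B)
    (hb : IsBar (fun _ : {j : Fin J // j ≠ i} => (1 : ℝ) / (J - 1)) (fun j => x j.1) b) :
    (((J : ℝ) - 1) / J) ^ 2 * dist (x i) b ^ 2 ≤ dist (x i) B ^ 2 := by
  have hJ1 : (1 : ℝ) < J := by
    have : (2 : ℝ) ≤ J := by exact_mod_cast hJ
    linarith
  have hJ0 : (0 : ℝ) < J := by linarith
  have hJm : (0 : ℝ) < (J : ℝ) - 1 := by linarith
  have split : ∀ y : X, ∑ j, dist (x j) y ^ 2 =
      dist (x i) y ^ 2 + ∑ j : {j : Fin J // j ≠ i}, dist (x j.1) y ^ 2 := by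
    intro y
    rw [← Finset.add_sum_erase Finset.univ _ (Finset.mem_univ i)]
    congr 1
    rw [← Finset.sum_subtype_of_mem (p := fun j => j ≠ i) (f := fun j => dist (x j) y ^ 2)
      (s := Finset.univ.erase i)]
    · refine Finset.sum_congr ?_ fun _ _ => rfl
      ext j
      simp [j.2]
    · intro j hj
      exact Finset.ne_of_mem_erase hj
  have h1 : ∀ y, ∑ j, dist (x j) B ^ 2 + J * dist B y ^ 2 ≤ ∑ j, dist (x j) y ^ 2 := by
    intro y
    have h := hB y
    unfold wv at h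
    rw [← Finset.mul_sum, ← Finset.mul_sum] at h
    have h2 := mul_le_mul_of_nonneg_left h hJ0.le
    have e1 : (J : ℝ) * (1 / J * ∑ j, dist (x j) B ^ 2 + dist B y ^ 2) =
        ∑ j, dist (x j) B ^ 2 + J * dist B y ^ 2 := by
      field_simp
    have e2 : (J : ℝ) * (1 / J * ∑ j, dist (x j) y ^ 2) = ∑ j, dist (x j) y ^ 2 := by
      field_simp
    rwa [e1, e2] at h2
  have h2 : ∀ y, ∑ j : {j : Fin J // j ≠ i}, dist (x j.1) b ^ 2 + (J - 1) * dist b y ^ 2 ≤
      ∑ j : {j : Fin J // j ≠ i}, dist (x j.1) y ^ 2 := by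
    intro y
    have h := hb y
    unfold wv at h
    rw [← Finset.mul_sum, ← Finset.mul_sum] at h
    have h2 := mul_le_mul_of_nonneg_left h hJm.le
    have e1 : ((J : ℝ) - 1) * (1 / (J - 1) * ∑ j : {j : Fin J // j ≠ i}, dist (x j.1) b ^ 2 +
        dist b y ^ 2) = ∑ j : {j : Fin J // j ≠ i}, dist (x j.1) b ^ 2 +
          (J - 1) * dist b y ^ 2 := by
      field_simp
    have e2 : ((J : ℝ) - 1) * (1 / (J - 1) * ∑ j : {j : Fin J // j ≠ i}, dist (x j.1) y ^ 2) =
        ∑ j : {j : Fin J // j ≠ i}, dist (x j.1) y ^ 2 := by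
      field_simp
    rwa [e1, e2] at h2
  have h3 := h1 b
  have h4 := h2 B
  rw [split B, split b] at h3
  rw [dist_comm b B] at h4
  refine leave_real hJ1 dist_nonneg (dist_nonneg (x := B) (y := b)) dist_nonneg ?_
    (dist_triangle _ _ _)
  linarith

variable {V : Type} [Fintype V] [Nonempty V]

/-- **B6** expected sample variance -/
theorem sample_var (hbar : HasBar X) {J : ℕ} (hJ : 2 ≤ J) (f : V → X) (B : (Fin J → V) → X)
    (hB : ∀ s, IsBar (fun _ : Fin J => (1 : ℝ) / J) (fun j => f (s j)) (B s)) {r : ℝ}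
    (hr : ∀ x, r ≤ (∑ v, dist (f v) x ^ 2) / Fintype.card V) (i : Fin J) :
    (((J : ℝ) - 1) / J) ^ 2 * r * (Fintype.card V : ℝ) ^ J ≤
      ∑ s : Fin J → V, dist (f (s i)) (B s) ^ 2 := by
  classical
  have hJ1 : (1 : ℝ) < J := by
    have : (2 : ℝ) ≤ J := by exact_mod_cast hJ
    linarith
  have hJm : (0 : ℝ) < (J : ℝ) - 1 := by linarith
  have hcard : Fintype.card {j : Fin J // j ≠ i} = J - 1 := by
    rw [Fintype.card_subtype_compl, Fintype.card_fin]
    simp
  have hcastJ : ((J - 1 : ℕ) : ℝ) = (J : ℝ) - 1 := by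
    rw [Nat.cast_sub (by omega)]
    simp
  have hex : ∀ g : {j : Fin J // j ≠ i} → V, ∃ b,
      IsBar (fun _ : {j : Fin J // j ≠ i} => (1 : ℝ) / (J - 1)) (fun j => f (g j)) b := by
    intro g
    refine hbar _ _ _ (fun _ => by positivity) ?_
    rw [Finset.sum_const, Finset.card_univ, hcard, nsmul_eq_mul, hcastJ]
    field_simp
  choose β hβ using hex
  have hV : (0 : ℝ) < Fintype.card V := by exact_mod_cast Fintype.card_pos
  have h1 : ∑ s : Fin J → V, dist (f (s i)) (B s) ^ 2 ≥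
      ∑ s : Fin J → V, (((J : ℝ) - 1) / J) ^ 2 * dist (f (s i)) (β fun j => s j.1) ^ 2 := by
    refine Finset.sum_le_sum fun s _ => ?_
    exact leave_one hJ (fun j => f (s j)) i (hB s) (hβ fun j => s j.1)
  refine le_trans ?_ h1
  rw [← Finset.mul_sum, mul_assoc]
  refine mul_le_mul_of_nonneg_left ?_ (sq_nonneg _)
  rw [← (Equiv.funSplitAt i V).symm.sum_comp, Fintype.sum_prod_type, Finset.sum_comm]
  have h2 : ∀ g : {j : Fin J // j ≠ i} → V, r * Fintype.card V ≤
      ∑ a : V, dist (f (((Equiv.funSplitAt i V).symm (a, g)) i))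
        (β fun j => ((Equiv.funSplitAt i V).symm (a, g)) j.1) ^ 2 := by
    intro g
    have e1 : ∀ a : V, ((Equiv.funSplitAt i V).symm (a, g)) i = a := by
      intro a
      simp [Equiv.funSplitAt, Equiv.piSplitAt]
    have e2 : ∀ a : V, (fun j : {j : Fin J // j ≠ i} =>
        ((Equiv.funSplitAt i V).symm (a, g)) j.1) = g := by
      intro a
      funext j
      simp [Equiv.funSplitAt, Equiv.piSplitAt, j.2]
    have h3 := hr (β g)
    rw [le_div_iff₀ hV] at h3
    refine h3.trans (le_of_eq ?_)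
    refine Finset.sum_congr rfl fun a _ => ?_
    rw [e1 a, e2 a]
  have h3 := Finset.sum_le_sum fun g (_ : g ∈ (Finset.univ : Finset ({j : Fin J // j ≠ i} → V))) =>
    h2 g
  refine le_trans (le_of_eq ?_) h3
  rw [Finset.sum_const, Finset.card_univ, Fintype.card_fun, hcard, nsmul_eq_mul]
  push_cast
  obtain ⟨k, rfl⟩ : ∃ k, J = k + 1 := ⟨J - 1, by omega⟩
  rw [Nat.add_sub_cancel, pow_succ]
  ring

end

end Vale.Agent.P172
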