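import Vale.Agent.P172.Iface

/-!
# P172, route DIM, block A: CAT(0) spaces satisfy the Bruhat-Tits inequality; barycentres
(helper427)
-/

namespace Vale.Agent.P172

universe u

open Set

/-- the Euclidean plane contains a comparison triangle -/
theorem exists_comparison (a b c : ℝ) (ha : 0 ≤ a) (hb : 0 ≤ b) (hc : 0 ≤ c) (h1 : a ≤ b + c)
    (h2 : b ≤ a + c) (h3 : c ≤ a + b) :
    ∃ x y z : EuclideanSpace ℝ (Fin 2), dist x y = a ∧ dist x z = b ∧ dist y z = c := by
  rcases eq_or_lt_of_le ha with h0 | h0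
  · have hbc : b = c := by linarith
    refine ⟨!₂[0, 0], !₂[0, 0], !₂[b, 0], ?_, ?_, ?_⟩
    · simp [h0.symm]
    · rw [EuclideanSpace.dist_eq]
      simp [Real.dist_eq, Real.sqrt_sq hb]
    · rw [EuclideanSpace.dist_eq]
      simp [Real.dist_eq, Real.sqrt_sq hb, ← hbc]
  · set u : ℝ := (a ^ 2 + b ^ 2 - c ^ 2) / (2 * a) with hu
    have hu2 : 2 * a * u = a ^ 2 + b ^ 2 - c ^ 2 := by
      rw [hu]; field_simp
    have hub : u ^ 2 ≤ b ^ 2 := by
      have e1 : u ≤ b := by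
        rw [hu, div_le_iff₀ (by positivity)]
        nlinarith [mul_nonneg (sub_nonneg.2 h3) (by linarith : 0 ≤ c - a + b + 2 * a),
          mul_nonneg (by linarith : 0 ≤ c - (a - b)) (by linarith : 0 ≤ c + a - b),
          mul_nonneg (by linarith : 0 ≤ c + b - a) (by linarith : 0 ≤ c + a - b)]
      have e2 : -b ≤ u := by
        rw [hu, le_div_iff₀ (by positivity)]
        nlinarith [mul_nonneg (sub_nonneg.2 h3) (by linarith : 0 ≤ c + a + b)]
      nlinarith
    refine ⟨!₂[0, 0], !₂[a, 0], !₂[u, Real.sqrt (b ^ 2 - u ^ 2)], ?_, ?_, ?_⟩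
    · rw [EuclideanSpace.dist_eq]
      simp [Real.dist_eq, Real.sqrt_sq_eq_abs, abs_of_pos h0]
    · rw [EuclideanSpace.dist_eq]
      simp only [Fin.sum_univ_two, Real.dist_eq, sq_abs]
      simp only [Matrix.cons_val_zero, Matrix.cons_val_one, Matrix.cons_val_fin_one]
      rw [show (0 - u) ^ 2 + (0 - Real.sqrt (b ^ 2 - u ^ 2)) ^ 2 = u ^ 2 +
        Real.sqrt (b ^ 2 - u ^ 2) ^ 2 by ring, Real.sq_sqrt (by linarith)]
      rw [show u ^ 2 + (b ^ 2 - u ^ 2) = b ^ 2 by ring, Real.sqrt_sq hb]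
    · rw [EuclideanSpace.dist_eq]
      simp only [Fin.sum_univ_two, Real.dist_eq, sq_abs]
      simp only [Matrix.cons_val_zero, Matrix.cons_val_one, Matrix.cons_val_fin_one]
      rw [show (a - u) ^ 2 + (0 - Real.sqrt (b ^ 2 - u ^ 2)) ^ 2 = (a - u) ^ 2 +
        Real.sqrt (b ^ 2 - u ^ 2) ^ 2 by ring, Real.sq_sqrt (by linarith)]
      rw [show (a - u) ^ 2 + (b ^ 2 - u ^ 2) = c ^ 2 by nlinarith, Real.sqrt_sq hc]

/-- Stewart's formula -/
theorem dist_lineMap_sq (x y z : EuclideanSpace ℝ (Fin 2)) (s : ℝ) :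
    dist (AffineMap.lineMap x y s) z ^ 2 =
      (1 - s) * dist x z ^ 2 + s * dist y z ^ 2 - s * (1 - s) * dist x y ^ 2 := by
  rw [EuclideanSpace.dist_eq, EuclideanSpace.dist_eq, EuclideanSpace.dist_eq,
    EuclideanSpace.dist_eq, Real.sq_sqrt (by positivity), Real.sq_sqrt (by positivity),
    Real.sq_sqrt (by positivity), Real.sq_sqrt (by positivity)]
  simp only [Fin.sum_univ_two, Real.dist_eq, sq_abs, AffineMap.lineMap_apply, vsub_eq_sub,
    vadd_eq_add, PiLp.add_apply, PiLp.smul_apply, PiLp.sub_apply, smul_eq_mul]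
  ring

/-- A0 -/
theorem stmtCat : StmtCat.{u} := by
  intro X _ hX x y t ht
  obtain ⟨α, hα⟩ := hX.geod x y
  refine ⟨α (t * dist x y), fun z => ?_⟩
  obtain ⟨β, hβ⟩ := hX.geod x z
  obtain ⟨x', y', z', h1, h2, h3⟩ := exists_comparison (dist x y) (dist x z) (dist y z)
    dist_nonneg dist_nonneg dist_nonneg
    (by have := dist_triangle x z y; rwa [dist_comm z y] at this) (dist_triangle x y z)
    (by have := dist_triangle y x z; rwa [dist_comm y x] at this)
  have h := hX.comp x y z α β hα hβ x' y' z' h1 h2 h3 t ht 1 ⟨zero_le_one, le_rfl⟩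
  rw [one_mul, hβ.2.1, AffineMap.lineMap_apply_one] at h
  have h4 := pow_le_pow_left₀ dist_nonneg h 2
  rw [dist_lineMap_sq, h1, h2, h3] at h4
  rw [dist_comm z (α _), dist_comm z x, dist_comm z y]
  exact h4

section

variable {X : Type u} [MetricSpace X] {ι : Type} [Fintype ι]

theorem wv_nonneg {w : ι → ℝ} (hw : ∀ i, 0 ≤ w i) (f : ι → X) (x : X) : 0 ≤ wv w f x :=
  Finset.sum_nonneg fun i _ => mul_nonneg (hw i) (sq_nonneg _)

theorem continuous_wv (w : ι → ℝ) (f : ι → X) : Continuous (wv w f) := by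
  unfold wv
  fun_prop

theorem wv_le {w : ι → ℝ} (hw : ∀ i, 0 ≤ w i) (hs : ∑ i, w i = 1) (f : ι → X) {x y m : X} {t : ℝ}
    (h : ∀ z : X, dist z m ^ 2 ≤
      (1 - t) * dist z x ^ 2 + t * dist z y ^ 2 - t * (1 - t) * dist x y ^ 2) :
    wv w f m ≤ (1 - t) * wv w f x + t * wv w f y - t * (1 - t) * dist x y ^ 2 := by
  have h1 : wv w f m ≤ ∑ i, w i * ((1 - t) * dist (f i) x ^ 2 + t * dist (f i) y ^ 2 -
      t * (1 - t) * dist x y ^ 2) :=
    Finset.sum_le_sum fun i _ => mul_le_mul_of_nonneg_left (h (f i)) (hw i)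
  have h2 : ∑ i, w i * ((1 - t) * dist (f i) x ^ 2 + t * dist (f i) y ^ 2 -
      t * (1 - t) * dist x y ^ 2) = (1 - t) * wv w f x + t * wv w f y -
        (∑ i, w i) * (t * (1 - t) * dist x y ^ 2) := by
    unfold wv
    rw [Finset.mul_sum, Finset.mul_sum, Finset.sum_mul, ← Finset.sum_add_distrib,
      ← Finset.sum_sub_distrib]
    exact Finset.sum_congr rfl fun i _ => by ring
  rw [h2, hs, one_mul] at h1
  exact h1

end

/-- A1: existence of barycentres -/
theorem stmtBar : StmtBar.{u} := by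
  intro X _ _ hX ι _ w f hw hs
  have hne : Nonempty ι := by
    by_contra h
    rw [not_nonempty_iff] at h
    simp at hs
  have hXne : Nonempty X := ⟨f hne.some⟩
  set I : ℝ := ⨅ x, wv w f x with hI
  have hbdd : BddBelow (range fun x => wv w f x) :=
    ⟨0, by rintro _ ⟨x, rfl⟩; exact wv_nonneg hw f x⟩
  have hIle : ∀ x, I ≤ wv w f x := fun x => ciInf_le hbdd x
  have hex : ∀ n : ℕ, ∃ x, wv w f x < I + 1 / ((n : ℝ) + 1) := fun n =>
    exists_lt_of_ciInf_lt (by rw [← hI]; linarith [show (0 : ℝ) < 1 / ((n : ℝ) + 1) by positivity])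
  choose x hx using hex
  have hd : ∀ n m : ℕ, dist (x n) (x m) ^ 2 ≤ 2 * (1 / ((n : ℝ) + 1) + 1 / ((m : ℝ) + 1)) := by
    intro n m
    obtain ⟨z, hz⟩ := hX (x n) (x m) (1 / 2) ⟨by norm_num, by norm_num⟩
    have h1 := wv_le hw hs f hz
    have h2 := hIle z
    have h3 := (hx n).le
    have h4 := (hx m).le
    nlinarith
  have hcau : CauchySeq x := by
    rw [Metric.cauchySeq_iff']
    intro ε hε
    obtain ⟨n, hn⟩ := exists_nat_one_div_lt (show (0 : ℝ) < ε ^ 2 / 4 by positivity)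
    refine ⟨n, fun m hm => ?_⟩
    have h1 := hd m n
    have h2 : 1 / ((m : ℝ) + 1) ≤ 1 / ((n : ℝ) + 1) := by
      apply one_div_le_one_div_of_le (by positivity)
      have : (n : ℝ) ≤ m := by exact_mod_cast hm
      linarith
    have h3 : dist (x m) (x n) ^ 2 < ε ^ 2 := by linarith
    exact lt_of_pow_lt_pow_left₀ 2 hε.le h3
  obtain ⟨b, hb⟩ := cauchySeq_tendsto_of_complete hcau
  have hbI : wv w f b ≤ I := by
    have h1 := ((continuous_wv w f).tendsto b).comp hb
    have h2 : Filter.Tendsto (fun n : ℕ => I + 1 / ((n : ℝ) + 1)) Filter.atTop (nhds (I + 0)) :=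
      tendsto_const_nhds.add tendsto_one_div_add_atTop_nhds_zero_nat
    rw [add_zero] at h2
    exact le_of_tendsto_of_tendsto' h1 h2 fun n => (hx n).le
  refine ⟨b, fun y => ?_⟩
  have key : ∀ t : ℝ, 0 < t → t ≤ 1 → wv w f b + (1 - t) * dist b y ^ 2 ≤ wv w f y := by
    intro t h0 h1
    obtain ⟨z, hz⟩ := hX b y t ⟨h0.le, h1⟩
    have h2 := wv_le hw hs f hz
    have h3 := hIle z
    have h4 : t * (wv w f b + (1 - t) * dist b y ^ 2) ≤ t * wv w f y := by nlinarith
    exact le_of_mul_le_mul_left h4 h0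
  have h5 : Filter.Tendsto (fun n : ℕ => wv w f b + (1 - 1 / ((n : ℝ) + 1)) * dist b y ^ 2)
      Filter.atTop (nhds (wv w f b + (1 - 0) * dist b y ^ 2)) :=
    tendsto_const_nhds.add ((tendsto_const_nhds.sub
      tendsto_one_div_add_atTop_nhds_zero_nat).mul_const _)
  rw [sub_zero, one_mul] at h5
  refine le_of_tendsto' h5 fun n => key _ (by positivity) ?_
  rw [div_le_one (by positivity)]
  linarith [show (0 : ℝ) ≤ n by positivity]

end Vale.Agent.P172
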