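import Vale.Agent.P172.B5
import Vale.Agent.P172.Cat

/-!
# P172, DIM-B, B7: the nonlinear gap on quasi-random graphs (helper218)
-/

namespace Vale.Agent.P172

universe u

open Finset

theorem num_contra (n : ℕ) {R A : ℝ} (hR : 0 < R) {σ : ℝ}
    (hσ : σ = 1 / (50000 * ((n : ℝ) + 1) ^ 3)) (hA : A ≤ 3000 * σ * R)
    (h : ((((4 * (n + 1) : ℕ) : ℝ) - 1) / ((4 * (n + 1) : ℕ) : ℝ)) ^ 2 * R ≤
      (n : ℝ) / (2 * (n + 1)) * (2 * R + ((4 * (n + 1) : ℕ) : ℝ) ^ 2 * A)) : False := by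
  obtain ⟨N, hN⟩ : ∃ N : ℝ, N = (n : ℝ) + 1 := ⟨_, rfl⟩
  have hn0 : (0 : ℝ) ≤ n := Nat.cast_nonneg n
  have hN1 : 1 ≤ N := by linarith
  have hN0 : 0 < N := by linarith
  have e1 : ((4 * (n + 1) : ℕ) : ℝ) = 4 * N := by
    rw [hN]
    push_cast
    ring
  have e2 : (n : ℝ) = N - 1 := by linarith
  rw [e1, e2] at h
  have e3 : 2 * (N - 1 + 1) = 2 * N := by ring
  rw [e3] at h
  rw [← hN] at hσ
  have h1 : 1 - 1 / (2 * N) ≤ ((4 * N - 1) / (4 * N)) ^ 2 := by
    have : ((4 * N - 1) / (4 * N)) ^ 2 = 1 - 1 / (2 * N) + (1 / (4 * N)) ^ 2 := by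
      field_simp
      ring
    rw [this]
    have := sq_nonneg (1 / (4 * N))
    linarith
  have h2 : (N - 1) / (2 * N) * (2 * R + (4 * N) ^ 2 * A) ≤
      (1 - 1 / N) * R + 12 / 25 * (1 / N) * R := by
    have h3 : (N - 1) / (2 * N) * (2 * R) = (1 - 1 / N) * R := by
      field_simp
    have h4 : (N - 1) / (2 * N) * ((4 * N) ^ 2 * A) ≤ 12 / 25 * (1 / N) * R := by
      have h5 : (N - 1) / (2 * N) ≤ 1 / 2 := by
        rw [div_le_iff₀ (by positivity)]
        linarith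
      have h6 : (4 * N) ^ 2 * A ≤ (4 * N) ^ 2 * (3000 * σ * R) :=
        mul_le_mul_of_nonneg_left hA (by positivity)
      have h7 : 0 ≤ (N - 1) / (2 * N) := div_nonneg (by linarith) (by positivity)
      calc (N - 1) / (2 * N) * ((4 * N) ^ 2 * A) ≤
          (N - 1) / (2 * N) * ((4 * N) ^ 2 * (3000 * σ * R)) :=
            mul_le_mul_of_nonneg_left h6 h7
        _ ≤ 1 / 2 * ((4 * N) ^ 2 * (3000 * σ * R)) := by
            refine mul_le_mul_of_nonneg_right h5 ?_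
            rw [hσ]
            positivity
        _ = 12 / 25 * (1 / N) * R := by
            rw [hσ]
            field_simp
            ring
    rw [mul_add, h3]
    linarith
  have h3 : (1 - 1 / (2 * N)) * R ≤ (1 - 1 / N) * R + 12 / 25 * (1 / N) * R :=
    (mul_le_mul_of_nonneg_right h1 hR.le).trans (h.trans h2)
  have h4 : 1 / (2 * N) = 1 / 2 * (1 / N) := by
    field_simp
  rw [h4] at h3
  have h5 : 0 < 1 / N * R := by positivity
  nlinarith

open Classical in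
/-- **DIM-B** -/
theorem stmtUG : StmtUG.{u} := by
  intro n
  have hn0 : (0 : ℝ) ≤ n := Nat.cast_nonneg n
  obtain ⟨σ, hσ⟩ : ∃ σ : ℝ, σ = 1 / (50000 * ((n : ℝ) + 1) ^ 3) := ⟨_, rfl⟩
  have hσ0 : 0 < σ := by
    rw [hσ]
    positivity
  have hσ1 : σ ≤ 1 / 50000 := by
    rw [hσ]
    refine one_div_le_one_div_of_le (by norm_num) ?_
    have : (1 : ℝ) ≤ ((n : ℝ) + 1) ^ 3 := one_le_pow₀ (by linarith)
    linarith
  obtain ⟨t, ht⟩ : ∃ t : ℝ, t = σ ^ 2 / 1000 := ⟨_, rfl⟩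
  have ht0 : 0 < t := by
    rw [ht]
    positivity
  have hσt : σ ^ 2 = 1000 * t := by
    rw [ht]
    ring
  have ht1 : t ≤ 1 / 1000 := by
    rw [ht]
    have : σ ^ 2 ≤ 1 := pow_le_one₀ hσ0.le (by linarith)
    linarith
  refine ⟨t, ht0, t, ht0, ?_⟩
  intro V _ adj p hQR X _ _ hX hJ f₁ f₂ r h1 h2
  by_contra hcon
  push Not at hcon
  have Q := hQR.qf (by linarith : t ≤ 1 / 20)
  have : Nonempty V := by
    have h := Q.n0
    exact Fintype.card_pos_iff.mp (by exact_mod_cast h)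
  have hr : 0 < r := by
    by_contra hr
    push Not at hr
    have h3 : (1 + t) * r ≤ 0 := mul_nonpos_of_nonneg_of_nonpos (by linarith) hr
    have hp := Q.p0
    have h4 : 0 ≤ (∑ u, ∑ v, if adj u v then dist (f₁ u) (f₂ v) ^ 2 else 0) /
        ((Fintype.card V : ℝ) ^ 2 * p) := by
      refine div_nonneg (Finset.sum_nonneg fun u _ => Finset.sum_nonneg fun v _ => ?_)
        (by positivity)
      split_ifs
      · exact sq_nonneg _
      · exact le_rfl
    linarith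
  have hbar : HasBar X := fun ι _ w f hw0 hw1 => stmtBar X hX ι w f hw0 hw1
  obtain ⟨b, R, hrR, hmin, C⟩ := exists_ctx hX hbar Q.ks (by linarith) (by linarith) (c := t)
    hσ0 (by linarith) (by nlinarith) ht0.le
    (by rw [hσt]; nlinarith [mul_pos ht0 ht0, mul_pos (mul_pos ht0 ht0) ht0])
    (by
      rw [hσt]
      have h3 : (1 - 8 * t) / 2 ≤ 1 / (2 * (1 + 8 * t)) := by
        rw [div_le_div_iff₀ (by norm_num) (by positivity)]
        nlinarith [mul_pos ht0 ht0]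
      nlinarith [mul_pos ht0 ht0])
    f₂ f₁ hr h1 h2 (by
      unfold Ee
      exact hcon.le)
  have hR0 : 0 < R := hr.trans_le hrR
  have hfin := C.fin
  have hJ4 : 2 ≤ 4 * (n + 1) := by omega
  have hgap := jung_gap hbar hJ hJ4 f₂ hR0.le hmin
  exact num_contra n hR0 hσ hfin hgap

end Vale.Agent.P172
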