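import Vale.Agent.P172.Iface

/-!
# P172, route DIM: elementary consequences of `Cat X` (helper218)
-/

namespace Vale.Agent.P172

universe u

open Set

section

variable {X : Type u} [MetricSpace X]

open Classical in
/-- the point `(1-t) x + t y` -/
noncomputable def pt (hX : Cat X) (x y : X) (t : ℝ) : X :=
  if h : t ∈ Icc (0 : ℝ) 1 then (hX x y t h).choose else x

variable (hX : Cat X)

theorem pt_spec (x y : X) {t : ℝ} (h0 : 0 ≤ t) (h1 : t ≤ 1) (z : X) :
    dist z (pt hX x y t) ^ 2 ≤
      (1 - t) * dist z x ^ 2 + t * dist z y ^ 2 - t * (1 - t) * dist x y ^ 2 := by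
  have h : t ∈ Icc (0 : ℝ) 1 := ⟨h0, h1⟩
  unfold pt
  rw [dif_pos h]
  exact (hX x y t h).choose_spec z

theorem dist_pt_left_le (x y : X) {t : ℝ} (h0 : 0 ≤ t) (h1 : t ≤ 1) :
    dist x (pt hX x y t) ≤ t * dist x y := by
  have h := pt_spec hX x y h0 h1 x
  rw [dist_self] at h
  refine abs_le_of_sq_le_sq' ?_ (mul_nonneg h0 dist_nonneg) |>.2
  nlinarith [h]

theorem dist_pt_right_le (x y : X) {t : ℝ} (h0 : 0 ≤ t) (h1 : t ≤ 1) :
    dist (pt hX x y t) y ≤ (1 - t) * dist x y := by
  have h := pt_spec hX x y h0 h1 y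
  rw [dist_self] at h
  rw [dist_comm (pt hX x y t) y]
  refine abs_le_of_sq_le_sq' ?_ (mul_nonneg (sub_nonneg.2 h1) dist_nonneg) |>.2
  rw [dist_comm y x] at h
  nlinarith [h]

theorem dist_pt_left (x y : X) {t : ℝ} (h0 : 0 ≤ t) (h1 : t ≤ 1) :
    dist x (pt hX x y t) = t * dist x y := by
  have ha := dist_pt_left_le hX x y h0 h1
  have hb := dist_pt_right_le hX x y h0 h1
  have hc := dist_triangle x (pt hX x y t) y
  linarith

theorem dist_pt_right (x y : X) {t : ℝ} (h0 : 0 ≤ t) (h1 : t ≤ 1) :
    dist (pt hX x y t) y = (1 - t) * dist x y := by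
  have ha := dist_pt_left_le hX x y h0 h1
  have hb := dist_pt_right_le hX x y h0 h1
  have hc := dist_triangle x (pt hX x y t) y
  linarith

/-- midpoint -/
noncomputable def mp (x y : X) : X := pt hX x y (1 / 2)

theorem mp_spec (x y z : X) :
    dist z (mp hX x y) ^ 2 ≤ dist z x ^ 2 / 2 + dist z y ^ 2 / 2 - dist x y ^ 2 / 4 := by
  have h := pt_spec hX x y (t := 1 / 2) (by norm_num) (by norm_num) z
  unfold mp
  linarith

theorem dist_mp_left (x y : X) : dist x (mp hX x y) = dist x y / 2 := by
  unfold mp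
  rw [dist_pt_left hX x y (by norm_num) (by norm_num)]
  ring

theorem dist_mp_right (x y : X) : dist (mp hX x y) y = dist x y / 2 := by
  unfold mp
  rw [dist_pt_right hX x y (by norm_num) (by norm_num)]
  ring

theorem mp_self (x : X) : mp hX x x = x := by
  have h := dist_mp_left hX x x
  rw [dist_self, zero_div] at h
  exact (dist_eq_zero.1 h).symm

/-- the quadrilateral inequality with the distance of the midpoints of the diagonals -/
theorem quad (u u' v v' : X) :
    4 * dist (mp hX u u') (mp hX v v') ^ 2 + dist u u' ^ 2 + dist v v' ^ 2 ≤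
      dist u v ^ 2 + dist u v' ^ 2 + dist u' v ^ 2 + dist u' v' ^ 2 := by
  have h1 := mp_spec hX v v' (mp hX u u')
  have h2 := mp_spec hX u u' v
  have h3 := mp_spec hX u u' v'
  rw [dist_comm v (mp hX u u')] at h2
  rw [dist_comm v' (mp hX u u')] at h3
  rw [dist_comm v u, dist_comm v u'] at h2
  rw [dist_comm v' u, dist_comm v' u'] at h3
  nlinarith

/-- comparison scalar product of `x` and `z` seen from `b` -/
noncomputable def ip (b x z : X) : ℝ := (dist b x ^ 2 + dist b z ^ 2 - dist x z ^ 2) / 2

theorem ip_comm (b x z : X) : ip b x z = ip b z x := by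
  unfold ip
  rw [dist_comm x z]
  ring

theorem dist_sq_eq (b x z : X) : dist x z ^ 2 = dist b x ^ 2 + dist b z ^ 2 - 2 * ip b x z := by
  unfold ip
  ring

theorem ip_le_mul (b x z : X) : ip b x z ≤ dist b x * dist b z := by
  have h1 : |dist b x - dist b z| ≤ dist x z := by
    rw [dist_comm b x, dist_comm b z]
    exact abs_dist_sub_le x z b
  have h2 : (dist b x - dist b z) ^ 2 ≤ dist x z ^ 2 := by
    rw [← sq_abs (dist b x - dist b z)]
    exact pow_le_pow_left₀ (abs_nonneg _) h1 2
  unfold ip
  nlinarith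

theorem neg_mul_le_ip (b x z : X) : -(dist b x * dist b z) ≤ ip b x z := by
  have h1 : dist x z ≤ dist b x + dist b z := by
    have := dist_triangle x b z
    rwa [dist_comm x b] at this
  have h2 : dist x z ^ 2 ≤ (dist b x + dist b z) ^ 2 := pow_le_pow_left₀ dist_nonneg h1 2
  unfold ip
  nlinarith

/-- `<x_t, z> ≥ t <x, z>` -/
theorem le_ip_pt (b x z : X) {t : ℝ} (h0 : 0 ≤ t) (h1 : t ≤ 1) :
    t * ip b x z ≤ ip b (pt hX b x t) z := by
  have h := pt_spec hX b x h0 h1 z
  have h2 := dist_pt_left hX b x h0 h1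
  unfold ip
  rw [h2, dist_comm (pt hX b x t) z, dist_comm x z]
  rw [dist_comm z b] at h
  nlinarith

theorem le_ip_pt' (b x z : X) {t : ℝ} (h0 : 0 ≤ t) (h1 : t ≤ 1) :
    t * ip b x z ≤ ip b x (pt hX b z t) := by
  rw [ip_comm b x z, ip_comm b x]
  exact le_ip_pt hX b z x h0 h1

/-- Lipschitz estimate of the scalar product -/
theorem abs_ip_sub_le (b x y z : X) :
    |ip b x z - ip b y z| ≤ dist x y * (dist b x + dist b y + dist b z) := by
  have h1 : |dist b x - dist b y| ≤ dist x y := by
    rw [dist_comm b x, dist_comm b y]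
    exact abs_dist_sub_le x y b
  have h2 : |dist x z - dist y z| ≤ dist x y := abs_dist_sub_le x y z
  have h3 : dist x z ≤ dist b x + dist b z := by
    have := dist_triangle x b z
    rwa [dist_comm x b] at this
  have h4 : dist y z ≤ dist b y + dist b z := by
    have := dist_triangle y b z
    rwa [dist_comm y b] at this
  have e : ip b x z - ip b y z = ((dist b x - dist b y) * (dist b x + dist b y) -
      (dist x z - dist y z) * (dist x z + dist y z)) / 2 := by
    unfold ip
    ring
  rw [e]
  have hx := dist_nonneg (x := b) (y := x)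
  have hy := dist_nonneg (x := b) (y := y)
  have hz := dist_nonneg (x := b) (y := z)
  have h5 : |(dist b x - dist b y) * (dist b x + dist b y)| ≤
      dist x y * (dist b x + dist b y) := by
    rw [abs_mul, abs_of_nonneg (add_nonneg hx hy)]
    exact mul_le_mul_of_nonneg_right h1 (add_nonneg hx hy)
  have h6 : |(dist x z - dist y z) * (dist x z + dist y z)| ≤
      dist x y * (dist b x + dist b y + 2 * dist b z) := by
    rw [abs_mul, abs_of_nonneg (add_nonneg dist_nonneg dist_nonneg)]
    exact mul_le_mul h2 (by linarith) (add_nonneg dist_nonneg dist_nonneg) dist_nonneg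
  rw [abs_div, abs_of_pos (two_pos : (0 : ℝ) < 2), div_le_iff₀ two_pos]
  calc _ ≤ |(dist b x - dist b y) * (dist b x + dist b y)| +
        |(dist x z - dist y z) * (dist x z + dist y z)| := abs_sub _ _
    _ ≤ dist x y * (dist b x + dist b y) + dist x y * (dist b x + dist b y + 2 * dist b z) :=
        add_le_add h5 h6
    _ = _ := by ring

end

end Vale.Agent.P172
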