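import Mathlib

/-!
# P172, route DIM: the notions used in the final statement
-/

namespace Vale.Agent.P172

/-- `γ` restricted to `[0, dist x y]` is a geodesic from `x` to `y`. -/
def IsGeodesic {X : Type*} [MetricSpace X] (γ : ℝ → X) (x y : X) : Prop :=
  γ 0 = x ∧ γ (dist x y) = y ∧
    ∀ s ∈ Set.Icc 0 (dist x y), ∀ t ∈ Set.Icc 0 (dist x y), dist (γ s) (γ t) = |s - t|

/-- `X` is a CAT(0) space: it is a geodesic space, and for every geodesic triangle with vertices
`x, y, z` and every comparison triangle `x', y', z'` in the Euclidean plane, the distance of a point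
of the side `[x, y]` to a point of the side `[x, z]` is at most the distance of the corresponding
points of the comparison triangle. -/
structure IsCAT0 (X : Type*) [MetricSpace X] : Prop where
  geod : ∀ x y : X, ∃ γ : ℝ → X, IsGeodesic γ x y
  comp : ∀ (x y z : X) (α β : ℝ → X), IsGeodesic α x y → IsGeodesic β x z →
    ∀ x' y' z' : EuclideanSpace ℝ (Fin 2),
      dist x' y' = dist x y → dist x' z' = dist x z → dist y' z' = dist y z →
      ∀ s ∈ Set.Icc (0 : ℝ) 1, ∀ t ∈ Set.Icc (0 : ℝ) 1,
        dist (α (s * dist x y)) (β (t * dist x z)) ≤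
          dist (AffineMap.lineMap x' y' s) (AffineMap.lineMap x' z' t)

/-- The covering dimension of `X` is at most `n`: every finite open cover has a finite open
refinement no point of which lies in more than `n + 1` members. -/
def CovDimLE (X : Type*) [TopologicalSpace X] (n : ℕ) : Prop :=
  ∀ (k : ℕ) (U : Fin k → Set X), (∀ i, IsOpen (U i)) → (⋃ i, U i) = Set.univ →
    ∃ (m : ℕ) (V : Fin m → Set X), (∀ j, IsOpen (V j)) ∧ (⋃ j, V j) = Set.univ ∧
      (∀ j, ∃ i, V j ⊆ U i) ∧ ∀ x : X, Set.ncard {j | x ∈ V j} ≤ n + 1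

/-- The sum of the coefficients, as a linear form on the group ring. -/
noncomputable def aug (G : Type*) [Group G] : MonoidAlgebra ℤ G →+* ℤ :=
  (MonoidAlgebra.lift ℤ ℤ G 1).toRingHom

/-- The trivial module `ℤ` has a resolution `0 → ℤ[G]^a → ℤ[G]^b → ℤ[G] → ℤ → 0` by finitely
generated free (left) modules. In particular `G` has cohomological dimension at most `2`. -/
def HasFreeRes2 (G : Type*) [Group G] : Prop :=
  ∃ (a b : ℕ)
    (d2 : (Fin a → MonoidAlgebra ℤ G) →ₗ[MonoidAlgebra ℤ G] (Fin b → MonoidAlgebra ℤ G))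
    (d1 : (Fin b → MonoidAlgebra ℤ G) →ₗ[MonoidAlgebra ℤ G] MonoidAlgebra ℤ G),
    Function.Injective d2 ∧ (∀ x, d1 x = 0 ↔ ∃ y, d2 y = x) ∧ (∀ x, aug G x = 0 ↔ ∃ y, d1 y = x)

end Vale.Agent.P172
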