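import Vale.Agent.P172.Defs

/-!
# P172, route DIM: dimension by compact subsets
-/

namespace Vale.Agent.P172

/-- The covering dimension of every compact subset of `X` is at most `n` (for CAT(0) spaces this
is Kleiner's geometric dimension). -/
def GeomDimLE (X : Type*) [TopologicalSpace X] (n : ℕ) : Prop :=
  ∀ K : Set X, IsCompact K → CovDimLE K n

end Vale.Agent.P172
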