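import Vale.Agent.P172.Defs2

/-!
# P172, route DIM: finite aspherical presentations
-/

namespace Vale.Agent.P172

/-- `G` has a finite aspherical presentation, with generators `L`, relators `rel r` (`r : R`) and
quotient map `π` from the free group: whenever a product of conjugates `v * (rel r)^(±1) * v⁻¹` of
relators and inverse relators is trivial in the free group, the corresponding sum of the elements
`± (π v, r)` of the free `ℤ[G]`-module on `R` vanishes. (This is the vanishing of the second
homotopy group of the 2-dimensional complex of the presentation, so this complex is a finite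
aspherical complex with fundamental group `G`.) -/
def HasAsphPres (G : Type*) [Group G] : Prop :=
  ∃ (L R : Type) (_ : Finite L) (_ : Finite R) (π : FreeGroup L →* G) (rel : R → FreeGroup L),
    Function.Surjective π ∧ π.ker = Subgroup.normalClosure (Set.range rel) ∧
    ∀ l : List (FreeGroup L × R × ℤˣ),
      (l.map fun t => t.1 * rel t.2.1 ^ (t.2.2 : ℤ) * t.1⁻¹).prod = 1 →
      (l.map fun t => (Finsupp.single (π t.1, t.2.1) (t.2.2 : ℤ) : (G × R) →₀ ℤ)).sum = 0

end Vale.Agent.P172
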