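import Vale.Agent.P172.Defs
import Vale.Agent.P201.S.Tor

/-!
# P172, route DIM, block D5: an aspherical presentation gives a free resolution of length two

`Gam` is the group of pairs (element of the free group, chain): it is generated by the pairs
`(v r v⁻¹, [v, r])`. The presentation is aspherical if the only chain over `1` is `0`.
-/

namespace Vale.Agent.P172

open Vale.Agent.P201.S.TF

section Fx

variable {L R G : Type} [Group G] (π : FreeGroup L →* G) (rel : R → FreeGroup L)

/-- pairs (element of the free group, chain of an expression as product of conjugates) -/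
noncomputable def Gam : Subgroup (FreeGroup L × Multiplicative ((G × R) →₀ ℤ)) :=
  Subgroup.closure (Set.range fun p : FreeGroup L × R =>
    (p.1 * rel p.2 * p.1⁻¹, Multiplicative.ofAdd (Finsupp.single (π p.1, p.2) (1 : ℤ))))

/-- asphericity -/
def Asph : Prop := ∀ z : (G × R) →₀ ℤ, ((1 : FreeGroup L), Multiplicative.ofAdd z) ∈ Gam π rel →
  z = 0

/-- boundary of a chain -/
noncomputable def bdy : ((G × R) →₀ ℤ) →+ ((G × L) →₀ ℤ) :=
  Finsupp.liftAddHom (fun x => zmultiplesHom _ (sm x.1 (D π (rel x.2))))

theorem bdy_single (g : G) (r : R) (m : ℤ) :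
    bdy π rel (Finsupp.single (g, r) m) = m • sm g (D π (rel r)) := by
  simp [bdy]

variable {π rel}

theorem gam_D (hrel : ∀ r, π (rel r) = 1) {x : FreeGroup L × Multiplicative ((G × R) →₀ ℤ)}
    (hx : x ∈ Gam π rel) : π x.1 = 1 ∧ D π x.1 = bdy π rel (Multiplicative.toAdd x.2) := by
  unfold Gam at hx
  induction hx using Subgroup.closure_induction with
  | mem x hx =>
    obtain ⟨⟨v, r⟩, rfl⟩ := hx
    have e1 : π (v * rel r) = π v := by rw [map_mul, hrel, mul_one]
    have e2 : π (v * rel r * v⁻¹) = 1 := by rw [map_mul, e1, map_inv, mul_inv_cancel]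
    refine ⟨e2, ?_⟩
    simp only [toAdd_ofAdd]
    rw [bdy_single, one_smul, D_mul, D_mul, D_inv, e1, map_neg, ← sm_mul, mul_inv_cancel, sm_one]
    abel
  | one =>
    exact ⟨map_one _, by simp [D_one]⟩
  | mul x y _ _ hx hy =>
    refine ⟨by rw [Prod.fst_mul, map_mul, hx.1, hy.1, one_mul], ?_⟩
    rw [Prod.fst_mul, Prod.snd_mul, toAdd_mul, map_add, D_mul, hx.1, sm_one, hx.2, hy.2]
  | inv x _ hx =>
    refine ⟨by rw [Prod.fst_inv, map_inv, hx.1, inv_one], ?_⟩
    rw [Prod.fst_inv, Prod.snd_inv, toAdd_inv, map_neg, D_inv, hx.1, inv_one, sm_one, hx.2]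

theorem gam_gen (v : FreeGroup L) (r : R) :
    (v * rel r * v⁻¹, Multiplicative.ofAdd (Finsupp.single (π v, r) (1 : ℤ))) ∈ Gam π rel :=
  Subgroup.subset_closure ⟨(v, r), rfl⟩

theorem gam_of_ker (hker : π.ker = Subgroup.normalClosure (Set.range rel)) {n : FreeGroup L}
    (hn : π n = 1) : ∃ z, (n, z) ∈ Gam π rel := by
  have h1 : n ∈ Subgroup.normalClosure (Set.range rel) := by
    rw [← hker]
    exact hn
  unfold Subgroup.normalClosure at h1
  induction h1 using Subgroup.closure_induction with
  | mem x hx =>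
    obtain ⟨a, ⟨r, rfl⟩, ha⟩ := Group.mem_conjugatesOfSet_iff.1 hx
    obtain ⟨v, hv⟩ := isConj_iff.1 ha
    exact ⟨_, hv ▸ gam_gen v r⟩
  | one => exact ⟨1, one_mem _⟩
  | mul x y hx hy ihx ihy =>
    have e1 : ∀ x, x ∈ Subgroup.closure (Group.conjugatesOfSet (Set.range rel)) → π x = 1 := by
      intro x hx
      have : x ∈ π.ker := by
        rw [hker]
        exact hx
      exact this
    obtain ⟨a, ha⟩ := ihx (e1 x hx)
    obtain ⟨b, hb⟩ := ihy (e1 y hy)
    exact ⟨a * b, mul_mem ha hb⟩
  | inv x hx ihx =>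
    have e1 : π x = 1 := by rwa [map_inv, inv_eq_one] at hn
    obtain ⟨a, ha⟩ := ihx e1
    exact ⟨a⁻¹, inv_mem ha⟩

theorem gam_surj (hπ : Function.Surjective π) (z : (G × R) →₀ ℤ) :
    ∃ n, (n, Multiplicative.ofAdd z) ∈ Gam π rel := by
  induction z using Finsupp.induction_linear with
  | zero => exact ⟨1, one_mem _⟩
  | add f g hf hg =>
    obtain ⟨a, ha⟩ := hf
    obtain ⟨b, hb⟩ := hg
    exact ⟨a * b, mul_mem ha hb⟩
  | single x c =>
    obtain ⟨g, r⟩ := x
    obtain ⟨v, rfl⟩ := hπ g
    refine ⟨(v * rel r * v⁻¹) ^ c, ?_⟩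
    have h := zpow_mem (gam_gen (π := π) (rel := rel) v r) c
    rw [Prod.pow_mk, ← ofAdd_zsmul, Finsupp.smul_single, smul_eq_mul, mul_one] at h
    exact h

/-- a normalised section -/
theorem exists_section (hπ : Function.Surjective π) : ∃ s : G → FreeGroup L, s 1 = 1 ∧
    ∀ g, π (s g) = g := by
  classical
  refine ⟨fun g => if g = 1 then 1 else Function.surjInv hπ g, if_pos rfl, fun g => ?_⟩
  by_cases h : g = 1
  · simp [h]
  · simp only [h, if_false]
    exact Function.surjInv_eq hπ g

/-- the exactness statements on the level of chains -/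
theorem fox_exact (hπ : Function.Surjective π)
    (hker : π.ker = Subgroup.normalClosure (Set.range rel)) (has : Asph π rel) :
    (∀ z, bdy π rel z = 0 → z = 0) ∧ (∀ f, P1 π f = 0 ↔ ∃ z, bdy π rel z = f) ∧
    (∀ f : (G × Unit) →₀ ℤ, ag f = 0 ↔ ∃ y, P1 π y = f) := by
  have hrel : ∀ r, π (rel r) = 1 := by
    intro r
    have : rel r ∈ π.ker := by
      rw [hker]
      exact Subgroup.subset_normalClosure ⟨r, rfl⟩
    exact this
  obtain ⟨s, hs1, hs⟩ := exists_section hπ
  have hn : ∀ x : G × L, ∃ z, (s x.1 * FreeGroup.of x.2 * (s (x.1 * π (FreeGroup.of x.2)))⁻¹,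
      Multiplicative.ofAdd z) ∈ Gam π rel := by
    intro x
    obtain ⟨z, hz⟩ := gam_of_ker (n := s x.1 * FreeGroup.of x.2 *
      (s (x.1 * π (FreeGroup.of x.2)))⁻¹) hker (by simp [hs])
    exact ⟨Multiplicative.toAdd z, hz⟩
  choose c hc using hn
  let ψ : ((G × L) →₀ ℤ) →+ ((G × R) →₀ ℤ) := Finsupp.liftAddHom (fun x => zmultiplesHom _ (c x))
  have hψ : ∀ x m, ψ (Finsupp.single x m) = m • c x := by
    intro x m
    simp [ψ]
  let T : ((G × Unit) →₀ ℤ) →+ ((G × L) →₀ ℤ) :=
    Finsupp.liftAddHom (fun x => zmultiplesHom _ (D π (s x.1)))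
  have hT : ∀ x m, T (Finsupp.single x m) = m • D π (s x.1) := by
    intro x m
    simp [T]
  -- the main claim
  have claim : ∀ (w : FreeGroup L) (g : G),
      (s g * w * (s (g * π w))⁻¹, Multiplicative.ofAdd (ψ (sm g (D π w)))) ∈ Gam π rel := by
    intro w
    induction w using FreeGroup.induction_on with
    | C1 =>
      intro g
      rw [D_one, map_zero, map_zero, map_one, mul_one, mul_one, mul_inv_cancel]
      exact one_mem _
    | of l =>
      intro g
      rw [D_of, sm_single, mul_one, hψ, one_smul]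
      exact hc (g, l)
    | inv_of l h =>
      intro g
      have h1 := inv_mem (h (g * π (FreeGroup.of l)⁻¹))
      rw [D_inv, map_neg, map_neg, ← sm_mul, ofAdd_neg]
      rw [Prod.inv_mk] at h1
      simp only [map_inv, inv_mul_cancel_right, mul_inv_rev, inv_inv] at h1 ⊢
      rw [← mul_assoc] at h1
      exact h1
    | mul a b ha hb =>
      intro g
      have h1 := mul_mem (ha g) (hb (g * π a))
      rw [Prod.mk_mul_mk, ← ofAdd_add, ← map_add, sm_mul, ← map_add (sm g), ← D_mul] at h1
      have h2 : s g * (a * b) * (s (g * π (a * b)))⁻¹ = s g * a * (s (g * π a))⁻¹ *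
          (s (g * π a) * b * (s (g * π a * π b))⁻¹) := by
        rw [map_mul, mul_assoc g]
        group
      rw [h2]
      exact h1
  have claim1 : ∀ n : FreeGroup L, π n = 1 → (n, Multiplicative.ofAdd (ψ (D π n))) ∈ Gam π rel := by
    intro n hn
    have h1 := claim n 1
    rw [hn, mul_one, hs1, sm_one, one_mul, inv_one, mul_one] at h1
    exact h1
  have hP1bd : ∀ z, P1 π (bdy π rel z) = 0 := by
    intro z
    induction z using Finsupp.induction_linear with
    | zero => simp
    | add f g hf hg => rw [map_add, map_add, hf, hg, add_zero]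
    | single x m =>
      obtain ⟨g, r⟩ := x
      rw [bdy_single, map_zsmul, P1_sm, P1_D, hrel, sub_self, map_zero, smul_zero]
  refine ⟨?_, ?_, ?_⟩
  · intro z hz
    obtain ⟨n, hn⟩ := gam_surj (rel := rel) hπ z
    obtain ⟨h1, h2⟩ := gam_D hrel hn
    simp only [toAdd_ofAdd] at h1 h2
    have h3 := claim1 n h1
    rw [h2, hz, map_zero, ofAdd_zero] at h3
    have h4 := mul_mem hn (inv_mem h3)
    rw [Prod.inv_mk, Prod.mk_mul_mk, mul_inv_cancel, inv_one, mul_one] at h4
    exact has z h4
  · intro f
    constructor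
    · intro hf
      have key : ∀ f, f = bdy π rel (ψ f) + T (P1 π f) := by
        intro f
        induction f using Finsupp.induction_linear with
        | zero => simp
        | add f g hf hg =>
          simp only [map_add]
          nth_rewrite 1 [hf, hg]
          abel
        | single x m =>
          obtain ⟨g, l⟩ := x
          have h1 := (gam_D hrel (hc (g, l))).2
          simp only [toAdd_ofAdd] at h1
          rw [hψ, map_zsmul, ← h1, P1_single, map_zsmul, map_sub, hT, hT, one_smul, one_smul,
            ← smul_add, D_mul, D_mul, D_of, D_inv, map_mul, hs, hs, sm_single, mul_one, map_neg,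
            ← sm_mul, mul_inv_cancel, sm_one]
          have h2 : D π (s g) + Finsupp.single (g, l) 1 + -D π (s (g * π (FreeGroup.of l))) +
              (D π (s (g * π (FreeGroup.of l))) - D π (s g)) = Finsupp.single (g, l) (1 : ℤ) := by
            abel
          rw [h2, Finsupp.smul_single, smul_eq_mul, mul_one]
      refine ⟨ψ f, ?_⟩
      have h1 := key f
      rw [hf, map_zero, add_zero] at h1
      exact h1.symm
    · rintro ⟨z, rfl⟩
      exact hP1bd z
  · intro f
    constructor
    · intro hf
      have key : ∀ f : (G × Unit) →₀ ℤ, f = P1 π (T f) + Finsupp.single (1, ()) (ag f) := by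
        intro f
        induction f using Finsupp.induction_linear with
        | zero => simp
        | add f g hf hg =>
          simp only [map_add, Finsupp.single_add]
          nth_rewrite 1 [hf, hg]
          abel
        | single x m =>
          obtain ⟨g, u⟩ := x
          rw [hT, map_zsmul, P1_D, hs, ag_single, smul_sub, Finsupp.smul_single,
            Finsupp.smul_single, smul_eq_mul, mul_one, sub_add_cancel]
      refine ⟨T f, ?_⟩
      have h1 := key f
      rw [hf, Finsupp.single_zero, add_zero] at h1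
      exact h1.symm
    · rintro ⟨y, rfl⟩
      exact ag_P1 π y

end Fx

section Conv

variable {G : Type} [Group G]

/-- chains as vectors over the group ring -/
noncomputable def cv (A : Type) [DecidableEq A] :
    ((G × A) →₀ ℤ) →+ (A → MonoidAlgebra ℤ G) :=
  Finsupp.liftAddHom (fun x =>
    (AddMonoidHom.single (fun _ : A => MonoidAlgebra ℤ G) x.2).comp
      (MonoidAlgebra.singleAddHom x.1))

theorem cv_single {A : Type} [DecidableEq A] (g : G) (a : A) (m : ℤ) :
    cv A (Finsupp.single (g, a) m) = Pi.single a (MonoidAlgebra.single g m) := by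
  simp [cv]

theorem cv_coeff {A : Type} [DecidableEq A] (f : (G × A) →₀ ℤ) (g : G) (a : A) :
    (cv A f a).coeff g = f (g, a) := by
  induction f using Finsupp.induction_linear with
  | zero => simp
  | add f g hf hg => simp [hf, hg]
  | single x m =>
    obtain ⟨h, b⟩ := x
    rw [cv_single]
    by_cases hab : a = b
    · subst hab
      by_cases hgh : g = h
      · subst hgh
        simp
      · have h1 : ((h, a) : G × A) ≠ (g, a) := fun h' => hgh (congrArg Prod.fst h').symm
        rw [Finsupp.single_eq_of_ne' h1]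
        simp [Finsupp.single_eq_of_ne hgh]
    · have h1 : ((h, b) : G × A) ≠ (g, a) := fun h' => hab (congrArg Prod.snd h').symm
      rw [Finsupp.single_eq_of_ne' h1, Pi.single_eq_of_ne hab]
      simp

theorem cv_inj {A : Type} [DecidableEq A] : Function.Injective (cv (G := G) A) := by
  intro f f' h
  ext ⟨g, a⟩
  rw [← cv_coeff f, ← cv_coeff f', h]

theorem cv_surj {A : Type} [DecidableEq A] [Fintype A] : Function.Surjective (cv (G := G) A) := by
  intro x
  have h1 : ∀ (a : A) (y : MonoidAlgebra ℤ G), ∃ f, cv A f = Pi.single a y := by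
    intro a y
    induction y using MonoidAlgebra.induction_linear with
    | zero => exact ⟨0, by simp⟩
    | add x y hx hy =>
      obtain ⟨f, hf⟩ := hx
      obtain ⟨g, hg⟩ := hy
      exact ⟨f + g, by rw [map_add, hf, hg, Pi.single_add]⟩
    | single g m => exact ⟨Finsupp.single (g, a) m, cv_single g a m⟩
  choose F hF using fun a => h1 a (x a)
  refine ⟨∑ a, F a, ?_⟩
  rw [map_sum]
  simp only [hF]
  exact Finset.univ_sum_single x

theorem cv_sm {A : Type} [DecidableEq A] (g : G) (f : (G × A) →₀ ℤ) :
    cv A (sm g f) = MonoidAlgebra.single g (1 : ℤ) • cv A f := by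
  induction f using Finsupp.induction_linear with
  | zero => simp
  | add f f' hf hf' => rw [map_add, map_add, map_add, hf, hf', smul_add]
  | single x m =>
    obtain ⟨h, a⟩ := x
    rw [sm_single, cv_single, cv_single, ← Pi.single_smul', smul_eq_mul,
      MonoidAlgebra.single_mul_single, one_mul]

theorem aug_single (g : G) (m : ℤ) : aug G (MonoidAlgebra.single g m) = m := by
  unfold aug
  change MonoidAlgebra.lift ℤ ℤ G 1 (MonoidAlgebra.single g m) = m
  rw [MonoidAlgebra.lift_single]
  simp

theorem aug_cv (f : (G × Unit) →₀ ℤ) : aug G (cv Unit f ()) = ag f := by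
  induction f using Finsupp.induction_linear with
  | zero => simp
  | add f g hf hg => rw [map_add, map_add, Pi.add_apply, map_add, hf, hg]
  | single x m =>
    obtain ⟨g, u⟩ := x
    rw [cv_single, ag_single, Pi.single_eq_same, aug_single]

/-- an aspherical finite presentation gives a free resolution of length two -/
theorem hasFreeRes2_of_asph {L R : Type} [Fintype L] [Fintype R] {π : FreeGroup L →* G}
    {rel : R → FreeGroup L} (hπ : Function.Surjective π)
    (hker : π.ker = Subgroup.normalClosure (Set.range rel)) (has : Asph π rel) :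
    HasFreeRes2 G := by
  classical
  obtain ⟨h1, h2, h3⟩ := fox_exact hπ hker has
  let d1 : (L → MonoidAlgebra ℤ G) →ₗ[MonoidAlgebra ℤ G] MonoidAlgebra ℤ G :=
    Fintype.linearCombination (MonoidAlgebra ℤ G)
      (fun l : L => MonoidAlgebra.single (π (FreeGroup.of l)) (1 : ℤ) - 1)
  let d2 : (R → MonoidAlgebra ℤ G) →ₗ[MonoidAlgebra ℤ G] (L → MonoidAlgebra ℤ G) :=
    Fintype.linearCombination (MonoidAlgebra ℤ G) (fun r : R => cv L (D π (rel r)))
  have e1 : ∀ f : (G × L) →₀ ℤ, d1 (cv L f) = cv Unit (P1 π f) () := by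
    intro f
    induction f using Finsupp.induction_linear with
    | zero => simp
    | add f g hf hg => simp only [map_add, Pi.add_apply, hf, hg]
    | single x m =>
      obtain ⟨g, l⟩ := x
      rw [cv_single, P1_single, map_zsmul, map_sub, cv_single, cv_single]
      simp only [d1]
      rw [Fintype.linearCombination_apply_single, smul_eq_mul, mul_sub, mul_one,
        MonoidAlgebra.single_mul_single, mul_one]
      simp [smul_sub]
  have e2 : ∀ f : (G × R) →₀ ℤ, d2 (cv R f) = cv L (bdy π rel f) := by
    intro f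
    induction f using Finsupp.induction_linear with
    | zero => simp
    | add f g hf hg => simp only [map_add, hf, hg]
    | single x m =>
      obtain ⟨g, r⟩ := x
      rw [cv_single, bdy_single, map_zsmul, cv_sm]
      simp only [d2]
      rw [Fintype.linearCombination_apply_single, ← smul_assoc]
      congr 1
      simp
  let eR : (Fin (Fintype.card R) → MonoidAlgebra ℤ G) ≃ₗ[MonoidAlgebra ℤ G]
      (R → MonoidAlgebra ℤ G) :=
    LinearEquiv.funCongrLeft (MonoidAlgebra ℤ G) (MonoidAlgebra ℤ G) (Fintype.equivFin R)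
  let eL : (L → MonoidAlgebra ℤ G) ≃ₗ[MonoidAlgebra ℤ G]
      (Fin (Fintype.card L) → MonoidAlgebra ℤ G) :=
    LinearEquiv.funCongrLeft (MonoidAlgebra ℤ G) (MonoidAlgebra ℤ G) (Fintype.equivFin L).symm
  refine ⟨Fintype.card R, Fintype.card L, eL.toLinearMap ∘ₗ d2 ∘ₗ eR.toLinearMap,
    d1 ∘ₗ eL.symm.toLinearMap, ?_, ?_, ?_⟩
  · rw [injective_iff_map_eq_zero]
    intro x hx
    have hx' : eL (d2 (eR x)) = 0 := hx
    rw [LinearEquiv.map_eq_zero_iff] at hx'
    obtain ⟨f, hf⟩ := cv_surj (eR x)
    rw [← hf, e2] at hx'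
    have h4 : bdy π rel f = 0 := cv_inj (by rw [hx', map_zero])
    rw [h1 f h4, map_zero] at hf
    exact (LinearEquiv.map_eq_zero_iff eR).1 hf.symm
  · intro x
    obtain ⟨f, hf⟩ := cv_surj (eL.symm x)
    constructor
    · intro hx
      have hx' : d1 (eL.symm x) = 0 := hx
      rw [← hf, e1] at hx'
      have h4 : P1 π f = 0 := by
        apply cv_inj (A := Unit)
        funext u
        rw [hx', map_zero]
        rfl
      obtain ⟨z, hz⟩ := (h2 f).1 h4
      refine ⟨eR.symm (cv R z), ?_⟩
      change eL (d2 (eR (eR.symm (cv R z)))) = x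
      rw [LinearEquiv.apply_symm_apply, e2, hz, hf, LinearEquiv.apply_symm_apply]
    · rintro ⟨y, rfl⟩
      obtain ⟨z, hz⟩ := cv_surj (eR y)
      change d1 (eL.symm (eL (d2 (eR y)))) = 0
      rw [LinearEquiv.symm_apply_apply, ← hz, e2, e1, (h2 _).2 ⟨z, rfl⟩, map_zero]
      rfl
  · intro x
    obtain ⟨f, hf⟩ := cv_surj (A := Unit) (fun _ => x)
    have hx : x = cv Unit f () := by rw [hf]
    constructor
    · intro h
      rw [hx, aug_cv] at h
      obtain ⟨y, hy⟩ := (h3 f).1 h
      refine ⟨eL (cv L y), ?_⟩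
      change d1 (eL.symm (eL (cv L y))) = x
      rw [LinearEquiv.symm_apply_apply, e1, hy, ← hx]
    · rintro ⟨y, hy⟩
      obtain ⟨z, hz⟩ := cv_surj (eL.symm y)
      have hy' : d1 (eL.symm y) = x := hy
      rw [← hz, e1] at hy'
      rw [← hy', aug_cv]
      exact ag_P1 π z

end Conv

end Vale.Agent.P172
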