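import Vale.Agent.P172.Sys
import Vale.Agent.P172.Fox

/-!
# P172, route DIM, block D4: the group `Gr W` is a retract of the group of the machine
-/

namespace Vale.Agent.P172

open Vale.Agent.P201.S Vale.Agent.P201.S.TF

section Gen

variable {N : ℕ} {W : Finset (List (Al (N + 1)))} (hG : ∀ w ∈ W, Good w)

/-- the `x`-letter as element of the free group of the machine -/
def lx (r : Fin (N + 1) ⊕ Fin (N + 1)) : FreeGroup (Let (sysW W hG)) :=
  FreeGroup.of (Let.x (S := sysW W hG) r)

/-- the `y`-letter as element of the free group of the machine -/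
def ly (c : Cell W) : FreeGroup (Let (sysW W hG)) := FreeGroup.of (Let.y (S := sysW W hG) c)

/-- `x_r ↦ x_0⁻¹ x_r` -/
noncomputable def Tht : FreeGroup (Fin (N + 1) ⊕ Fin (N + 1)) →* FreeGroup (Let (sysW W hG)) :=
  FreeGroup.lift fun r => (lx hG (Sum.inl 0))⁻¹ * lx hG r

theorem tht_of (r : Fin (N + 1) ⊕ Fin (N + 1)) :
    Tht hG (FreeGroup.of r) = (lx hG (Sum.inl 0))⁻¹ * lx hG r := by
  unfold Tht
  rw [FreeGroup.lift_apply_of]

/-- the outgoing port of a cell -/
def Cell.pt (c : Cell W) : Cell W × Bool := (c, c.lt.2)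

/-- the other port of a cell -/
def Cell.pt' (c : Cell W) : Cell W × Bool := (c, !c.lt.2)

theorem gf_eq (c : Cell W) : gf c.lt =
    (FreeGroup.of (prc c.pt))⁻¹ * FreeGroup.of (prc c.pt') := by
  unfold gf prc Cell.pt Cell.pt'
  cases h : c.lt.2 <;> simp

theorem tht_gf (c : Cell W) : Tht hG (gf c.lt) = (lx hG (prc c.pt))⁻¹ * lx hG (prc c.pt') := by
  rw [gf_eq, map_mul, map_inv, tht_of, tht_of]
  group

theorem val_half (q : Cell W × Bool) : val (half (S := sysW W hG) q) =
    lx hG (prc q) * ly hG (pblk q) := rfl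

theorem pblk_pt (c : Cell W) : pblk c.pt = c := by
  unfold pblk Cell.pt
  simp

theorem pblk_pt' (c : Cell W) : pblk c.pt' = c.nx := by
  unfold pblk Cell.pt'
  simp

theorem val_relw_pt (c : Cell W) : val (relw (S := sysW W hG) 1 c.pt) =
    lx hG (prc c.pt) * ly hG c * (ly hG c.nx)⁻¹ * (lx hG (prc c.pt'))⁻¹ := by
  rw [val_relw]
  have h1 : mt (S := sysW W hG) 1 c.pt = c.pt' := mt_sys hG c.pt
  rw [h1, val_half, val_half, pblk_pt, pblk_pt']
  group

/-- conjugator of the square of the cell `c` in the expression of the word through `c` -/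
def cnj (c₀ c : Cell W) : FreeGroup (Let (sysW W hG)) :=
  ly hG c₀ * (ly hG c)⁻¹ * (lx hG (prc c.pt))⁻¹

/-- the projection to the group of the machine -/
noncomputable abbrev prW : FreeGroup (Let (sysW W hG)) →* Gp (S := sysW W hG) 1 :=
  prj (S := sysW W hG) 1

theorem expr_step (c₀ c : Cell W) : Expr (S := sysW W hG) 1 1
    (ly hG c₀ * (ly hG c)⁻¹ * Tht hG (gf c.lt) * ly hG c.nx * (ly hG c₀)⁻¹)
    (-pch (S := sysW W hG) 1 (prW hG (cnj hG c₀ c)) c.pt) := by
  have h1 := Expr.cons (σ := (1 : Equiv.Perm (sysW W hG).C)) 0 1 0 (cnj hG c₀ c) c.pt Expr.nil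
  have h2 := Expr.inv' _ h1
  rw [mul_one, add_zero, zero_add] at h2
  have h3 : (cnj hG c₀ c * val (relw (S := sysW W hG) 1 c.pt) * (cnj hG c₀ c)⁻¹)⁻¹ =
      ly hG c₀ * (ly hG c)⁻¹ * Tht hG (gf c.lt) * ly hG c.nx * (ly hG c₀)⁻¹ := by
    rw [val_relw_pt, tht_gf]
    unfold cnj
    group
  rw [h3] at h2
  exact h2

/-- the cell of the word `w` at position `m` modulo the length -/
def cel (w : {w // w ∈ W}) (h : 0 < w.1.length) (m : ℕ) : Cell W :=
  ⟨w, ⟨m % w.1.length, Nat.mod_lt _ h⟩⟩

theorem cel_nx (w : {w // w ∈ W}) (h : 0 < w.1.length) (m : ℕ) :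
    (cel w h m).nx = cel w h (m + 1) := by
  unfold cel Cell.nx
  simp only [Nat.mod_add_mod]

theorem cel_lt (w : {w // w ∈ W}) (h : 0 < w.1.length) {m : ℕ} (hm : m < w.1.length) :
    (cel w h m).lt = w.1[m] := by
  unfold cel Cell.lt
  simp only [Nat.mod_eq_of_lt hm]

theorem cel_len (w : {w // w ∈ W}) (h : 0 < w.1.length) : cel w h w.1.length = cel w h 0 := by
  unfold cel
  simp

/-- the chain of a word -/
noncomputable def wch (w : {w // w ∈ W}) (h : 0 < w.1.length) (m : ℕ) : Chn (S := sysW W hG) 1 :=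
  ∑ p ∈ Finset.range m, -pch (S := sysW W hG) 1 (prW hG (cnj hG (cel w h 0) (cel w h p)))
    (cel w h p).pt

theorem expr_word (w : {w // w ∈ W}) (h : 0 < w.1.length) : ∀ m ≤ w.1.length,
    Expr (S := sysW W hG) 1 m (Tht hG ((w.1.take m).map gf).prod * ly hG (cel w h m) *
      (ly hG (cel w h 0))⁻¹) (wch hG w h m) := by
  intro m
  induction m with
  | zero =>
    intro _
    simp only [List.take_zero, List.map_nil, List.prod_nil, map_one, one_mul, mul_inv_cancel, wch,
      Finset.range_zero, Finset.sum_empty]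
    exact Expr.nil
  | succ m ih =>
    intro hm
    have h1 := Expr.mul' _ (ih (by omega)) (expr_step hG (cel w h 0) (cel w h m))
    have h2 : w.1.take (m + 1) = w.1.take m ++ [w.1[m]'(by omega)] := by
      rw [List.take_succ_eq_append_getElem (by omega)]
    have h3 : Tht hG ((w.1.take (m + 1)).map gf).prod * ly hG (cel w h (m + 1)) *
        (ly hG (cel w h 0))⁻¹ = Tht hG ((w.1.take m).map gf).prod * ly hG (cel w h m) *
      (ly hG (cel w h 0))⁻¹ * (ly hG (cel w h 0) * (ly hG (cel w h m))⁻¹ *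
        Tht hG (gf (cel w h m).lt) * ly hG (cel w h m).nx * (ly hG (cel w h 0))⁻¹) := by
      rw [cel_nx, cel_lt w h (by omega), h2, List.map_append, List.prod_append, map_mul]
      simp only [List.map_cons, List.map_nil, List.prod_cons, List.prod_nil, mul_one]
      group
    have h4 : wch hG w h (m + 1) = wch hG w h m + -pch (S := sysW W hG) 1
        (prW hG (cnj hG (cel w h 0) (cel w h m))) (cel w h m).pt := by
      unfold wch
      rw [Finset.sum_range_succ]
    rw [h3, h4]
    exact h1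

theorem expr_full (w : {w // w ∈ W}) (h : 0 < w.1.length) : Expr (S := sysW W hG) 1 w.1.length
    (Tht hG (w.1.map gf).prod) (wch hG w h w.1.length) := by
  have h1 := expr_word hG w h w.1.length le_rfl
  rw [List.take_length, cel_len, mul_inv_cancel_right] at h1
  exact h1

theorem prj_expr {S : Sys} {σ : Equiv.Perm S.C} {k : ℕ} {u : FreeGroup (Let S)} {z : Chn σ}
    (h : Expr σ k u z) : prj σ u = 1 := by
  induction h with
  | nil => exact map_one _
  | cons k u z v q _ ih => rw [map_mul, map_mul, map_mul, prj_rel, ih, map_inv, mul_one,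
      mul_one, mul_inv_cancel]

/-- the embedding `x_r ↦ x_0⁻¹ x_r` -/
noncomputable def emb (hW : ∀ w ∈ W, 0 < w.length) : Gr W →* Gp (S := sysW W hG) 1 :=
  PresentedGroup.toGroup (f := fun r => prW hG ((lx hG (Sum.inl 0))⁻¹ * lx hG r)) (by
    have h0 : FreeGroup.lift (fun r => prW hG ((lx hG (Sum.inl 0))⁻¹ * lx hG r)) =
        (prW hG).comp (Tht hG) := by
      ext r
      rw [FreeGroup.lift_apply_of, MonoidHom.comp_apply, tht_of]
    intro r hr
    rw [h0, MonoidHom.comp_apply]
    rcases hr with hr | ⟨w, hw, rfl⟩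
    · rw [Set.mem_singleton_iff] at hr
      rw [hr, tht_of, inv_mul_cancel, map_one]
    · exact prj_expr (expr_full hG ⟨w, hw⟩ (hW w hw)))

theorem emb_mk (hW : ∀ w ∈ W, 0 < w.length) (u : FreeGroup (Fin (N + 1) ⊕ Fin (N + 1))) :
    emb hG hW (PresentedGroup.mk (rl W) u) = prW hG (Tht hG u) := by
  have h0 : (emb hG hW).comp (PresentedGroup.mk (rl W)) = (prW hG).comp (Tht hG) := by
    ext r
    rw [MonoidHom.comp_apply, MonoidHom.comp_apply, tht_of]
    exact PresentedGroup.toGroup.of _
  exact DFunLike.congr_fun h0 u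

/-- value of the prefix of the word before the cell -/
def pfx (c : Cell W) : Gr W := PresentedGroup.mk (rl W) ((c.1.1.take c.2.1).map gf).prod

theorem pfx_nx (c : Cell W) : pfx c.nx = pfx c * PresentedGroup.mk (rl W) (gf c.lt) := by
  obtain ⟨w, p⟩ := c
  have h2 : w.1.take (p.1 + 1) = w.1.take p.1 ++ [w.1[p.1]] := by
    rw [List.take_succ_eq_append_getElem p.2]
  have h3 : PresentedGroup.mk (rl W) ((w.1.take (p.1 + 1)).map gf).prod =
      PresentedGroup.mk (rl W) ((w.1.take p.1).map gf).prod *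
        PresentedGroup.mk (rl W) (gf w.1[p.1]) := by
    rw [h2, List.map_append, List.prod_append, map_mul]
    simp only [List.map_cons, List.map_nil, List.prod_cons, List.prod_nil, mul_one]
  unfold pfx Cell.nx Cell.lt
  simp only
  rcases Nat.lt_or_ge (p.1 + 1) w.1.length with h | h
  · rw [Nat.mod_eq_of_lt h]
    exact h3
  · have h4 : p.1 + 1 = w.1.length := by
      have := p.2
      omega
    rw [h4, Nat.mod_self, ← h3, h4, List.take_length, List.take_zero, List.map_nil, List.prod_nil,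
      map_one]
    exact (PresentedGroup.one_of_mem (Or.inr ⟨w.1, w.2, rfl⟩)).symm

/-- the retraction -/
def retF : Let (sysW W hG) → Gr W
  | Let.t => 1
  | Let.x r => PresentedGroup.of r
  | Let.y c => (pfx c)⁻¹

theorem ret_rel (q : Cell W × Bool) :
    FreeGroup.lift (retF hG) (val (relw (S := sysW W hG) 1 q)) = 1 := by
  have h1 : ∀ c : Cell W, FreeGroup.lift (retF hG) (val (relw (S := sysW W hG) 1 c.pt)) = 1 := by
    intro c
    rw [val_relw_pt, map_mul, map_mul, map_mul, map_inv, map_inv]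
    unfold lx ly
    rw [FreeGroup.lift_apply_of, FreeGroup.lift_apply_of, FreeGroup.lift_apply_of,
      FreeGroup.lift_apply_of]
    unfold retF
    simp only
    rw [pfx_nx, gf_eq, map_mul, map_inv]
    change PresentedGroup.of _ * (pfx c)⁻¹ * (pfx c * ((PresentedGroup.of _)⁻¹ *
      PresentedGroup.of _))⁻¹⁻¹ * (PresentedGroup.of _)⁻¹ = 1
    group
  by_cases hq : q = q.1.pt
  · rw [hq]
    exact h1 q.1
  · have h2 : q = mt (S := sysW W hG) 1 q.1.pt := by
      rw [mt_sys]
      obtain ⟨c, b⟩ := q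
      refine Prod.ext rfl ?_
      change b = !c.lt.2
      rw [Bool.eq_not_iff]
      intro h3
      exact hq (Prod.ext rfl h3)
    rw [h2, val_relw_mt, map_inv, h1, inv_one]

/-- the retraction of the machine group onto `Gr W` -/
noncomputable def ret : Gp (S := sysW W hG) 1 →* Gr W :=
  PresentedGroup.toGroup (f := retF hG) (by
    rintro _ ⟨q, rfl⟩
    exact ret_rel hG q)

theorem ret_emb (hW : ∀ w ∈ W, 0 < w.length) (g : Gr W) : ret hG (emb hG hW g) = g := by
  have h0 : ((ret hG).comp (emb hG hW)) = MonoidHom.id (Gr W) := by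
    refine PresentedGroup.ext fun r => ?_
    rw [MonoidHom.comp_apply, MonoidHom.id_apply]
    have h1 : emb hG hW (PresentedGroup.of r) = prW hG (Tht hG (FreeGroup.of r)) :=
      emb_mk hG hW (FreeGroup.of r)
    rw [h1, tht_of, map_mul, map_mul, map_inv, map_inv]
    have h2 : ∀ r, ret hG (prW hG (lx hG r)) = PresentedGroup.of r := fun r =>
      PresentedGroup.toGroup.of _
    rw [h2, h2]
    have h3 : (PresentedGroup.of (Sum.inl 0) : Gr W) = 1 :=
      PresentedGroup.one_of_mem (Or.inl rfl)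
    rw [h3, inv_one, one_mul]
  exact DFunLike.congr_fun h0 g

theorem emb_inj (hW : ∀ w ∈ W, 0 < w.length) : Function.Injective (emb hG hW) :=
  Function.LeftInverse.injective (ret_emb hG hW)

/-- torsion-freeness of `Gr W` -/
theorem gr_torsion_free (hW : ∀ w ∈ W, 0 < w.length)
    (has : ∀ k z, Expr (S := sysW W hG) 1 k 1 z → z = 0) :
    ∀ h : Gr W, ∀ m : ℕ, 0 < m → h ^ m = 1 → h = 1 := by
  intro h m hm h1
  apply emb_inj hG hW
  rw [map_one]
  refine torsion_free (S := sysW W hG) 1 has (emb hG hW h) m hm ?_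
  rw [← map_pow, h1, map_one]

end Gen

end Vale.Agent.P172
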