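import Vale.Agent.P172.Emb

/-!
# P172, route DIM, block D4/D5: the presentation of `Gr W` is aspherical
-/

namespace Vale.Agent.P172

open Vale.Agent.P201.S Vale.Agent.P201.S.TF

section Gen

variable {N : ℕ} {W : Finset (List (Al (N + 1)))} (hG : ∀ w ∈ W, Good w)

theorem gr_of_ne (hW : ∀ w ∈ W, 0 < w.length) {Y : ℕ}
    (hinj : ∀ l : List (Let (sysW W hG) × Bool), (∀ a ∈ l, ∀ j, a.1 ≠ Let.y j) → wtw Y l ≤ 2 →
      PresentedGroup.mk (rels (S := sysW W hG) 1) (val l) = 1 → val l = 1) (r : Fin (N + 1)) :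
    (PresentedGroup.of (Sum.inr r) : Gr W) ≠ 1 := by
  intro h
  have h1 : prW hG (Tht hG (FreeGroup.of (Sum.inr r))) = 1 := by
    rw [← emb_mk hG hW]
    have : PresentedGroup.mk (rl W) (FreeGroup.of (Sum.inr r)) = 1 := h
    rw [this, map_one]
  rw [tht_of] at h1
  let l : List (Let (sysW W hG) × Bool) :=
    [(Let.x (S := sysW W hG) (Sum.inl 0), false), (Let.x (S := sysW W hG) (Sum.inr r), true)]
  have hl : val l = (lx hG (Sum.inl 0))⁻¹ * lx hG (Sum.inr r) := rfl
  have h2 : val l = 1 := by
    refine hinj l ?_ ?_ ?_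
    · intro a ha j
      simp only [l, List.mem_cons, List.not_mem_nil, or_false] at ha
      rcases ha with rfl | rfl <;> simp
    · simp [l, wtw, wtl]
    · rw [hl]
      exact h1
  rw [hl, inv_mul_eq_one] at h2
  have h3 := FreeGroup.of_injective h2
  simp at h3

/-- the relators of `Gr W` -/
def rel0 (W : Finset (List (Al (N + 1)))) : Option {w // w ∈ W} →
    FreeGroup (Fin (N + 1) ⊕ Fin (N + 1))
  | none => FreeGroup.of (Sum.inl 0)
  | some w => (w.1.map gf).prod

theorem range_rel0 : Set.range (rel0 W) = rl W := by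
  ext x
  constructor
  · rintro ⟨o, rfl⟩
    rcases o with _ | w
    · exact Or.inl rfl
    · exact Or.inr ⟨w.1, w.2, rfl⟩
  · rintro (h | ⟨w, hw, rfl⟩)
    · exact ⟨none, h.symm⟩
    · exact ⟨some ⟨w, hw⟩, rfl⟩

/-- the chain map from the presentation of `Gr W` to the machine -/
noncomputable def chm (hW : ∀ w ∈ W, 0 < w.length) :
    ((Gr W × Option {w // w ∈ W}) →₀ ℤ) →+ Chn (S := sysW W hG) 1 :=
  Finsupp.liftAddHom fun x => zmultiplesHom _ (match x.2 with
    | none => 0
    | some w => sm (emb hG hW x.1) (wch hG w (hW w.1 w.2) w.1.length))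

theorem chm_none (hW : ∀ w ∈ W, 0 < w.length) (g : Gr W) (m : ℤ) :
    chm hG hW (Finsupp.single (g, none) m) = 0 := by
  simp [chm]

theorem chm_some (hW : ∀ w ∈ W, 0 < w.length) (g : Gr W) (w : {w // w ∈ W}) (m : ℤ) :
    chm hG hW (Finsupp.single (g, some w) m) =
      m • sm (emb hG hW g) (wch hG w (hW w.1 w.2) w.1.length) := by
  simp [chm]

/-- `Gam` of the presentation of `Gr W` maps to expressions of the machine -/
theorem gam_expr (hW : ∀ w ∈ W, 0 < w.length)
    {x : FreeGroup (Fin (N + 1) ⊕ Fin (N + 1)) × Multiplicative ((Gr W × Option {w // w ∈ W}) →₀ ℤ)}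
    (hx : x ∈ Gam (PresentedGroup.mk (rl W)) (rel0 W)) :
    ∃ k, Expr (S := sysW W hG) 1 k (Tht hG x.1) (chm hG hW (Multiplicative.toAdd x.2)) := by
  unfold Gam at hx
  induction hx using Subgroup.closure_induction with
  | mem x hx =>
    obtain ⟨⟨v, o⟩, rfl⟩ := hx
    simp only [toAdd_ofAdd, map_mul, map_inv]
    rcases o with _ | w
    · refine ⟨0, ?_⟩
      have h1 : Tht hG (rel0 W none) = 1 := by
        unfold rel0
        rw [tht_of, inv_mul_cancel]
      rw [h1, mul_one, mul_inv_cancel, chm_none]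
      exact Expr.nil
    · refine ⟨w.1.length, ?_⟩
      have h1 := Expr.conj' _ (expr_full hG w (hW w.1 w.2)) (Tht hG v)
      have h2 : prj (S := sysW W hG) 1 (Tht hG v) =
          emb hG hW (PresentedGroup.mk (rl W) v) := (emb_mk hG hW v).symm
      rw [h2] at h1
      rw [chm_some, one_smul]
      exact h1
  | one =>
    refine ⟨0, ?_⟩
    simp only [Prod.fst_one, Prod.snd_one, map_one, toAdd_one, map_zero]
    exact Expr.nil
  | mul x y _ _ hx hy =>
    obtain ⟨k, hk⟩ := hx
    obtain ⟨k', hk'⟩ := hy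
    refine ⟨k + k', ?_⟩
    rw [Prod.fst_mul, Prod.snd_mul, toAdd_mul, map_mul, map_add]
    exact Expr.mul' _ hk hk'
  | inv x _ hx =>
    obtain ⟨k, hk⟩ := hx
    refine ⟨k, ?_⟩
    rw [Prod.fst_inv, Prod.snd_inv, toAdd_inv, map_inv, map_neg]
    exact Expr.inv' _ hk

theorem pch_apply_ne (g : Gp (S := sysW W hG) 1) (c c' : Cell W) (h : Gp (S := sysW W hG) 1)
    (hne : c ≠ c') : (pch (S := sysW W hG) 1 g c.pt) (h, c') = 0 := by
  unfold pch Cell.pt
  simp only
  split_ifs
  · rw [Finsupp.single_eq_of_ne']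
    exact fun h' => hne (congrArg Prod.snd h')
  · rw [Finsupp.single_eq_of_ne']
    exact fun h' => hne (congrArg Prod.snd h')

theorem pch_apply_ne' (g : Gp (S := sysW W hG) 1) (c c' : Cell W) (h : Gp (S := sysW W hG) 1)
    (hne : g ≠ h) : (pch (S := sysW W hG) 1 g c.pt) (h, c') = 0 := by
  unfold pch Cell.pt
  simp only
  split_ifs
  · rw [Finsupp.single_eq_of_ne']
    exact fun h' => hne (congrArg Prod.fst h')
  · rw [Finsupp.single_eq_of_ne']
    exact fun h' => hne (congrArg Prod.fst h')

/-- sign of the outgoing port -/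
def sg (c : Cell W) : ℤ := if c.lt.2 then 1 else -1

theorem pch_apply_self (g : Gp (S := sysW W hG) 1) (c : Cell W) :
    (pch (S := sysW W hG) 1 g c.pt) (g, c) = sg c := by
  unfold pch Cell.pt sg
  simp only
  split_ifs
  · exact Finsupp.single_eq_same
  · exact Finsupp.single_eq_same

theorem sm_wch (g : Gp (S := sysW W hG) 1) (w : {w // w ∈ W}) (h : 0 < w.1.length) (m : ℕ) :
    sm g (wch hG w h m) = ∑ p ∈ Finset.range m, -pch (S := sysW W hG) 1
      (g * prW hG (cnj hG (cel w h 0) (cel w h p))) (cel w h p).pt := by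
  unfold wch
  rw [map_sum]
  refine Finset.sum_congr rfl fun p _ => ?_
  rw [map_neg]
  exact congrArg Neg.neg (sm_pch (S := sysW W hG) 1 _ _ _)

/-- the coefficients of a chain are seen by the chain map -/
theorem chm_apply (hW : ∀ w ∈ W, 0 < w.length) (z : (Gr W × Option {w // w ∈ W}) →₀ ℤ) (g : Gr W)
    (w : {w // w ∈ W}) : (chm hG hW z) (emb hG hW g *
      prW hG (cnj hG (cel w (hW w.1 w.2) 0) (cel w (hW w.1 w.2) 0)), cel w (hW w.1 w.2) 0) =
        -sg (cel w (hW w.1 w.2) 0) * z (g, some w) := by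
  induction z using Finsupp.induction_linear with
  | zero => simp
  | add f f' hf hf' =>
    rw [map_add, Finsupp.add_apply, hf, hf', Finsupp.add_apply, mul_add]
  | single x m =>
    obtain ⟨g', o⟩ := x
    rcases o with _ | w'
    · rw [chm_none, Finsupp.single_eq_of_ne' (by simp)]
      simp
    · rw [chm_some, sm_wch, Finsupp.smul_apply, Finsupp.finsetSum_apply]
      by_cases hw : w' = w
      · subst hw
        rw [Finset.sum_eq_single 0]
        · by_cases hgg : g' = g
          · subst hgg
            rw [Finsupp.neg_apply, pch_apply_self, Finsupp.single_eq_same, smul_eq_mul]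
            ring
          · rw [Finsupp.neg_apply, pch_apply_ne', Finsupp.single_eq_of_ne']
            · simp
            · exact fun h' => hgg (congrArg Prod.fst h')
            · exact fun h' => hgg (emb_inj hG hW (mul_right_cancel h'))
        · intro p hp hp0
          rw [Finsupp.neg_apply, pch_apply_ne, neg_zero]
          intro h'
          have h1 : (cel w' (hW w'.1 w'.2) p).2.1 = (cel w' (hW w'.1 w'.2) 0).2.1 := by rw [h']
          unfold cel at h1
          simp only [Nat.mod_eq_of_lt (Finset.mem_range.1 hp), Nat.zero_mod] at h1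
          exact hp0 h1
        · intro h'
          exact absurd (Finset.mem_range.2 (hW w'.1 w'.2)) h'
      · rw [Finset.sum_eq_zero, Finsupp.single_eq_of_ne']
        · simp
        · intro h'
          have h1 := congrArg Prod.snd h'
          exact hw (Option.some_injective _ h1)
        · intro p _
          rw [Finsupp.neg_apply, pch_apply_ne, neg_zero]
          intro h'
          exact hw (congrArg Sigma.fst h')

/-- the presentation of `Gr W` is aspherical -/
theorem asph_gr (hW : ∀ w ∈ W, 0 < w.length)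
    (has : ∀ k z, Expr (S := sysW W hG) 1 k 1 z → z = 0) :
    Asph (PresentedGroup.mk (rl W)) (rel0 W) := by
  intro z hz
  have hrel : ∀ o, PresentedGroup.mk (rl W) (rel0 W o) = 1 := by
    intro o
    refine PresentedGroup.one_of_mem ?_
    rw [← range_rel0]
    exact ⟨o, rfl⟩
  obtain ⟨k, hk⟩ := gam_expr hG hW hz
  rw [map_one] at hk
  have h0 := has _ _ hk
  simp only [toAdd_ofAdd] at h0
  have hsome : ∀ g w, z (g, some w) = 0 := by
    intro g w
    have h1 := chm_apply hG hW z g w
    rw [h0, Finsupp.zero_apply] at h1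
    have h2 : sg (cel w (hW w.1 w.2) 0) ≠ 0 := by
      unfold sg
      split_ifs <;> norm_num
    rcases mul_eq_zero.1 h1.symm with h3 | h3
    · exact absurd (neg_eq_zero.1 h3) h2
    · exact h3
  obtain ⟨-, hD⟩ := gam_D hrel hz
  simp only [toAdd_ofAdd] at hD
  rw [D_one] at hD
  -- the chain is supported on the relator `x_0`
  have key : ∀ f : (Gr W × Option {w // w ∈ W}) →₀ ℤ, (∀ g w, f (g, some w) = 0) → ∀ g,
      bdy (PresentedGroup.mk (rl W)) (rel0 W) f (g, Sum.inl 0) = f (g, none) := by
    intro f hf g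
    have h1 : f = f.sum Finsupp.single := (Finsupp.sum_single f).symm
    have h2 : bdy (PresentedGroup.mk (rl W)) (rel0 W) f = f.sum fun x m =>
        bdy (PresentedGroup.mk (rl W)) (rel0 W) (Finsupp.single x m) := by
      conv_lhs => rw [h1]
      rw [map_finsuppSum]
    rw [h2, Finsupp.sum, Finsupp.finsetSum_apply]
    classical
    have h3 : ∀ x ∈ f.support, (bdy (PresentedGroup.mk (rl W)) (rel0 W)
        (Finsupp.single x (f x))) (g, Sum.inl 0) = if x = (g, none) then f x else 0 := by
      intro x hx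
      obtain ⟨g', o⟩ := x
      rcases o with _ | w
      · rw [bdy_single]
        have h4 : rel0 W none = FreeGroup.of (Sum.inl 0) := rfl
        rw [h4, D_of, sm_single, mul_one, Finsupp.smul_single, smul_eq_mul, mul_one]
        by_cases hgg : g' = g
        · subst hgg
          rw [Finsupp.single_eq_same, if_pos rfl]
        · rw [Finsupp.single_eq_of_ne', if_neg]
          · exact fun h' => hgg (congrArg Prod.fst h')
          · exact fun h' => hgg (congrArg Prod.fst h')
      · exact absurd (hf g' w) (Finsupp.mem_support_iff.1 hx)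
    rw [Finset.sum_congr rfl h3]
    rw [Finset.sum_eq_single (g, none)]
    · rw [if_pos rfl]
    · intro x _ hx
      rw [if_neg hx]
    · intro h5
      rw [if_pos rfl]
      exact Finsupp.notMem_support_iff.1 h5
  ext ⟨g, o⟩
  rcases o with _ | w
  · rw [← key z hsome g, ← hD]
    rfl
  · exact hsome g w

/-- free resolution of length two -/
theorem hasFreeRes2_gr (hW : ∀ w ∈ W, 0 < w.length)
    (has : ∀ k z, Expr (S := sysW W hG) 1 k 1 z → z = 0) : HasFreeRes2 (Gr W) := by
  refine hasFreeRes2_of_asph (π := PresentedGroup.mk (rl W)) (rel := rel0 W)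
    (PresentedGroup.mk_surjective (rl W)) ?_ (asph_gr hG hW has)
  rw [range_rel0]
  exact QuotientGroup.ker_mk' _

end Gen

end Vale.Agent.P172
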