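import Vale.Agent.P172.Iface

/-!
# P172, route DIM, block C: a fixed point from growth of two-point energies
-/

namespace Vale.Agent.P172

universe u

section Words

variable {A G : Type} [Group G]

lemma wval_eq (g : A → G) {k : ℕ} (w : Fin k → A) : wval g w = ((List.ofFn w).map g).prod := by
  unfold wval
  rw [List.map_ofFn]
  rfl

lemma wval_append (g : A → G) {k m : ℕ} (v : Fin k → A) (w : Fin m → A) :
    wval g (Fin.append v w) = wval g v * wval g w := by
  rw [wval_eq, wval_eq, wval_eq, List.ofFn_fin_append, List.map_append, List.prod_append]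

lemma exists_wval (g : A → G) (l : List A) : ∃ w : Fin l.length → A, wval g w = (l.map g).prod :=
  ⟨l.get, by rw [wval_eq, List.ofFn_get]⟩

lemma exists_wval' (g : A → G) (l : List A) (k : ℕ) (h : l.length = k) :
    ∃ w : Fin k → A, wval g w = (l.map g).prod := by
  subst h
  exact exists_wval g l

/-- the inverse word -/
def winv (inv : A → A) {k : ℕ} (w : Fin k → A) : Fin k → A := fun i => inv (w (Fin.rev i))

lemma winv_winv {inv : A → A} (h : ∀ a, inv (inv a) = a) {k : ℕ} (w : Fin k → A) :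
    winv inv (winv inv w) = w := by
  funext i
  simp [winv, h]

lemma wval_winv {g : A → G} {inv : A → A} (h : ∀ a, g (inv a) = (g a)⁻¹) {k : ℕ}
    (w : Fin k → A) : wval g (winv inv w) = (wval g w)⁻¹ := by
  rw [wval_eq, wval_eq, List.prod_inv_reverse, List.map_map]
  congr 1
  apply List.ext_getElem
  · simp
  · intro n h1 h2
    simp only [List.getElem_map, List.getElem_ofFn, List.getElem_reverse, List.length_map,
      List.length_ofFn, Function.comp, winv, h]
    congr 3
    apply Fin.ext
    simp [Fin.rev]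
    omega

end Words

section

variable {A G : Type} [Group G] [Fintype A] (g : A → G) {X : Type u} [MetricSpace X]
  [MulAction G X]

lemma th_nonneg (k : ℕ) (p q : X) : 0 ≤ Th g k p q := by
  unfold Th
  positivity

lemma card_pow_pos [Nonempty A] (k : ℕ) : (0 : ℝ) < (Fintype.card A : ℝ) ^ k := by
  have : 0 < Fintype.card A := Fintype.card_pos
  positivity

lemma dist_sq_le_th [Nonempty A] (k : ℕ) (p q : X) (w : Fin k → A) :
    dist p (wval g w • q) ^ 2 ≤ (Fintype.card A : ℝ) ^ k * Th g k p q := by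
  unfold Th
  rw [mul_div_cancel₀ _ (card_pow_pos k).ne']
  exact Finset.single_le_sum (f := fun w : Fin k → A => dist p (wval g w • q) ^ 2)
    (fun _ _ => by positivity) (Finset.mem_univ w)

lemma sum_const_words [Nonempty A] (k : ℕ) (c : ℝ) :
    ∑ _w : Fin k → A, c = c * (Fintype.card A : ℝ) ^ k := by
  rw [Finset.sum_const, Finset.card_univ, Fintype.card_fun, Fintype.card_fin, nsmul_eq_mul]
  push_cast
  ring

lemma le_th_of [Nonempty A] {k : ℕ} {p q : X} {c : ℝ}
    (h : ∀ w : Fin k → A, c ≤ dist p (wval g w • q) ^ 2) : c ≤ Th g k p q := by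
  unfold Th
  rw [le_div_iff₀ (card_pow_pos k), ← sum_const_words]
  exact Finset.sum_le_sum fun w _ => h w

lemma th_add [IsIsometricSMul G X] (k m : ℕ) (p q : X) :
    Th g (k + m) p q =
      (∑ v : Fin k → A, Th g m ((wval g v)⁻¹ • p) q) / (Fintype.card A : ℝ) ^ k := by
  unfold Th
  rw [← Finset.sum_div, div_div, ← pow_add, add_comm m k]
  congr 1
  rw [← (Fin.appendEquiv k m).sum_comp, Fintype.sum_prod_type]
  refine Finset.sum_congr rfl fun v _ => Finset.sum_congr rfl fun w _ => ?_
  have : (Fin.appendEquiv k m) (v, w) = Fin.append v w := rfl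
  rw [this, wval_append, mul_smul, ← dist_smul (wval g v) ((wval g v)⁻¹ • p), smul_inv_smul]

lemma le_th_add [Nonempty A] [IsIsometricSMul G X] {k m : ℕ} {p q : X} {c : ℝ}
    (h : ∀ x, c ≤ Th g m x q) : c ≤ Th g (k + m) p q := by
  rw [th_add, le_div_iff₀ (card_pow_pos k), ← sum_const_words]
  exact Finset.sum_le_sum fun w _ => h _

lemma th_double_le [Nonempty A] [IsIsometricSMul G X] {inv : A → A} (h2 : ∀ a, inv (inv a) = a)
    (hg : ∀ a, g (inv a) = (g a)⁻¹) (k : ℕ) (x q : X) :
    Th g (k + k) q q ≤ 4 * Th g k x q := by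
  have hc := card_pow_pos (A := A) k
  rw [th_add, div_le_iff₀ hc]
  have key : ∀ v : Fin k → A, Th g k ((wval g v)⁻¹ • q) q ≤
      2 * dist x (wval g (winv inv v) • q) ^ 2 + 2 * Th g k x q := by
    intro v
    rw [wval_winv hg]
    set y := (wval g v)⁻¹ • q
    unfold Th
    rw [div_le_iff₀ hc, add_mul, mul_assoc 2 (_ / _), div_mul_cancel₀ _ hc.ne', ← sum_const_words,
      Finset.mul_sum, ← Finset.sum_add_distrib]
    refine Finset.sum_le_sum fun w _ => ?_
    have h := dist_triangle y x (wval g w • q)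
    have h0 : 0 ≤ dist y (wval g w • q) := dist_nonneg
    rw [dist_comm y x] at h
    nlinarith [sq_nonneg (dist x y - dist x (wval g w • q))]
  calc ∑ v : Fin k → A, Th g k ((wval g v)⁻¹ • q) q
      ≤ ∑ v : Fin k → A, (2 * dist x (wval g (winv inv v) • q) ^ 2 + 2 * Th g k x q) :=
        Finset.sum_le_sum fun v _ => key v
    _ = 2 * (∑ v : Fin k → A, dist x (wval g (winv inv v) • q) ^ 2) +
          2 * Th g k x q * (Fintype.card A : ℝ) ^ k := by
        rw [Finset.sum_add_distrib, sum_const_words, Finset.mul_sum]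
    _ = 2 * (∑ v : Fin k → A, dist x (wval g v • q) ^ 2) +
          2 * Th g k x q * (Fintype.card A : ℝ) ^ k := by
        congr 2
        let e : (Fin k → A) ≃ (Fin k → A) := ⟨winv inv, winv inv, winv_winv h2, winv_winv h2⟩
        exact e.sum_comp (fun v => dist x (wval g v • q) ^ 2)
    _ = 4 * Th g k x q * (Fintype.card A : ℝ) ^ k := by
        have : ∑ v : Fin k → A, dist x (wval g v • q) ^ 2 =
            Th g k x q * (Fintype.card A : ℝ) ^ k := by
          unfold Th
          rw [div_mul_cancel₀ _ hc.ne']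
        rw [this]
        ring

lemma continuous_th [IsIsometricSMul G X] (k : ℕ) : Continuous fun q : X => Th g k q q := by
  unfold Th
  refine Continuous.div_const ?_ _
  refine continuous_finsetSum _ fun w _ => ?_
  exact (continuous_id.dist ((isometry_smul X (wval g w)).continuous)).pow 2

end

section Disp

variable {A G : Type} [Group G] [Fintype A] (g : A → G) {X : Type u} [MetricSpace X]
  [MulAction G X] [IsIsometricSMul G X]

omit [Fintype A] in
lemma dist_pair_le [Nonempty A] {inv : A → A} (hg : ∀ a, g (inv a) = (g a)⁻¹) {m : ℕ} {q : X}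
    {D : ℝ} (hD : ∀ w : Fin (m + 2) → A, dist q (wval g w • q) ≤ D) (a b : A) :
    dist q ((g a * g b) • q) ≤ 2 * D := by
  obtain ⟨c⟩ := ‹Nonempty A›
  obtain ⟨w1, h1⟩ := exists_wval' g (a :: b :: List.replicate m c) (m + 2) (by simp)
  obtain ⟨w2, h2⟩ := exists_wval' g (c :: inv c :: List.replicate m c) (m + 2) (by simp)
  have e1 := hD w1
  have e2 := hD w2
  rw [h1] at e1
  rw [h2] at e2
  simp only [List.map_cons, List.prod_cons, hg, mul_inv_cancel_left] at e1 e2
  set S := (List.map g (List.replicate m c)).prod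
  rw [← mul_assoc, mul_smul] at e1
  have e3 : dist ((g a * g b) • S • q) ((g a * g b) • q) = dist q (S • q) := by
    rw [dist_smul, dist_comm]
  have := dist_triangle q ((g a * g b) • S • q) ((g a * g b) • q)
  linarith

omit [Fintype A] in
lemma dist_even_le {q : X} {D : ℝ} (hD : ∀ a b : A, dist q ((g a * g b) • q) ≤ D) :
    ∀ (m : ℕ) (l : List A), l.length = 2 * m → dist q ((l.map g).prod • q) ≤ m * D
  | 0, l, h => by
    have : l = [] := List.length_eq_zero_iff.1 (by omega)
    subst this
    simp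
  | m + 1, a :: b :: l, h => by
    have h' : l.length = 2 * m := by
      simp only [List.length_cons] at h
      omega
    have ih := dist_even_le hD m l h'
    simp only [List.map_cons, List.prod_cons]
    rw [← mul_assoc, mul_smul]
    have e3 := dist_smul (g a * g b) q ((l.map g).prod • q)
    have := dist_triangle q ((g a * g b) • q) ((g a * g b) • (l.map g).prod • q)
    have := hD a b
    push_cast
    linarith
  | m + 1, [a], h => by
    simp only [List.length_cons, List.length_nil] at h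
    omega
  | m + 1, [], h => by
    simp only [List.length_nil] at h
    omega

omit [Fintype A] in
lemma dist_word_le {q : X} {D : ℝ} (hD : ∀ a : A, dist q (g a • q) ≤ D) :
    ∀ (l : List A), dist q ((l.map g).prod • q) ≤ l.length * D
  | [] => by simp
  | a :: l => by
    have ih := dist_word_le hD l
    simp only [List.map_cons, List.prod_cons, List.length_cons]
    rw [mul_smul]
    have e3 := dist_smul (g a) q ((l.map g).prod • q)
    have := dist_triangle q (g a • q) (g a • (l.map g).prod • q)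
    have := hD a
    push_cast
    linarith

/-- letters move `q` by at most `C * sqrt (Th g (k + k) q q)` -/
lemma exists_disp [Nonempty A] {inv : A → A} (hg : ∀ a, g (inv a) = (g a)⁻¹)
    (he : ∀ a, ∃ l : List A, Even l.length ∧ (l.map g).prod = g a) {k : ℕ} (hk : 0 < k) :
    ∃ C : ℝ, 0 ≤ C ∧ ∀ (q : X) (a : A), dist q (g a • q) ≤ C * √(Th g (k + k) q q) := by
  choose l hl1 hl2 using he
  refine ⟨2 * (∑ a, ((l a).length : ℝ)) * √((Fintype.card A : ℝ) ^ (k + k)), by positivity, ?_⟩
  intro q a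
  obtain ⟨m, hm⟩ : ∃ m, k + k = m + 2 := ⟨k + k - 2, by omega⟩
  set D := √((Fintype.card A : ℝ) ^ (k + k)) * √(Th g (k + k) q q) with hDdef
  have hD0 : 0 ≤ D := by positivity
  have hD : ∀ w : Fin (k + k) → A, dist q (wval g w • q) ≤ D := by
    intro w
    rw [hDdef, ← Real.sqrt_mul (card_pow_pos (k + k)).le]
    apply Real.le_sqrt_of_sq_le
    exact dist_sq_le_th g (k + k) q q w
  have hD' : ∀ w : Fin (m + 2) → A, dist q (wval g w • q) ≤ D := hm ▸ hD
  have h2 := dist_pair_le g hg hD'
  obtain ⟨r, hr⟩ := hl1 a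
  have h3 := dist_even_le g h2 r (l a) (by omega)
  rw [hl2 a] at h3
  have h4 : (r : ℝ) ≤ ∑ a, ((l a).length : ℝ) := by
    have h5 : ((l a).length : ℝ) ≤ ∑ a, ((l a).length : ℝ) :=
      Finset.single_le_sum (f := fun a => ((l a).length : ℝ)) (fun _ _ => by positivity)
        (Finset.mem_univ a)
    have h6 : (r : ℝ) ≤ ((l a).length : ℝ) := by
      rw [hr]
      push_cast
      linarith [(Nat.cast_nonneg r : (0 : ℝ) ≤ r)]
    linarith
  calc dist q (g a • q) ≤ r * (2 * D) := h3
    _ ≤ (∑ a, ((l a).length : ℝ)) * (2 * D) := by gcongr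
    _ = _ := by rw [hDdef]; ring

end Disp

section Main

variable {A G : Type} [Group G] [Fintype A] (g : A → G) {X : Type u} [MetricSpace X]
  [MulAction G X] [IsIsometricSMul G X]

/-- near every point there is a point of definitely smaller energy -/
lemma exists_smaller [Nonempty A] {inv : A → A} (h2 : ∀ a, inv (inv a) = a)
    (hg : ∀ a, g (inv a) = (g a)⁻¹) {J : ℕ} {k : ℕ → ℕ} {lam : ℝ} (hlam : 1 ≤ lam)
    (hk : ∀ j, k j < k (j + 1)) (hkJ : k J ≤ 2 * k 0)
    (hgr : ∀ j < J, ∀ (p q : X) (r : ℝ), (∀ x, r ≤ Th g (k j) x p) → (∀ x, r ≤ Th g (k j) x q) →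
      lam * r ≤ Th g (k (j + 1)) p q)
    {C : ℝ} (hC : 0 ≤ C) (hCd : ∀ (q : X) (a : A), dist q (g a • q) ≤ C * √(Th g (k 0 + k 0) q q))
    {δ : ℝ} (hδ : 4 < lam ^ J * (1 - δ)) (hδ0 : 0 ≤ δ) (q₀ : X)
    (hpos : 0 < Th g (k 0 + k 0) q₀ q₀) :
    ∃ q : X, dist q q₀ ≤ J * (2 * k 0 * C + lam ^ J) * √(Th g (k 0 + k 0) q₀ q₀) ∧
      Th g (k 0 + k 0) q q ≤ (1 - δ) * Th g (k 0 + k 0) q₀ q₀ := by
  by_contra hcon
  push Not at hcon
  set Φ : X → ℝ := fun q => Th g (k 0 + k 0) q q with hΦ
  set K : ℝ := 2 * k 0 * C + lam ^ J with hK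
  set ρ : ℝ := √(Φ q₀) with hρ
  have hρ0 : 0 < ρ := Real.sqrt_pos.2 hpos
  have hρ2 : ρ ^ 2 = Φ q₀ := Real.sq_sqrt hpos.le
  have hlamJ : 1 ≤ lam ^ J := one_le_pow₀ hlam
  have hK0 : 0 ≤ K := by positivity
  have hδ1 : 0 < 1 - δ := by
    by_contra h
    push Not at h
    nlinarith
  have hmono : ∀ j, j ≤ J → k j ≤ k J := by
    intro j hj
    exact (strictMono_nat_of_lt_succ hk).monotone hj
  have hwd : ∀ (w : List A), dist q₀ ((w.map g).prod • q₀) ≤ w.length * (C * ρ) := fun w =>
    dist_word_le g (hCd q₀) w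
  have claim : ∀ i j : ℕ, j + i = J → ∀ q, dist q q₀ ≤ i * K * ρ →
      ∀ x, lam ^ j * (1 - δ) * ρ ^ 2 / 4 ≤ Th g (k j) x q := by
    intro i j
    induction j generalizing i with
    | zero =>
      intro hij q hq x
      have hiJ : i = J := by omega
      subst hiJ
      have e1 := hcon q hq
      have e2 := th_double_le g h2 hg (k 0) x q
      rw [hρ2]
      simp only [pow_zero, one_mul]
      change (1 - δ) * Φ q₀ < Φ q at e1
      change Φ q ≤ _ at e2
      linarith
    | succ j ih =>
      intro hij q hq x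
      have hj : j + (i + 1) = J := by omega
      by_cases hx : dist x q₀ ≤ (i + 1 : ℕ) * K * ρ
      · have hq' : dist q q₀ ≤ (i + 1 : ℕ) * K * ρ := by
          refine hq.trans ?_
          push_cast
          have : 0 ≤ K * ρ := by positivity
          nlinarith
        have := hgr j (by omega) x q _ (ih (i + 1) hj x hx) (ih (i + 1) hj q hq')
        refine le_trans (le_of_eq ?_) this
        ring
      · push Not at hx
        apply le_th_of
        intro w
        have e1 : dist q₀ (wval g w • q₀) ≤ k (j + 1) * (C * ρ) := by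
          have := hwd (List.ofFn w)
          rwa [← wval_eq, List.length_ofFn] at this
        have e2 : (k (j + 1) : ℝ) ≤ 2 * k 0 := by
          have := (hmono (j + 1) (by omega)).trans hkJ
          exact_mod_cast this
        have e3 : dist q₀ (wval g w • q₀) ≤ 2 * k 0 * (C * ρ) := by
          refine e1.trans ?_
          gcongr
        have e4 : dist (wval g w • q₀) (wval g w • q) = dist q₀ q := dist_smul _ _ _
        have e5 : dist x q₀ ≤ dist x (wval g w • q) + dist (wval g w • q) (wval g w • q₀) +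
            dist (wval g w • q₀) q₀ := dist_triangle4 _ _ _ _
        rw [dist_comm (wval g w • q), e4, dist_comm (wval g w • q₀), dist_comm q₀ q] at e5
        have e6 : lam ^ J * ρ ≤ dist x (wval g w • q) := by
          push_cast at hx
          have : (i + 1 : ℝ) * K * ρ = i * K * ρ + (2 * k 0 * (C * ρ) + lam ^ J * ρ) := by
            rw [hK]; ring
          linarith
        have e7 : lam ^ (j + 1) ≤ lam ^ J := pow_le_pow_right₀ hlam (by omega)
        have e8 : 0 ≤ lam ^ (j + 1) := by positivity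
        calc lam ^ (j + 1) * (1 - δ) * ρ ^ 2 / 4 ≤ lam ^ J * 1 * ρ ^ 2 / 1 := by
              gcongr
              · linarith
              · norm_num
          _ ≤ (lam ^ J * ρ) ^ 2 := by
              have : 0 ≤ lam ^ J * (lam ^ J - 1) * ρ ^ 2 := by
                have : 0 ≤ lam ^ J - 1 := by linarith
                positivity
              nlinarith
          _ ≤ _ := by gcongr
  have hfin := claim 0 J (by omega) q₀ (by simp)
  have := le_th_add (k := 2 * k 0 - k J) (p := q₀) g hfin
  have e : 2 * k 0 - k J + k J = k 0 + k 0 := by omega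
  rw [e] at this
  change _ ≤ Φ q₀ at this
  rw [← hρ2] at this
  have : 0 < ρ ^ 2 := by positivity
  nlinarith

theorem stmtFix : StmtFix.{u} := by
  intro G _ X _ _ _ _ _ _ A _ _ g inv h2 hg J k lam hlam hlamJ hk0 hk hkJ hgr he
  obtain ⟨C, hC, hCd⟩ := exists_disp (X := X) g hg he hk0
  set Φ : X → ℝ := fun q => Th g (k 0 + k 0) q q with hΦ
  by_cases hz : ∃ q, Φ q = 0
  · obtain ⟨q, hq⟩ := hz
    refine ⟨q, fun a => ?_⟩
    have := hCd q a
    change _ ≤ C * √(Φ q) at this
    rw [hq, Real.sqrt_zero, mul_zero] at this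
    exact (dist_le_zero.1 this).symm
  exfalso
  push Not at hz
  have hpos : ∀ q, 0 < Φ q := fun q => lt_of_le_of_ne (th_nonneg g _ q q) (Ne.symm (hz q))
  obtain ⟨δ, hδ0, hδ⟩ : ∃ δ : ℝ, 0 < δ ∧ 4 < lam ^ J * (1 - δ) := by
    refine ⟨(1 - 4 / lam ^ J) / 2, ?_, ?_⟩
    · have : 4 / lam ^ J < 1 := by
        rw [div_lt_one (by positivity)]
        exact hlamJ
      linarith
    · have : lam ^ J * (1 - (1 - 4 / lam ^ J) / 2) = (lam ^ J + 4) / 2 := by
        field_simp
        ring
      rw [this]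
      linarith
  have hδ1 : 0 < 1 - δ := by
    by_contra h
    push Not at h
    have : 0 < lam ^ J := by positivity
    nlinarith
  set R : ℝ := J * (2 * k 0 * C + lam ^ J) with hR
  have hR0 : 0 ≤ R := by positivity
  have step : ∀ q₀ : X, ∃ q : X, dist q q₀ ≤ R * √(Φ q₀) ∧ Φ q ≤ (1 - δ) * Φ q₀ := fun q₀ =>
    exists_smaller g h2 hg hlam hk hkJ hgr hC hCd hδ hδ0.le q₀ (hpos q₀)
  choose F hF1 hF2 using step
  obtain ⟨x₀⟩ := ‹Nonempty X›
  let s : ℕ → X := fun i => F^[i] x₀
  have hs : ∀ i, s (i + 1) = F (s i) := fun i => Function.iterate_succ_apply' F i x₀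
  have hΦs : ∀ i, Φ (s i) ≤ (1 - δ) ^ i * Φ x₀ := by
    intro i
    induction i with
    | zero => simp [s]
    | succ i ih =>
      rw [hs]
      calc Φ (F (s i)) ≤ (1 - δ) * Φ (s i) := hF2 _
        _ ≤ (1 - δ) * ((1 - δ) ^ i * Φ x₀) := by gcongr
        _ = _ := by ring
  have hsq : ∀ i, √(Φ (s i)) ≤ √(1 - δ) ^ i * √(Φ x₀) := by
    intro i
    refine Real.sqrt_le_iff.2 ⟨by positivity, ?_⟩
    rw [mul_pow, ← pow_mul, mul_comm i 2, pow_mul, Real.sq_sqrt hδ1.le, Real.sq_sqrt (hpos x₀).le]
    exact hΦs i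
  have hlt : √(1 - δ) < 1 := by
    rw [Real.sqrt_lt' one_pos]
    linarith
  have hcau : CauchySeq s := by
    refine cauchySeq_of_le_geometric (√(1 - δ)) (R * √(Φ x₀)) hlt fun i => ?_
    rw [hs, dist_comm]
    calc dist (F (s i)) (s i) ≤ R * √(Φ (s i)) := hF1 _
      _ ≤ R * (√(1 - δ) ^ i * √(Φ x₀)) := by
        gcongr
        exact hsq i
      _ = _ := by ring
  obtain ⟨q, hq⟩ := cauchySeq_tendsto_of_complete hcau
  have hcont : Filter.Tendsto (fun i => Φ (s i)) Filter.atTop (nhds (Φ q)) :=
    ((continuous_th g (k 0 + k 0)).tendsto q).comp hq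
  have hzero : Filter.Tendsto (fun i => (1 - δ) ^ i * Φ x₀) Filter.atTop (nhds (0 * Φ x₀)) := by
    refine Filter.Tendsto.mul_const _ ?_
    exact tendsto_pow_atTop_nhds_zero_of_lt_one hδ1.le (by linarith)
  have := le_of_tendsto_of_tendsto' hcont hzero hΦs
  rw [zero_mul] at this
  exact absurd (hpos q) (not_lt.2 this)

end Main

end Vale.Agent.P172
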