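import Vale.Agent.P172.Sys

/-!
# P172, route DIM, block D2: the local isoperimetric inequality of a sparse set of words (helper427)
-/

namespace Vale.Agent.P172.LS

open Finset Vale.Agent.P201.S Vale.Agent.P172

section Reach

/-- a function which decreases slowly along an orbit -/
theorem reach_le {α : Type*} [Fintype α] [DecidableEq α] (f : α → α) (u o : α → ℕ)
    (h : ∀ p, u p ≤ u (f p) + o p) (p : α) (k : ℕ) : u p ≤ u (f^[k] p) + ∑ x, o x := by
  classical
  have hex : ∃ j, f^[j] p = f^[k] p := ⟨k, rfl⟩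
  set k0 := Nat.find hex with hk0
  have hspec : f^[k0] p = f^[k] p := Nat.find_spec hex
  have hmin : ∀ j, j < k0 → f^[j] p ≠ f^[k] p := fun j hj => Nat.find_min hex hj
  have hstep : ∀ j, u p ≤ u (f^[j] p) + ∑ i ∈ range j, o (f^[i] p) := by
    intro j
    induction j with
    | zero => simp
    | succ j ih =>
      rw [sum_range_succ, Function.iterate_succ_apply']
      have := h (f^[j] p)
      omega
  have hinj : Set.InjOn (fun i => f^[i] p) (range k0 : Set ℕ) := by
    have key : ∀ i j, i < j → j < k0 → f^[i] p ≠ f^[j] p := by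
      intro i j hij hj he
      apply hmin (k0 - j + i) (by omega)
      rw [Function.iterate_add_apply, he, ← Function.iterate_add_apply, Nat.sub_add_cancel hj.le]
      exact hspec
    intro i hi j hj he
    simp only [coe_range, Set.mem_Iio] at hi hj
    rcases lt_trichotomy i j with hij | hij | hij
    · exact absurd he (key i j hij hj)
    · exact hij
    · exact absurd he.symm (key j i hij hi)
  have h1 := hstep k0
  rw [hspec] at h1
  have h2 : ∑ i ∈ range k0, o (f^[i] p) ≤ ∑ x, o x := by
    rw [← sum_image (f := o) hinj]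
    exact sum_le_sum_of_subset (subset_univ _)
  omega

end Reach

variable {N : ℕ}

section Lets

theorem card_lets {w : List (Al N)} (hw : Good w) : (lets w).card = 2 * w.length := by
  have h1 : (w.map fun e => (Sum.inl e.1.1 : Fin N ⊕ Fin N)).Nodup := by
    have : (w.map fun e => (Sum.inl e.1.1 : Fin N ⊕ Fin N)) = (w.map fun e => e.1.1).map Sum.inl := by
      rw [List.map_map]
      rfl
    rw [this]
    exact hw.1.map Sum.inl_injective
  have h2 : (w.map fun e => (Sum.inr e.1.2 : Fin N ⊕ Fin N)).Nodup := by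
    have : (w.map fun e => (Sum.inr e.1.2 : Fin N ⊕ Fin N)) = (w.map fun e => e.1.2).map Sum.inr := by
      rw [List.map_map]
      rfl
    rw [this]
    exact hw.2.map Sum.inr_injective
  unfold lets
  rw [card_union_of_disjoint, List.toFinset_card_of_nodup h1, List.toFinset_card_of_nodup h2,
    List.length_map, List.length_map, two_mul]
  rw [Finset.disjoint_left]
  intro r hr hr'
  simp only [List.mem_toFinset, List.mem_map] at hr hr'
  obtain ⟨e, -, rfl⟩ := hr
  obtain ⟨e', -, h⟩ := hr'
  cases h

variable {W : Finset (List (Al N))}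

theorem prc_mem_lets (q : Cell W × Bool) : prc q ∈ lets q.1.1.1 := by
  obtain ⟨c, b⟩ := q
  have hmem : c.lt ∈ c.1.1 := List.getElem_mem _
  unfold lets
  cases b
  · exact mem_union_right _ (List.mem_toFinset.2 (List.mem_map.2 ⟨c.lt, hmem, rfl⟩))
  · exact mem_union_left _ (List.mem_toFinset.2 (List.mem_map.2 ⟨c.lt, hmem, rfl⟩))

end Lets

section Count

/-- counting with layers: `∑_r (∑_{w ∋ r} M w - max) ≤ ∑_t (∑_{w, t < M w} |lets w| - |letters|)` -/
theorem layer {ω ρ : Type*} [Fintype ω] [Fintype ρ] [DecidableEq ω] [DecidableEq ρ] (A : ω → Finset ρ) (M : ω → ℕ) (g : ρ → ℕ)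
    (T : ℕ) (hT : ∀ w, M w ≤ T) (h0 : ∀ r, (∀ w, r ∉ A w) → g r = 0)
    (hg : ∀ r, ∀ w', r ∈ A w' → g r ≤ ∑ w ∈ (univ.filter fun w => r ∈ A w).erase w', M w) :
    ∑ r, g r + ∑ t ∈ range T, ((univ.filter fun w => t < M w).biUnion A).card ≤
      ∑ t ∈ range T, ∑ w ∈ univ.filter (fun w => t < M w), (A w).card := by
  have hM : ∀ w, ∑ t ∈ range T, (if t < M w then 1 else 0) = M w := by
    intro w
    rw [← sum_filter, sum_const, smul_eq_mul, mul_one]
    have : (range T).filter (fun t => t < M w) = range (M w) := by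
      ext t
      simp only [mem_filter, mem_range]
      exact ⟨fun h => h.2, fun h => ⟨h.trans_le (hT w), h⟩⟩
    rw [this, card_range]
  have key : ∀ r, g r + ∑ t ∈ range T,
      (if r ∈ (univ.filter fun w => t < M w).biUnion A then 1 else 0) ≤
      ∑ w ∈ univ.filter (fun w => r ∈ A w), M w := by
    intro r
    rcases (univ.filter fun w => r ∈ A w).eq_empty_or_nonempty with he | hne
    · have h1 : ∀ w, r ∉ A w := by
        intro w hw
        have : w ∈ univ.filter fun w => r ∈ A w := mem_filter.2 ⟨mem_univ _, hw⟩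
        rw [he] at this
        exact absurd this (notMem_empty _)
      rw [h0 r h1, he, sum_empty, zero_add]
      refine le_of_eq (sum_eq_zero fun t _ => ?_)
      rw [if_neg]
      intro h
      obtain ⟨w, -, hw⟩ := mem_biUnion.1 h
      exact h1 w hw
    · obtain ⟨w', hw', hmax⟩ := exists_max_image _ M hne
      have h1 := hg r w' (mem_filter.1 hw').2
      have h2 : ∑ t ∈ range T,
          (if r ∈ (univ.filter fun w => t < M w).biUnion A then 1 else 0) ≤ M w' := by
        conv_rhs => rw [← hM w']
        refine sum_le_sum fun t _ => ?_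
        split_ifs with h3 h4
        · exact le_rfl
        · exfalso
          obtain ⟨w, hw, hr⟩ := mem_biUnion.1 h3
          have h5 := (mem_filter.1 hw).2
          have h6 := hmax w (mem_filter.2 ⟨mem_univ _, hr⟩)
          omega
        · exact Nat.zero_le _
        · exact le_rfl
      rw [← sum_erase_add _ _ hw']
      omega
  have h1 : ∑ t ∈ range T, ((univ.filter fun w => t < M w).biUnion A).card =
      ∑ r, ∑ t ∈ range T,
        (if r ∈ (univ.filter fun w => t < M w).biUnion A then 1 else 0) := by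
    rw [sum_comm]
    refine sum_congr rfl fun t _ => ?_
    rw [← sum_filter, sum_const, smul_eq_mul, mul_one]
    congr 1
    ext r
    simp
  have h2 : ∑ t ∈ range T, ∑ w ∈ univ.filter (fun w => t < M w), (A w).card =
      ∑ r, ∑ w ∈ univ.filter (fun w => r ∈ A w), M w := by
    have e1 : ∀ t, ∑ w ∈ univ.filter (fun w => t < M w), (A w).card =
        ∑ w, ∑ r, if t < M w ∧ r ∈ A w then 1 else 0 := by
      intro t
      rw [sum_filter]
      refine sum_congr rfl fun w _ => ?_
      by_cases hw : t < M w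
      · simp [hw]
      · simp [hw]
    have e2 : ∀ r, ∑ w ∈ univ.filter (fun w => r ∈ A w), M w =
        ∑ w, ∑ t ∈ range T, if t < M w ∧ r ∈ A w then 1 else 0 := by
      intro r
      rw [sum_filter]
      refine sum_congr rfl fun w _ => ?_
      by_cases hw : r ∈ A w
      · simp only [hw, if_true, and_true]
        exact (hM w).symm
      · simp [hw]
    simp_rw [e1, e2]
    rw [sum_comm]
    conv_rhs => rw [sum_comm]
    refine sum_congr rfl fun w _ => ?_
    rw [sum_comm]
  rw [h1, h2, ← sum_add_distrib]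
  exact sum_le_sum fun r _ => key r

end Count

variable {W : Finset (List (Al N))}

/-- cyclic successor as a permutation -/
noncomputable def nxE : Cell W ≃ Cell W :=
  Equiv.ofBijective Cell.nx (Finite.injective_iff_bijective.1 Cell.nx_injective)

theorem nxE_apply (c : Cell W) : nxE c = c.nx := rfl

theorem nxE_symm_nx (c : Cell W) : nxE.symm c.nx = c := nxE.symm_apply_apply c

theorem nxE_symm_iter (c : Cell W) (k : ℕ) : nxE.symm^[k] (Cell.nx^[k] c) = c := by
  have h : Function.LeftInverse (nxE (W := W)).symm Cell.nx := nxE_symm_nx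
  exact h.iterate k c

theorem nxE_symm_fst (c : Cell W) : (nxE.symm c).1 = c.1 := by
  have h : (nxE.symm c).nx = c := nxE.apply_symm_apply c
  have h2 := Cell.nx_fst (nxE.symm c)
  rw [h] at h2
  exact h2.symm

section Main

variable (hG : ∀ w ∈ W, Good w) (G : Glue (S := sysW W hG) 1)

/-- the cell of a square -/
def cel (s : G.Q) : Cell W := (G.ε s).1

open Classical in
/-- squares of the direction `d` at the position `c` -/
noncomputable def uu (d : Prop) (c : Cell W) : ℕ :=
  (univ.filter fun s : G.Q => cel hG G s = c ∧ (((G.ε s).2 = (cel hG G s).lt.2) ↔ d)).card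

open Classical in
/-- open squares of the direction `d` at the position `c` -/
noncomputable def oo (d : Prop) (c : Cell W) : ℕ :=
  (univ.filter fun s : G.Q => (cel hG G s = c ∧ (((G.ε s).2 = (cel hG G s).lt.2) ↔ d)) ∧
    G.Y s = none).card

open Classical in
/-- all squares at the position `c` -/
noncomputable def nn (c : Cell W) : ℕ := (univ.filter fun s : G.Q => cel hG G s = c).card

theorem nn_eq (c : Cell W) : nn hG G c = uu hG G True c + uu hG G False c := by
  classical
  unfold nn uu
  rw [← card_union_of_disjoint]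
  · congr 1
    ext s
    simp only [mem_filter, mem_univ, true_and, mem_union, iff_true, iff_false]
    tauto
  · rw [Finset.disjoint_left]
    intro s hs hs'
    simp only [mem_filter, mem_univ, true_and, iff_true, iff_false] at hs hs'
    exact hs'.2 hs.2

variable {G}

theorem red_y (hR : G.Red) {s s' : G.Q} (h : G.Y s = some s') :
    pblk ((G.ε s).1, !(G.ε s).2) = pblk (G.ε s') ∧ G.ε s' ≠ ((G.ε s).1, !(G.ε s).2) := by
  obtain ⟨h1, h2⟩ := hR.y s s' h
  exact ⟨mt_blk hG h1, mt_ne hG h2⟩

variable (G)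

theorem uu_fwd (hR : G.Red) (c : Cell W) :
    uu hG G True c ≤ uu hG G True c.nx + oo hG G True c := by
  classical
  unfold uu oo
  simp only [iff_true]
  have h1 : (univ.filter fun s : G.Q => cel hG G s = c ∧ (G.ε s).2 = (cel hG G s).lt.2) ⊆
      (univ.filter fun s : G.Q => (cel hG G s = c ∧ (G.ε s).2 = (cel hG G s).lt.2) ∧
        (G.Y s).isSome) ∪
      (univ.filter fun s : G.Q => (cel hG G s = c ∧ (G.ε s).2 = (cel hG G s).lt.2) ∧
        G.Y s = none) := by
    intro s hs
    rw [mem_filter] at hs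
    rcases h : G.Y s with _ | s'
    · exact mem_union_right _ (mem_filter.2 ⟨mem_univ _, hs.2, h⟩)
    · exact mem_union_left _ (mem_filter.2 ⟨mem_univ _, hs.2, by rw [h]; rfl⟩)
  refine (card_le_card h1).trans ((card_union_le _ _).trans (Nat.add_le_add_right ?_ _))
  refine card_le_card_of_injOn (fun s => (G.Y s).getD s) ?_ ?_
  · intro s hs
    rw [coe_filter, Set.mem_ofPred_eq] at hs
    obtain ⟨-, ⟨h2, h3⟩, h4⟩ := hs
    obtain ⟨s', hs'⟩ := Option.isSome_iff_exists.1 h4
    obtain ⟨h5, h6⟩ := red_y hG hR hs'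
    obtain ⟨h7, h8⟩ := step_fwd h5 h6 h3
    simp only [hs', Option.getD_some, coe_filter, Set.mem_ofPred_eq, mem_univ, true_and]
    refine ⟨?_, h8⟩
    rw [← h2]
    exact h7
  · intro s hs t ht hst
    rw [coe_filter, Set.mem_ofPred_eq] at hs ht
    obtain ⟨s', hs'⟩ := Option.isSome_iff_exists.1 hs.2.2
    obtain ⟨t', ht'⟩ := Option.isSome_iff_exists.1 ht.2.2
    simp only [hs', ht', Option.getD_some] at hst
    subst hst
    exact G.Y.inj hs' ht'

theorem uu_bwd (hR : G.Red) (c : Cell W) :
    uu hG G False c ≤ uu hG G False (nxE.symm c) + oo hG G False c := by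
  classical
  unfold uu oo
  simp only [iff_false]
  have h1 : (univ.filter fun s : G.Q => cel hG G s = c ∧ ¬ (G.ε s).2 = (cel hG G s).lt.2) ⊆
      (univ.filter fun s : G.Q => (cel hG G s = c ∧ ¬ (G.ε s).2 = (cel hG G s).lt.2) ∧
        (G.Y s).isSome) ∪
      (univ.filter fun s : G.Q => (cel hG G s = c ∧ ¬ (G.ε s).2 = (cel hG G s).lt.2) ∧
        G.Y s = none) := by
    intro s hs
    rw [mem_filter] at hs
    rcases h : G.Y s with _ | s'
    · exact mem_union_right _ (mem_filter.2 ⟨mem_univ _, hs.2, h⟩)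
    · exact mem_union_left _ (mem_filter.2 ⟨mem_univ _, hs.2, by rw [h]; rfl⟩)
  refine (card_le_card h1).trans ((card_union_le _ _).trans (Nat.add_le_add_right ?_ _))
  refine card_le_card_of_injOn (fun s => (G.Y s).getD s) ?_ ?_
  · intro s hs
    rw [coe_filter, Set.mem_ofPred_eq] at hs
    obtain ⟨-, ⟨h2, h3⟩, h4⟩ := hs
    obtain ⟨s', hs'⟩ := Option.isSome_iff_exists.1 h4
    obtain ⟨h5, h6⟩ := red_y hG hR hs'
    obtain ⟨h7, h8⟩ := step_bwd h5 h6 h3
    simp only [hs', Option.getD_some, coe_filter, Set.mem_ofPred_eq, mem_univ, true_and]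
    refine ⟨?_, h8⟩
    have h9 : c = (cel hG G s').nx := by
      rw [← h2]
      exact h7
    rw [h9, nxE_symm_nx]
  · intro s hs t ht hst
    rw [coe_filter, Set.mem_ofPred_eq] at hs ht
    obtain ⟨s', hs'⟩ := Option.isSome_iff_exists.1 hs.2.2
    obtain ⟨t', ht'⟩ := Option.isSome_iff_exists.1 ht.2.2
    simp only [hs', ht', Option.getD_some] at hst
    subst hst
    exact G.Y.inj hs' ht'

open Classical in
/-- open squares of a word -/
noncomputable def opn (w : {w // w ∈ W}) : ℕ :=
  (univ.filter fun s : G.Q => (cel hG G s).1 = w ∧ G.Y s = none).card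

open Classical in
/-- squares of a word -/
noncomputable def qq (w : {w // w ∈ W}) : ℕ :=
  (univ.filter fun s : G.Q => (cel hG G s).1 = w).card

open Classical in
theorem opn_eq (w : {w // w ∈ W}) : opn hG G w =
    ∑ c : Cell W, (if c.1 = w then oo hG G True c else 0) +
    ∑ c : Cell W, (if c.1 = w then oo hG G False c else 0) := by
  rw [← sum_add_distrib]
  unfold opn
  rw [card_eq_sum_card_fiberwise (f := cel hG G) (t := univ) (fun _ _ => mem_univ _)]
  refine sum_congr rfl fun c _ => ?_
  by_cases hc : c.1 = w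
  · rw [if_pos hc, if_pos hc]
    unfold oo
    rw [← card_union_of_disjoint]
    · congr 1
      ext s
      simp only [mem_filter, mem_univ, true_and, mem_union, iff_true, iff_false]
      constructor
      · rintro ⟨⟨h1, h2⟩, h3⟩
        tauto
      · rintro (⟨⟨h1, h2⟩, h3⟩ | ⟨⟨h1, h2⟩, h3⟩)
        · exact ⟨⟨by rw [h1]; exact hc, h3⟩, h1⟩
        · exact ⟨⟨by rw [h1]; exact hc, h3⟩, h1⟩
    · rw [Finset.disjoint_left]
      intro s hs hs'
      simp only [mem_filter, mem_univ, true_and, iff_true, iff_false] at hs hs'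
      exact hs'.1.2 hs.1.2
  · rw [if_neg hc, if_neg hc, add_zero, card_eq_zero]
    refine filter_eq_empty_iff.2 fun s hs h => ?_
    rw [mem_filter] at hs
    rw [← h] at hc
    exact hc hs.2.1

/-- comparison of two positions of a word -/
theorem nn_le (hR : G.Red) (c c' : Cell W) (h : c.1 = c'.1) :
    nn hG G c ≤ nn hG G c' + opn hG G c.1 := by
  classical
  rw [nn_eq, nn_eq, opn_eq]
  have h1 := reach_le Cell.nx (fun d => if d.1 = c.1 then uu hG G True d else 0)
    (fun d => if d.1 = c.1 then oo hG G True d else 0) (by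
      intro d
      by_cases hd : d.1 = c.1
      · simp only [if_pos hd, if_pos (show d.nx.1 = c.1 from hd)]
        exact uu_fwd hG G hR d
      · simp [if_neg hd]) c
  have h2 := reach_le nxE.symm (fun d => if d.1 = c.1 then uu hG G False d else 0)
    (fun d => if d.1 = c.1 then oo hG G False d else 0) (by
      intro d
      by_cases hd : d.1 = c.1
      · simp only [if_pos hd, if_pos (show (nxE.symm d).1 = c.1 from (nxE_symm_fst d).trans hd)]
        exact uu_bwd hG G hR d
      · simp [if_neg hd]) c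
  obtain ⟨k, hk⟩ := Cell.nx_reach c c' h
  obtain ⟨k', hk'⟩ := Cell.nx_reach c' c h.symm
  have h3 := h1 k
  have h4 := h2 k'
  rw [hk] at h3
  rw [← hk', nxE_symm_iter, hk'] at h4
  simp only [if_true, if_pos h.symm] at h3 h4
  omega

/-- the maximal number of squares at a position of a word -/
noncomputable def mx (w : {w // w ∈ W}) : ℕ :=
  (univ : Finset (Fin w.1.length)).sup fun p => nn hG G ⟨w, p⟩

theorem nn_le_mx (c : Cell W) : nn hG G c ≤ mx hG G c.1 := by
  obtain ⟨w, p⟩ := c
  exact le_sup (f := fun p => nn hG G ⟨w, p⟩) (mem_univ p)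

open Classical in
theorem qq_eq (w : {w // w ∈ W}) : qq hG G w = ∑ p : Fin w.1.length, nn hG G ⟨w, p⟩ := by
  unfold qq nn
  rw [← card_biUnion]
  · congr 1
    ext s
    simp only [mem_filter, mem_univ, true_and, mem_biUnion]
    constructor
    · intro h
      subst h
      exact ⟨(cel hG G s).2, rfl⟩
    · rintro ⟨p, hp⟩
      rw [hp]
  · intro p _ p' _ hne
    rw [Function.onFun, Finset.disjoint_left]
    intro s hs hs'
    simp only [mem_filter, mem_univ, true_and] at hs hs'
    apply hne
    rw [hs] at hs'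
    simpa using hs'

theorem len_mul_mx (hR : G.Red) (w : {w // w ∈ W}) :
    w.1.length * mx hG G w ≤ qq hG G w + w.1.length * opn hG G w := by
  rcases Nat.eq_zero_or_pos w.1.length with h0 | h0
  · rw [h0, zero_mul]
    exact Nat.zero_le _
  obtain ⟨p, -, hp⟩ := exists_mem_eq_sup (univ : Finset (Fin w.1.length)) ⟨⟨0, h0⟩, mem_univ _⟩
    (fun p => nn hG G ⟨w, p⟩)
  have h1 : mx hG G w = nn hG G ⟨w, p⟩ := hp
  rw [h1, qq_eq]
  have h2 : ∑ p' : Fin w.1.length, nn hG G ⟨w, p⟩ ≤
      ∑ p' : Fin w.1.length, (nn hG G ⟨w, p'⟩ + opn hG G w) :=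
    sum_le_sum fun p' _ => nn_le hG G hR ⟨w, p⟩ ⟨w, p'⟩ rfl
  rw [sum_add_distrib, sum_const, sum_const, card_univ, Fintype.card_fin, smul_eq_mul,
    smul_eq_mul] at h2
  exact h2

open Classical in
theorem sum_qq : ∑ w : {w // w ∈ W}, qq hG G w = Fintype.card G.Q := by
  rw [← card_univ, card_eq_sum_card_fiberwise (f := fun s => (cel hG G s).1) (t := univ)
    (fun _ _ => mem_univ _)]
  rfl

open Classical in
theorem sum_opn : (∑ w : {w // w ∈ W}, opn hG G w) + domc G.Y = Fintype.card G.Q := by
  have h1 : ∑ w : {w // w ∈ W}, opn hG G w = (univ.filter fun s : G.Q => G.Y s = none).card := by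
    rw [card_eq_sum_card_fiberwise (f := fun s => (cel hG G s).1) (t := univ)
      (fun _ _ => mem_univ _)]
    refine sum_congr rfl fun w _ => ?_
    unfold opn
    congr 1
    ext s
    simp only [mem_filter, mem_univ, true_and]
    tauto
  have h2 : domc G.Y = (univ.filter fun s : G.Q => ¬ G.Y s = none).card := by
    unfold domc
    congr 1
    ext s
    simp only [mem_filter, mem_univ, true_and]
    cases G.Y s <;> simp
  rw [h1, h2, card_filter_add_card_filter_not, card_univ]

open Classical in
/-- number of X-gluings with a letter -/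
noncomputable def gx (r : Fin N ⊕ Fin N) : ℕ :=
  (univ.filter fun s : G.Q => (G.X s).isSome ∧ prc (G.ε s) = r).card

open Classical in
theorem sum_gx : ∑ r, gx hG G r = domc G.X := by
  unfold domc
  rw [card_eq_sum_card_fiberwise (f := fun s => prc (G.ε s)) (t := univ) (fun _ _ => mem_univ _)]
  refine sum_congr rfl fun r _ => ?_
  unfold gx
  congr 1
  ext s
  simp only [mem_filter, mem_univ, true_and]

theorem red_x (hR : G.Red) {s s' : G.Q} (h : G.X s = some s') :
    prc (G.ε s) = prc ((G.ε s').1, !(G.ε s').2) ∧ G.ε s ≠ ((G.ε s').1, !(G.ε s').2) := by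
  obtain ⟨h1, h2⟩ := hR.x s s' h
  rw [mt_one_eq] at h1 h2
  exact ⟨h1, h2⟩

theorem gx_le (hR : G.Red) (r : Fin N ⊕ Fin N) (w' : {w // w ∈ W}) :
    gx hG G r ≤ ∑ w ∈ (univ.filter fun w : {w // w ∈ W} => r ∈ lets w.1).erase w', mx hG G w := by
  classical
  -- squares with the letter `r` which are not in `w'`
  have h1 : gx hG G r ≤ (univ.filter fun s : G.Q =>
      (∃ b, prc (cel hG G s, b) = r) ∧ (cel hG G s).1 ≠ w').card := by
    unfold gx
    refine card_le_card_of_injOn (fun s => if (cel hG G s).1 = w' then (G.X s).getD s else s) ?_ ?_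
    · intro s hs
      rw [coe_filter, Set.mem_ofPred_eq] at hs
      obtain ⟨-, hs1, hs2⟩ := hs
      obtain ⟨s', hs'⟩ := Option.isSome_iff_exists.1 hs1
      obtain ⟨h3, h4⟩ := red_x hG G hR hs'
      simp only [coe_filter, Set.mem_ofPred_eq, mem_univ, true_and]
      by_cases hw : (cel hG G s).1 = w'
      · rw [if_pos hw, hs', Option.getD_some]
        refine ⟨⟨!(G.ε s').2, ?_⟩, ?_⟩
        · rw [← hs2, h3]
          rfl
        · intro h5
          apply h4
          refine prc_inj hG h3 ?_
          exact hw.trans h5.symm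
      · rw [if_neg hw]
        exact ⟨⟨(G.ε s).2, hs2⟩, hw⟩
    · intro s hs t ht hst
      rw [coe_filter, Set.mem_ofPred_eq] at hs ht
      obtain ⟨-, hs1, hs2⟩ := hs
      obtain ⟨-, ht1, ht2⟩ := ht
      obtain ⟨s', hs'⟩ := Option.isSome_iff_exists.1 hs1
      obtain ⟨t', ht'⟩ := Option.isSome_iff_exists.1 ht1
      have mixed : ∀ {s t : G.Q}, G.X s = some t → prc (G.ε s) = r → prc (G.ε t) = r → False := by
        intro s t h h5 h6
        obtain ⟨h3, -⟩ := red_x hG G hR h
        rw [h5, ← h6] at h3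
        have h7 := prc_cp h3
        simp at h7
      by_cases hws : (cel hG G s).1 = w' <;> by_cases hwt : (cel hG G t).1 = w'
      · simp only [hws, hwt, if_true, hs', ht', Option.getD_some] at hst
        subst hst
        exact G.X.inj hs' ht'
      · simp only [hws, hwt, if_true, if_false, hs', Option.getD_some] at hst
        subst hst
        exact (mixed hs' hs2 ht2).elim
      · simp only [hws, hwt, if_true, if_false, ht', Option.getD_some] at hst
        subst hst
        exact (mixed ht' ht2 hs2).elim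
      · simp only [hws, hwt, if_false] at hst
        exact hst
  refine h1.trans ?_
  rw [card_eq_sum_card_fiberwise (f := fun s => (cel hG G s).1)
    (t := (univ.filter fun w : {w // w ∈ W} => r ∈ lets w.1).erase w')]
  · refine sum_le_sum fun w hw => ?_
    rcases (filter (fun s => (cel hG G s).1 = w) (univ.filter fun s : G.Q =>
      (∃ b, prc (cel hG G s, b) = r) ∧ (cel hG G s).1 ≠ w')).eq_empty_or_nonempty with he | ⟨s, hs⟩
    · rw [he, card_empty]
      exact Nat.zero_le _
    · simp only [mem_filter, mem_univ, true_and] at hs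
      obtain ⟨⟨⟨b, hb⟩, h2⟩, h3⟩ := hs
      rw [← h3]
      refine le_trans (card_le_card ?_) (nn_le_mx hG G (cel hG G s))
      intro t ht
      simp only [mem_filter, mem_univ, true_and] at ht ⊢
      obtain ⟨⟨⟨b', hb'⟩, -⟩, h4⟩ := ht
      have h5 : (cel hG G t, b') = (cel hG G s, b) := prc_inj hG (hb'.trans hb.symm) h4
      exact (Prod.mk.inj h5).1
  · intro s hs
    simp only [coe_filter, Set.mem_ofPred_eq, mem_univ, true_and] at hs
    obtain ⟨⟨b, hb⟩, h2⟩ := hs
    rw [mem_coe, mem_erase, mem_filter]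
    refine ⟨h2, mem_univ _, ?_⟩
    rw [← hb]
    exact prc_mem_lets _

open Classical in
theorem gx_zero (r : Fin N ⊕ Fin N) (h : ∀ w : {w // w ∈ W}, r ∉ lets w.1) : gx hG G r = 0 := by
  unfold gx
  rw [card_eq_zero]
  refine filter_eq_empty_iff.2 fun s _ hs => ?_
  apply h (cel hG G s).1
  rw [← hs.2]
  exact prc_mem_lets _

/-- D2: the local isoperimetric inequality -/
theorem locIso_sysW {M Y : ℕ} {e : ℝ} (he : 0 ≤ e) (hY : ∀ w ∈ W, w.length ≤ Y)
    (hS : Sparse W M e) : LocIso (S := sysW W hG) 1 M Y e := by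
  classical
  intro G hR _ _ hQ
  set T : ℕ := (univ : Finset {w // w ∈ W}).sup (mx hG G) with hT
  have h1 := layer (fun w : {w // w ∈ W} => lets w.1) (mx hG G) (gx hG G) T
    (fun w => le_sup (mem_univ w)) (gx_zero hG G) (fun r w' _ => gx_le hG G hR r w')
  rw [sum_gx] at h1
  -- sparseness of the layers
  have h2 : ∀ t ∈ range T, (1 + e) * (∑ w ∈ univ.filter (fun w => t < mx hG G w),
      (w.1.length : ℝ)) ≤
        ((univ.filter fun w => t < mx hG G w).biUnion fun w : {w // w ∈ W} => lets w.1).card := by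
    intro t _
    have h3 := hS ((univ.filter fun w => t < mx hG G w).image Subtype.val) (by
      intro w hw
      obtain ⟨v, -, rfl⟩ := mem_image.1 hw
      exact v.2) (by
      refine card_image_le.trans (le_trans ?_ hQ)
      rw [← card_univ (α := G.Q)]
      have h4 : univ.filter (fun w => t < mx hG G w) ⊆
          (univ : Finset G.Q).image fun s => (cel hG G s).1 := by
        intro w hw
        have h5 : 0 < mx hG G w := lt_of_le_of_lt (Nat.zero_le _) (mem_filter.1 hw).2
        obtain ⟨p, -, hp⟩ := Finset.lt_sup_iff.1 h5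
        obtain ⟨s, hs⟩ := card_pos.1 hp
        refine mem_image.2 ⟨s, mem_univ _, ?_⟩
        rw [(mem_filter.1 hs).2]
      exact (card_le_card h4).trans card_image_le)
    rw [sum_image (fun a _ b _ h => Subtype.ext h), image_biUnion] at h3
    exact h3
  have h3 : (1 + e) * ∑ t ∈ range T, ∑ w ∈ univ.filter (fun w => t < mx hG G w),
      (w.1.length : ℝ) ≤ ∑ t ∈ range T, (((univ.filter fun w => t < mx hG G w).biUnion
        fun w : {w // w ∈ W} => lets w.1).card : ℝ) := by
    rw [mul_sum]
    exact sum_le_sum h2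
  have h4 : ∑ t ∈ range T, ∑ w ∈ univ.filter (fun w => t < mx hG G w), (w.1.length : ℝ) =
      ∑ w : {w // w ∈ W}, (w.1.length : ℝ) * mx hG G w := by
    simp_rw [sum_filter]
    rw [sum_comm]
    refine sum_congr rfl fun w _ => ?_
    rw [← sum_filter, sum_const, nsmul_eq_mul, mul_comm]
    congr 2
    have : (range T).filter (fun t => t < mx hG G w) = range (mx hG G w) := by
      ext t
      simp only [mem_filter, mem_range]
      exact ⟨fun h => h.2, fun h => ⟨h.trans_le (le_sup (mem_univ w)), h⟩⟩
    rw [this, card_range]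
  have h5 : (domc G.X : ℝ) + ∑ t ∈ range T, (((univ.filter fun w => t < mx hG G w).biUnion
        fun w : {w // w ∈ W} => lets w.1).card : ℝ) ≤
      2 * ∑ w : {w // w ∈ W}, (w.1.length : ℝ) * mx hG G w := by
    rw [← h4, mul_sum]
    have h6 : ((domc G.X + ∑ t ∈ range T, ((univ.filter fun w => t < mx hG G w).biUnion
        fun w : {w // w ∈ W} => lets w.1).card : ℕ) : ℝ) ≤
        ((∑ t ∈ range T, ∑ w ∈ univ.filter (fun w => t < mx hG G w), (lets w.1).card : ℕ) : ℝ) :=
      by exact_mod_cast h1
    push_cast at h6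
    refine h6.trans (le_of_eq (sum_congr rfl fun t _ => ?_))
    rw [mul_sum]
    refine sum_congr rfl fun w _ => ?_
    rw [card_lets (hG w.1 w.2)]
    push_cast
    ring
  rw [h4] at h3
  -- the Y part
  have h6 : ∑ w : {w // w ∈ W}, (w.1.length : ℝ) * mx hG G w ≤
      Fintype.card G.Q + Y * ((Fintype.card G.Q : ℝ) - domc G.Y) := by
    have h7 : ∑ w : {w // w ∈ W}, (w.1.length : ℝ) * mx hG G w ≤
        ∑ w : {w // w ∈ W}, ((qq hG G w : ℝ) + Y * opn hG G w) := by
      refine sum_le_sum fun w _ => ?_
      have h8 := len_mul_mx hG G hR w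
      have h9 : (w.1.length : ℝ) * mx hG G w ≤ qq hG G w + w.1.length * opn hG G w := by
        exact_mod_cast h8
      refine h9.trans (add_le_add_right ?_ _)
      have h10 : (w.1.length : ℝ) ≤ Y := by exact_mod_cast hY w.1 w.2
      exact mul_le_mul_of_nonneg_right h10 (Nat.cast_nonneg _)
    rw [sum_add_distrib, ← mul_sum] at h7
    have h8 : (∑ w : {w // w ∈ W}, (qq hG G w : ℝ)) = Fintype.card G.Q := by
      exact_mod_cast sum_qq hG G
    have h9 : (∑ w : {w // w ∈ W}, (opn hG G w : ℝ)) = Fintype.card G.Q - domc G.Y := by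
      have := sum_opn hG G
      rw [eq_sub_iff_add_eq]
      exact_mod_cast this
    rw [h8, h9] at h7
    exact h7
  -- conclusion
  set Z : ℝ := ∑ w : {w // w ∈ W}, (w.1.length : ℝ) * mx hG G w with hZ
  have h7 : (domc G.X : ℝ) ≤ (1 - e) * Z := by linarith
  have hop : 0 ≤ (Fintype.card G.Q : ℝ) - domc G.Y := by
    have := sum_opn hG G
    rw [sub_nonneg]
    exact_mod_cast (by omega : domc G.Y ≤ Fintype.card G.Q)
  have hYop : 0 ≤ (Y : ℝ) * ((Fintype.card G.Q : ℝ) - domc G.Y) :=
    mul_nonneg (Nat.cast_nonneg _) hop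
  rcases le_total e 1 with h8 | h8
  · have h9 := mul_le_mul_of_nonneg_left h6 (sub_nonneg.2 h8)
    nlinarith
  · have h9 : (Fintype.card G.Q : ℝ) ≤ Z := by
      have h10 : ∀ w : {w // w ∈ W}, qq hG G w ≤ w.1.length * mx hG G w := by
        intro w
        rw [qq_eq]
        calc ∑ p : Fin w.1.length, nn hG G ⟨w, p⟩ ≤ ∑ _p : Fin w.1.length, mx hG G w :=
              sum_le_sum fun p _ => nn_le_mx hG G ⟨w, p⟩
          _ = _ := by rw [sum_const, card_univ, Fintype.card_fin, smul_eq_mul]
      have h11 : (∑ w : {w // w ∈ W}, (qq hG G w : ℝ)) = Fintype.card G.Q := by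
        exact_mod_cast sum_qq hG G
      rw [← h11, hZ]
      exact sum_le_sum fun w _ => by exact_mod_cast h10 w
    nlinarith [mul_le_mul_of_nonneg_left h9 (sub_nonneg.2 h8)]

end Main

end Vale.Agent.P172.LS
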