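import Vale.Agent.P172.HypG
import Vale.Agent.P172.LocS
import Vale.Agent.P172.Emb2
import Vale.Agent.P201.S.GlobMain

/-!
# P172, route DIM: assembly of block D (helper427)
-/

namespace Vale.Agent.P172

open Vale.Agent.P201.S

/-- D -/
theorem stmtGrp : StmtGrp := by
  intro e he
  obtain ⟨K, Y0, h⟩ := stmtGlob (1 / 2) e 0 (by norm_num) he
  refine ⟨K, max Y0 1, fun Y hY N W hlen hG hS => ?_⟩
  have hY0 : Y0 ≤ Y := (le_max_left _ _).trans hY
  have hY1 : 1 ≤ Y := (le_max_right _ _).trans hY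
  have hpos : ∀ w ∈ W, 0 < w.length := fun w hw => by
    have := (hlen w hw).1
    omega
  obtain ⟨h1, h2, h3⟩ := h (sysW W hG) (fun q => le_rfl) Y hY0 1 ((Y + 1) / 2) (by
    have h4 : Y ≤ 2 * ((Y + 1) / 2) := by omega
    have h5 : (Y : ℝ) ≤ 2 * (((Y + 1) / 2 : ℕ) : ℝ) := by exact_mod_cast h4
    linarith) (girth_sysW hG _ fun w hw => by
      have := (hlen w hw).1
      omega) (LS.locIso_sysW hG he.le (fun w hw => (hlen w hw).2) hS)
  exact ⟨RG.hyperbolic_gr hG e he Y h3, RG.torsion_gr hG h1, hasFreeRes2_gr hG hpos h1,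
    RG.of_inr_ne hG Y h2⟩

end Vale.Agent.P172
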