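import Vale.Agent.P172.Defs3
import Vale.Agent.P172.Grp

/-!
# P172, route DIM: block D with the aspherical presentation (helper218)
-/

namespace Vale.Agent.P172

open Vale.Agent.P201.S

theorem gam_list {L R G : Type} [Group G] {π : FreeGroup L →* G} {rel : R → FreeGroup L}
    (l : List (FreeGroup L × R × ℤˣ)) :
    ((l.map fun t => t.1 * rel t.2.1 ^ (t.2.2 : ℤ) * t.1⁻¹).prod,
      Multiplicative.ofAdd
        ((l.map fun t => (Finsupp.single (π t.1, t.2.1) (t.2.2 : ℤ) : (G × R) →₀ ℤ)).sum)) ∈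
      Gam π rel := by
  induction l with
  | nil => exact one_mem _
  | cons t l ih =>
    obtain ⟨v, r, s⟩ := t
    simp only [List.map_cons, List.prod_cons, List.sum_cons]
    have h1 : (v * rel r ^ (s : ℤ) * v⁻¹,
        Multiplicative.ofAdd (Finsupp.single (π v, r) (s : ℤ) : (G × R) →₀ ℤ)) ∈ Gam π rel := by
      rcases Int.units_eq_one_or s with rfl | rfl
      · have := gam_gen (π := π) (rel := rel) v r
        simpa using this
      · have := inv_mem (gam_gen (π := π) (rel := rel) v r)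
        have e : (v * rel r ^ ((-1 : ℤˣ) : ℤ) * v⁻¹, Multiplicative.ofAdd
            (Finsupp.single (π v, r) ((-1 : ℤˣ) : ℤ) : (G × R) →₀ ℤ)) =
            (v * rel r * v⁻¹, Multiplicative.ofAdd
              (Finsupp.single (π v, r) (1 : ℤ) : (G × R) →₀ ℤ))⁻¹ := by
          rw [Prod.inv_mk, ← ofAdd_neg, ← Finsupp.single_neg]
          congr 1
          simp [mul_assoc]
        rw [e]
        exact this
    have h2 := mul_mem h1 ih
    rw [Prod.mk_mul_mk, ← ofAdd_add] at h2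
    exact h2

theorem hasAsphPres_gr {N : ℕ} {W : Finset (List (Al (N + 1)))} (hG : ∀ w ∈ W, Good w)
    (hW : ∀ w ∈ W, 0 < w.length)
    (has : ∀ k z, Expr (S := sysW W hG) 1 k 1 z → z = 0) : HasAsphPres (Gr W) := by
  refine ⟨Fin (N + 1) ⊕ Fin (N + 1), Option {w // w ∈ W}, inferInstance, inferInstance,
    PresentedGroup.mk (rl W), rel0 W, PresentedGroup.mk_surjective (rl W), ?_, ?_⟩
  · rw [range_rel0]
    exact QuotientGroup.ker_mk' _
  · intro l hl
    have h := gam_list (π := PresentedGroup.mk (rl W)) (rel := rel0 W) l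
    rw [hl] at h
    exact asph_gr hG hW has _ h

/-- D with the aspherical presentation -/
theorem stmtGrp2 : ∀ e : ℝ, 0 < e → ∃ K Y₀ : ℕ, ∀ Y ≥ Y₀, ∀ (N : ℕ)
  (W : Finset (List (Al (N + 1)))), (∀ w ∈ W, Y ≤ 2 * w.length ∧ w.length ≤ Y) →
    (∀ w ∈ W, Good w) → Sparse W (K * Y) e →
    Vale.Agent.P186.IsHyperbolicGroup (Gr W) ∧
    (∀ h : Gr W, ∀ m : ℕ, 0 < m → h ^ m = 1 → h = 1) ∧ HasFreeRes2 (Gr W) ∧
    (∀ r : Fin (N + 1), (PresentedGroup.of (Sum.inr r) : Gr W) ≠ 1) ∧ HasAsphPres (Gr W) := by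
  intro e he
  obtain ⟨K, Y0, h⟩ := stmtGlob (1 / 2) e 0 (by norm_num) he
  refine ⟨K, max Y0 1, fun Y hY N W hlen hG hS => ?_⟩
  have hY0 : Y0 ≤ Y := (le_max_left _ _).trans hY
  have hY1 : 1 ≤ Y := (le_max_right _ _).trans hY
  have hpos : ∀ w ∈ W, 0 < w.length := fun w hw => by
    have := (hlen w hw).1
    omega
  obtain ⟨h1, h2, h3⟩ := h (sysW W hG) (fun q => le_rfl) Y hY0 1 ((Y + 1) / 2) (by
    have h4 : Y ≤ 2 * ((Y + 1) / 2) := by omega
    have h5 : (Y : ℝ) ≤ 2 * (((Y + 1) / 2 : ℕ) : ℝ) := by exact_mod_cast h4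
    linarith) (girth_sysW hG _ fun w hw => by
      have := (hlen w hw).1
      omega) (LS.locIso_sysW hG he.le (fun w hw => (hlen w hw).2) hS)
  exact ⟨RG.hyperbolic_gr hG e he Y h3, RG.torsion_gr hG h1, hasFreeRes2_gr hG hpos h1,
    RG.of_inr_ne hG Y h2, hasAsphPres_gr hG hpos h1⟩

end Vale.Agent.P172
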