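import Vale.Agent.P172.Retr
import Vale.Agent.P186.Hyp.Bridge
import Vale.Agent.P186.Hyp.Lin
import Vale.Agent.P186.Hyp.Graph
import Vale.Agent.P186.Hyp.Conn

/-!
# P172, route DIM, block D3: hyperbolicity of `Gr W` (helper427)
-/

namespace Vale.Agent.P172.RG

open Vale.Agent.P201.S Vale.Agent.P186.Hyp

section Ar

variable {L : Type*} {R : Set (FreeGroup L)}

theorem Ar_mul {k k' : ℕ} {a b : FreeGroup L} (h : Ar R k a) (h' : Ar R k' b) :
    Ar R (k + k') (a * b) := by
  induction h with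
  | nil =>
    rw [zero_add, one_mul]
    exact h'
  | cons k u v r hr _ ih =>
    rw [show k + 1 + k' = k + k' + 1 by omega, mul_assoc _ u b]
    exact Ar.cons _ _ _ _ hr ih
  | cons' k u v r hr _ ih =>
    rw [show k + 1 + k' = k + k' + 1 by omega, mul_assoc _ u b]
    exact Ar.cons' _ _ _ _ hr ih

theorem Ar_conj {k : ℕ} {a : FreeGroup L} (h : Ar R k a) (g : FreeGroup L) :
    Ar R k (g * a * g⁻¹) := by
  induction h with
  | nil =>
    rw [mul_one, mul_inv_cancel]
    exact Ar.nil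
  | cons k u v r hr _ ih =>
    have h2 : g * (v * r * v⁻¹ * u) * g⁻¹ = (g * v) * r * (g * v)⁻¹ * (g * u * g⁻¹) := by group
    rw [h2]
    exact Ar.cons _ _ _ _ hr ih
  | cons' k u v r hr _ ih =>
    have h2 : g * (v * r⁻¹ * v⁻¹ * u) * g⁻¹ = (g * v) * r⁻¹ * (g * v)⁻¹ * (g * u * g⁻¹) := by group
    rw [h2]
    exact Ar.cons' _ _ _ _ hr ih

theorem Ar_rel {r : FreeGroup L} (hr : r ∈ R) (v : FreeGroup L) : Ar R 1 (v * r * v⁻¹) := by
  have h := Ar.cons 0 1 v r hr Ar.nil
  rwa [mul_one] at h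

theorem Ar_rel' {r : FreeGroup L} (hr : r ∈ R) (v : FreeGroup L) : Ar R 1 (v * r⁻¹ * v⁻¹) := by
  have h := Ar.cons' 0 1 v r hr Ar.nil
  rwa [mul_one] at h

end Ar

variable {N : ℕ} {W : Finset (List (Al (N + 1)))} (hG : ∀ w ∈ W, Good w)

/-- the retraction maps expressions to expressions -/
theorem expr_ar {k : ℕ} {u : FreeGroup (Let (sysW W hG))} {z : Chn (S := sysW W hG) 1}
    (h : Expr (S := sysW W hG) 1 k u z) : ∃ k' ≤ k, Ar (rl W) k' (rhoF hG u) := by
  induction h with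
  | nil => exact ⟨0, le_rfl, by rw [map_one]; exact Ar.nil⟩
  | cons k u z v q _ ih =>
    obtain ⟨k', hk', ih⟩ := ih
    rw [map_mul, map_mul, map_mul, map_inv]
    rcases rhoF_relw hG q with h | ⟨g, w, hw, h⟩
    · refine ⟨k', hk'.trans (Nat.le_succ k), ?_⟩
      rw [h, mul_one, mul_inv_cancel, one_mul]
      exact ih
    · refine ⟨1 + k', by omega, Ar_mul ?_ ih⟩
      have hr : (w.map gf).prod ∈ rl W := Or.inr ⟨w, hw, rfl⟩
      rcases h with h | h
      · rw [h]
        exact Ar_conj (Ar_rel hr g) _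
      · rw [h]
        exact Ar_conj (Ar_rel' hr g) _

/-- the word over the letters of the machine: `x_r ↦ x_0⁻¹ x_r` -/
def dbl : List ((Fin (N + 1) ⊕ Fin (N + 1)) × Bool) → List (Let (sysW W hG) × Bool)
  | [] => []
  | (r, true) :: u => (Let.x (Sum.inl 0), false) :: (Let.x r, true) :: dbl u
  | (r, false) :: u => (Let.x r, false) :: (Let.x (Sum.inl 0), true) :: dbl u

theorem wtw_dbl (Y : ℕ) (u : List ((Fin (N + 1) ⊕ Fin (N + 1)) × Bool)) :
    wtw Y (dbl hG u) = 2 * u.length := by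
  induction u with
  | nil => rfl
  | cons a u ih =>
    obtain ⟨r, b⟩ := a
    have hc : ∀ (a : Let (sysW W hG) × Bool) l, wtw Y (a :: l) = wtl Y a.1 + wtw Y l := by
      intro a l
      unfold wtw
      rw [List.map_cons, List.sum_cons]
    cases b
    · simp only [dbl, hc, ih, List.length_cons]
      simp only [wtl]
      omega
    · simp only [dbl, hc, ih, List.length_cons]
      simp only [wtl]
      omega

/-- the substitution `x_r ↦ x_0⁻¹ x_r` on the free group -/
def psi0 : FreeGroup (Fin (N + 1) ⊕ Fin (N + 1)) →* FreeGroup (Fin (N + 1) ⊕ Fin (N + 1)) :=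
  FreeGroup.lift fun r => (FreeGroup.of (Sum.inl 0))⁻¹ * FreeGroup.of r

theorem mk_cons_true {A : Type*} (a : A) (u : List (A × Bool)) :
    FreeGroup.mk ((a, true) :: u) = FreeGroup.of a * FreeGroup.mk u := by
  rw [FreeGroup.of, FreeGroup.mul_mk]
  rfl

theorem mk_cons_false {A : Type*} (a : A) (u : List (A × Bool)) :
    FreeGroup.mk ((a, false) :: u) = (FreeGroup.of a)⁻¹ * FreeGroup.mk u := by
  rw [FreeGroup.of, FreeGroup.inv_mk, FreeGroup.mul_mk]
  rfl

theorem rhoF_x (r : Fin (N + 1) ⊕ Fin (N + 1)) :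
    rhoF hG (FreeGroup.of (Let.x r)) = FreeGroup.of r := by
  unfold rhoF
  rw [FreeGroup.lift_apply_of]

theorem rhoF_dbl (u : List ((Fin (N + 1) ⊕ Fin (N + 1)) × Bool)) :
    rhoF hG (val (dbl hG u)) = psi0 (FreeGroup.mk u) := by
  induction u with
  | nil =>
    show rhoF hG 1 = psi0 1
    rw [map_one, map_one]
  | cons a u ih =>
    obtain ⟨r, b⟩ := a
    unfold val at ih ⊢
    cases b
    · simp only [dbl]
      rw [mk_cons_false, mk_cons_true, mk_cons_false, map_mul, map_mul, map_mul, map_inv, map_inv,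
        rhoF_x, rhoF_x, ih]
      unfold psi0
      rw [FreeGroup.lift_apply_of]
      group
    · simp only [dbl]
      rw [mk_cons_true, mk_cons_false, mk_cons_true, map_mul, map_mul, map_mul, map_inv,
        rhoF_x, rhoF_x, ih]
      unfold psi0
      rw [FreeGroup.lift_apply_of]
      group

theorem mk_dbl (u : List ((Fin (N + 1) ⊕ Fin (N + 1)) × Bool)) :
    PresentedGroup.mk (rels (S := sysW W hG) 1) (val (dbl hG u)) =
      emb hG (PresentedGroup.mk (rl W) (FreeGroup.mk u)) := by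
  have hx : ∀ r : Fin (N + 1) ⊕ Fin (N + 1), PresentedGroup.mk (rels (S := sysW W hG) 1)
    (FreeGroup.of (Let.x r)) = gx' hG r := fun r => rfl
  have he : ∀ r : Fin (N + 1) ⊕ Fin (N + 1), emb hG (PresentedGroup.mk (rl W) (FreeGroup.of r)) =
    (gx' hG (Sum.inl 0))⁻¹ * gx' hG r := fun r => emb_of hG r
  induction u with
  | nil =>
    show PresentedGroup.mk (rels (S := sysW W hG) 1) 1 = emb hG (PresentedGroup.mk (rl W) 1)
    rw [map_one, map_one, map_one]
  | cons a u ih =>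
    obtain ⟨r, b⟩ := a
    unfold val at ih ⊢
    cases b
    · simp only [dbl]
      rw [mk_cons_false, mk_cons_true, mk_cons_false, map_mul, map_mul, map_inv, ih, map_mul,
        map_mul, map_inv, map_inv, he, hx, hx]
      group
    · simp only [dbl]
      rw [mk_cons_true, mk_cons_false, mk_cons_true, map_mul, map_mul, map_inv, ih, map_mul,
        map_mul, he, hx, hx]
      group

/-- a word and its image differ by a product of conjugates of `x_0` -/
theorem psi0_ar (u : List ((Fin (N + 1) ⊕ Fin (N + 1)) × Bool)) :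
    ∃ v, Ar (rl W) u.length v ∧ FreeGroup.mk u = v * psi0 (FreeGroup.mk u) := by
  have h0 : FreeGroup.of (Sum.inl 0) ∈ rl W := Or.inl rfl
  induction u with
  | nil =>
    refine ⟨1, Ar.nil, ?_⟩
    show (1 : FreeGroup (Fin (N + 1) ⊕ Fin (N + 1))) = 1 * psi0 1
    rw [map_one, one_mul]
  | cons a u ih =>
    obtain ⟨v, hv, h⟩ := ih
    obtain ⟨r, b⟩ := a
    cases b
    · refine ⟨(FreeGroup.of r)⁻¹ * v * (FreeGroup.of r)⁻¹⁻¹ *
        ((FreeGroup.of r)⁻¹ * (FreeGroup.of (Sum.inl 0))⁻¹ * (FreeGroup.of r)⁻¹⁻¹),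
        Ar_mul (Ar_conj hv _) (Ar_rel' h0 _), ?_⟩
      rw [mk_cons_false, map_mul]
      conv_lhs => rw [h]
      unfold psi0
      rw [map_inv, FreeGroup.lift_apply_of]
      group
    · refine ⟨FreeGroup.of r * v * (FreeGroup.of r)⁻¹ *
        (1 * FreeGroup.of (Sum.inl 0) * 1⁻¹), Ar_mul (Ar_conj hv _) (Ar_rel h0 _), ?_⟩
      rw [mk_cons_true, map_mul]
      conv_lhs => rw [h]
      unfold psi0
      rw [FreeGroup.lift_apply_of]
      group

theorem rl_finite : (rl W).Finite := by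
  unfold rl
  refine (Set.finite_singleton _).union ?_
  have h : {r | ∃ w ∈ W, r = (w.map gf).prod} = (fun w : List (Al (N + 1)) => (w.map gf).prod) '' W := by
    ext r
    constructor
    · rintro ⟨w, hw, rfl⟩
      exact ⟨w, hw, rfl⟩
    · rintro ⟨w, hw, rfl⟩
      exact ⟨w, hw, rfl⟩
  rw [h]
  exact (Finset.finite_toSet W).image _

/-- D3 -/
theorem hyperbolic_gr (e : ℝ) (he : 0 < e) (Y : ℕ)
    (hlin : ∀ l : List (Let (sysW W hG) × Bool),
      PresentedGroup.mk (rels (S := sysW W hG) 1) (val l) = 1 →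
        ∃ k z, Expr (S := sysW W hG) 1 k (val l) z ∧ e / 2 * k ≤ wtw Y l) :
    Vale.Agent.P186.IsHyperbolicGroup (Gr W) := by
  refine hyperbolic_of lin graph conn (rl W) rl_finite (⌈4 / e⌉₊ + 1) fun u hu => ?_
  obtain ⟨k, z, hk, hle⟩ := hlin (dbl hG u) (by rw [mk_dbl, hu, map_one])
  obtain ⟨k', hk', har⟩ := expr_ar hG hk
  obtain ⟨v, hv, huv⟩ := psi0_ar (W := W) u
  refine ⟨u.length + k', ?_, ?_⟩
  · rw [wtw_dbl] at hle
    push_cast at hle
    have h1 : (k : ℝ) ≤ 4 / e * u.length := by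
      rw [div_mul_eq_mul_div, le_div_iff₀ he]
      linarith
    have h2 : (k : ℝ) ≤ (⌈4 / e⌉₊ : ℝ) * u.length :=
      h1.trans (mul_le_mul_of_nonneg_right (Nat.le_ceil _) (Nat.cast_nonneg _))
    have h3 : k ≤ ⌈4 / e⌉₊ * u.length := by exact_mod_cast h2
    nlinarith
  · rw [huv, ← rhoF_dbl hG u]
    exact Ar_mul hv har

end Vale.Agent.P172.RG
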