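import Vale.Agent.P172.Defs
import Vale.Agent.P186.Defs

/-!
# P172, route DIM: interface of the blocks (helper218)

Each `Stmt...` is the exact statement of a block. Owners prove it in their own file
`Vale/Agent/P172/<Block>.lean` as `theorem stmt... : Stmt...` (same name, lower-case first letter).
-/

namespace Vale.Agent.P172

universe u

/-! ## Block A: CAT(0) basics -/

/-- working form of CAT(0): points `m = (1-t)x + ty` with the Bruhat-Tits inequality -/
def Cat (X : Type u) [MetricSpace X] : Prop :=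
  ∀ x y : X, ∀ t ∈ Set.Icc (0 : ℝ) 1, ∃ m : X, ∀ z : X,
    dist z m ^ 2 ≤ (1 - t) * dist z x ^ 2 + t * dist z y ^ 2 - t * (1 - t) * dist x y ^ 2

/-- weighted mean square distance -/
noncomputable def wv {X : Type u} [MetricSpace X] {ι : Type} [Fintype ι] (w : ι → ℝ) (f : ι → X)
    (x : X) : ℝ := ∑ i, w i * dist (f i) x ^ 2

/-- `b` is the barycentre of `f` with weights `w` (in variance-inequality form) -/
def IsBar {X : Type u} [MetricSpace X] {ι : Type} [Fintype ι] (w : ι → ℝ) (f : ι → X) (b : X) :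
    Prop := ∀ x, wv w f b + dist b x ^ 2 ≤ wv w f x

/-- A0 -/
def StmtCat : Prop := ∀ (X : Type u) [MetricSpace X], IsCAT0 X → Cat X

/-- A1: existence of barycentres -/
def StmtBar : Prop := ∀ (X : Type u) [MetricSpace X] [CompleteSpace X], Cat X →
  ∀ (ι : Type) [Fintype ι] (w : ι → ℝ) (f : ι → X), (∀ i, 0 ≤ w i) → ∑ i, w i = 1 →
    ∃ b, IsBar w f b

/-! ## Block F: covering dimension ≤ n implies the Jung inequality of dimension n -/

/-- circumradius² ≤ n / (2 (n+1)) * diameter² for finite sets -/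
def JungProp (X : Type u) [MetricSpace X] (n : ℕ) : Prop :=
  ∀ (J : ℕ) (v : Fin J → X) (D : ℝ), 0 < J → (∀ i j, dist (v i) (v j) ^ 2 ≤ D) → ∀ δ : ℝ, 0 < δ →
    ∃ x, ∀ i, dist (v i) x ^ 2 ≤ (n : ℝ) / (2 * (n + 1)) * D + δ

/-- F -/
def StmtJung : Prop := ∀ (X : Type u) [MetricSpace X] [CompleteSpace X] (n : ℕ), Cat X →
  CovDimLE X n → JungProp X n

/-! ## Block B: the nonlinear gap (UG_n) on quasi-random graphs -/

open Classical in
/-- bipartite graph on `V × V` of edge density `p` with concentrated codegrees -/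
structure QR {V : Type} [Fintype V] (adj : V → V → Prop) (p ε : ℝ) : Prop where
  pos : 0 < p
  le_one : p ≤ 1
  big : 1 ≤ ε * (Fintype.card V * p ^ 2)
  deg : ∀ v, ((Finset.univ.filter fun u => adj u v).card : ℝ) ≤ (1 + ε) * (Fintype.card V * p)
  row : ∀ u u', u ≠ u' → |((Finset.univ.filter fun v => adj u v ∧ adj u' v).card : ℝ) -
    Fintype.card V * p ^ 2| ≤ ε * (Fintype.card V * p ^ 2)
  col : ∀ v v', v ≠ v' → |((Finset.univ.filter fun u => adj u v ∧ adj u v').card : ℝ) -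
    Fintype.card V * p ^ 2| ≤ ε * (Fintype.card V * p ^ 2)

open Classical in
/-- B: in dimension ≤ n (Jung form) maps on quasi-random graphs have edge energy larger than
`(1 + c)` times the smaller variance, with `c` depending only on `n` -/
def StmtUG : Prop := ∀ n : ℕ, ∃ c : ℝ, 0 < c ∧ ∃ ε : ℝ, 0 < ε ∧
  ∀ (V : Type) [Fintype V] (adj : V → V → Prop) (p : ℝ), QR adj p ε →
  ∀ (X : Type u) [MetricSpace X] [CompleteSpace X], Cat X → JungProp X n →
  ∀ (f₁ f₂ : V → X) (r : ℝ),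
    (∀ x, r ≤ (∑ u, dist (f₁ u) x ^ 2) / Fintype.card V) →
    (∀ x, r ≤ (∑ v, dist (f₂ v) x ^ 2) / Fintype.card V) →
    (1 + c) * r ≤ (∑ u, ∑ v, if adj u v then dist (f₁ u) (f₂ v) ^ 2 else 0) /
      ((Fintype.card V) ^ 2 * p)

/-! ## Block C: fixed point from growth of two-point energies -/

/-- value of a word -/
def wval {A G : Type} [Group G] (g : A → G) {k : ℕ} (w : Fin k → A) : G :=
  (List.ofFn fun i => g (w i)).prod

/-- two-point energy `Θ_k(p,q) = E_{|w|=k} d(p, w q)²` -/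
noncomputable def Th {A G : Type} [Group G] [Fintype A] (g : A → G) {X : Type u} [MetricSpace X]
    [MulAction G X] (k : ℕ) (p q : X) : ℝ :=
  (∑ w : Fin k → A, dist p (wval g w • q) ^ 2) / (Fintype.card A : ℝ) ^ k

/-- C -/
def StmtFix : Prop := ∀ (G : Type) [Group G] (X : Type u) [Nonempty X] [MetricSpace X]
  [CompleteSpace X] [MulAction G X] [IsIsometricSMul G X], Cat X →
  ∀ (A : Type) [Fintype A] [Nonempty A] (g : A → G) (inv : A → A), (∀ a, inv (inv a) = a) →
    (∀ a, g (inv a) = (g a)⁻¹) →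
  ∀ (J : ℕ) (k : ℕ → ℕ) (lam : ℝ), 1 ≤ lam → 4 < lam ^ J → 0 < k 0 → (∀ j, k j < k (j + 1)) →
    k J ≤ 2 * k 0 →
    -- growth
    (∀ j < J, ∀ (p q : X) (r : ℝ), (∀ x, r ≤ Th g (k j) x p) → (∀ x, r ≤ Th g (k j) x q) →
      lam * r ≤ Th g (k (j + 1)) p q) →
    -- every letter is the value of a word of even length
    (∀ a, ∃ l : List A, Even l.length ∧ (l.map g).prod = g a) →
    ∃ q : X, ∀ a, g a • q = q

/-! ## The alphabet -/

/-- letters: pairs `(a, b)` with a sign -/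
abbrev Al (N : ℕ) : Type := (Fin N × Fin N) × Bool

/-- inverse letter -/
def Al.inv {N : ℕ} (e : Al N) : Al N := (e.1, !e.2)

/-- a word (list of letters) is good if its `a`-components are distinct and its `b`-components are
distinct -/
def Good {N : ℕ} (l : List (Al N)) : Prop :=
  (l.map fun e => e.1.1).Nodup ∧ (l.map fun e => e.1.2).Nodup

/-- the relator word `u c v⁻¹` -/
def relWord {N k k' : ℕ} (u : Fin k → Al N) (c : Fin k' → Al N) (v : Fin k → Al N) :
    List (Al N) :=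
  List.ofFn u ++ List.ofFn c ++ ((List.ofFn v).map Al.inv).reverse

/-- the set of `x`-letters of a word -/
def lets {N : ℕ} (l : List (Al N)) : Finset (Fin N ⊕ Fin N) :=
  (l.map fun e => Sum.inl e.1.1).toFinset ∪ (l.map fun e => Sum.inr e.1.2).toFinset

/-- sparseness: every subfamily of at most `M` words spans at least `(1 + e) * total length`
letters (each word has `2 * length` letters) -/
def Sparse {N : ℕ} (W : Finset (List (Al N))) (M : ℕ) (e : ℝ) : Prop :=
  ∀ T ⊆ W, T.card ≤ M → (1 + e) * (∑ w ∈ T, (w.length : ℝ)) ≤ (T.biUnion lets).card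

/-! ## Block G1: words with repeated letters are negligible -/

open Classical in
/-- G1 -/
def StmtGood : Prop := ∀ (k : ℕ) (ε : ℝ), 0 < ε → ∃ N₀ : ℕ, ∀ N ≥ N₀,
  ∀ (G : Type) [Group G] (X : Type u) [MetricSpace X] [MulAction G X] [IsIsometricSMul G X]
    (g : Al N → G) (x q : X),
    Th g k x q ≤ (1 + ε) *
      ((∑ w : {w : Fin k → Al N // Good (List.ofFn w)}, dist x (wval g w.1 • q) ^ 2) /
        Fintype.card {w : Fin k → Al N // Good (List.ofFn w)})

/-! ## Block E: random relators -/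

open Classical in
/-- E: existence of the relator sets. `k j` are the scales, `j < J`; `Rel j` is a set of triples
`(u, c, v)` with `|u| = |v| = k j`, `|c| = k (j+1)`. -/
def StmtRand : Prop := ∀ (J : ℕ) (k : ℕ → ℕ) (e ε : ℝ) (M : ℕ), 0 < e → 0 < ε → 0 < k 0 →
  (∀ j < J, k j + 1 < k (j + 1)) → (∀ j < J, 2 * k (j + 1) < 3 * k j + 1) →
  (∀ j < J, e * (2 * k j + k (j + 1)) + 1 ≤ (k (j + 1) : ℝ) - k j - 1) →
  ∃ N₀ : ℕ, ∀ N ≥ N₀, ∃ Rel : (j : ℕ) →
      Finset ((Fin (k j) → Al N) × (Fin (k (j + 1)) → Al N) × (Fin (k j) → Al N)),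
    (∀ j < J, ∀ t ∈ Rel j, Good (relWord t.1 t.2.1 t.2.2)) ∧
    (∀ j < J, ∀ t ∈ Rel j, ∀ t' ∈ Rel j, t.1 = t'.1 → t.2.2 = t'.2.2 → t = t') ∧
    (∀ j < J, QR (V := {w : Fin (k j) → Al N // Good (List.ofFn w)})
      (fun u v => ∃ c, (u.1, c, v.1) ∈ Rel j) (1 / (N : ℝ) ^ (k j - 1)) ε) ∧
    (∀ j < J, ∀ c : Fin (k (j + 1)) → Al N, (((Rel j).filter fun t => t.2.1 = c).card : ℝ) ≤
      (1 + ε) * ((Fintype.card {w : Fin (k j) → Al N // Good (List.ofFn w)} : ℝ) ^ 2 *
        (1 / (N : ℝ) ^ (k j - 1)) / (Fintype.card (Al N) : ℝ) ^ k (j + 1))) ∧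
    Sparse ((Finset.range J).biUnion fun j =>
      (Rel j).image fun t => relWord t.1 t.2.1 t.2.2) M e

/-! ## Block D: the group -/

/-- the value of a letter in the free group on the `x`-letters: `x_a⁻¹ x_b` or its inverse -/
def gf {N : ℕ} (e : Al N) : FreeGroup (Fin N ⊕ Fin N) :=
  if e.2 then (FreeGroup.of (Sum.inl e.1.1))⁻¹ * FreeGroup.of (Sum.inr e.1.2)
  else (FreeGroup.of (Sum.inr e.1.2))⁻¹ * FreeGroup.of (Sum.inl e.1.1)

/-- relators of the group: the words of `W`, and one generator -/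
def rl {N : ℕ} (W : Finset (List (Al (N + 1)))) : Set (FreeGroup (Fin (N + 1) ⊕ Fin (N + 1))) :=
  {FreeGroup.of (Sum.inl 0)} ∪ {r | ∃ w ∈ W, r = (w.map gf).prod}

/-- the group `⟨ x | x_0 = 1, w = 1 (w ∈ W) ⟩` -/
abbrev Gr {N : ℕ} (W : Finset (List (Al (N + 1)))) : Type := PresentedGroup (rl W)

/-- D: for sparse families of long good words of comparable lengths the group is infinite
hyperbolic, torsion-free, with a free resolution of length two -/
def StmtGrp : Prop := ∀ e : ℝ, 0 < e → ∃ K Y₀ : ℕ, ∀ Y ≥ Y₀, ∀ (N : ℕ)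
  (W : Finset (List (Al (N + 1)))), (∀ w ∈ W, Y ≤ 2 * w.length ∧ w.length ≤ Y) →
    (∀ w ∈ W, Good w) → Sparse W (K * Y) e →
    Vale.Agent.P186.IsHyperbolicGroup (Gr W) ∧
    (∀ h : Gr W, ∀ m : ℕ, 0 < m → h ^ m = 1 → h = 1) ∧ HasFreeRes2 (Gr W) ∧
    (∀ r : Fin (N + 1), (PresentedGroup.of (Sum.inr r) : Gr W) ≠ 1)

end Vale.Agent.P172
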