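import Vale.Agent.P172.Rand.Rel

/-!
# P172, block DIM-E: existence of the random relators (helper723)
-/

namespace Vale.Agent.P172.Rnd

open Finset

variable {J : ℕ} {k : ℕ → ℕ} {N : ℕ}

theorem Pr_union {I : Type} [Fintype I] {S : I → Type} [∀ i, Fintype (S i)]
    {w : ∀ i, S i → ℝ} (hw : ∀ i s, 0 ≤ w i s) {ι : Type*} [Fintype ι]
    (A : ι → (∀ i, S i) → Prop) {C t : ℝ} (hC : (Fintype.card ι : ℝ) ≤ C) (ht : 0 ≤ t)
    (hA : ∀ b, Pr w (A b) ≤ t) : Pr w (fun ω => ∃ b, A b ω) ≤ C * t := by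
  refine (Pr_exists hw A).trans ((Finset.sum_le_sum fun b _ => hA b).trans ?_)
  rw [Finset.sum_const, nsmul_eq_mul, Finset.card_univ]
  exact mul_le_mul_of_nonneg_right hC ht

theorem Pr_and_of {I : Type} [Fintype I] {S : I → Type} [∀ i, Fintype (S i)]
    {w : ∀ i, S i → ℝ} (p : Prop) (A : (∀ i, S i) → Prop) {t : ℝ} (ht : 0 ≤ t)
    (hA : p → Pr w A ≤ t) : Pr w (fun ω => p ∧ A ω) ≤ t := by
  by_cases hp : p
  · simp only [hp, true_and]
    exact hA hp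
  · have h0 : Pr w (fun ω => p ∧ A ω) = 0 := by
      unfold Pr Ex
      apply Finset.sum_eq_zero
      intro ω _
      have h1 : ind (p ∧ A ω) = 0 := ind_neg fun h => hp h.1
      simp only [h1, mul_zero]
    rw [h0]
    exact ht

theorem cV_ge {δ : ℝ} {j : ℕ} (hLB : LB N (k j) (k j) δ) (hδ : δ ≤ 1 / 2) (hk : 0 < k j) :
    (N : ℝ) ^ (2 * k j) ≤ cV k N j := by
  have h := hLB ∅ ∅ (by simp) (by simp)
  have h1 : ∑ w : Fin (k j) → Al N, ind (Good (List.ofFn w) ∧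
      (∀ i, (w i).1.1 ∉ (∅ : Finset (Fin N))) ∧ ∀ i, (w i).1.2 ∉ (∅ : Finset (Fin N))) ≤
      cV k N j := by
    have h2 : cV k N j = ∑ w : Fin (k j) → Al N, ind (Good (List.ofFn w)) := by
      have h3 := sum_VV (N := N) (n := k j) (fun _ => (1 : ℝ))
      simp only [Finset.sum_const, nsmul_eq_mul, mul_one] at h3
      rw [← h3]
      rfl
    rw [h2]
    exact Finset.sum_le_sum fun w _ => ind_mono fun h => h.1
  refine le_trans ?_ (h.trans h1)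
  rw [card_Al]
  push_cast
  rw [mul_pow, ← pow_mul, ← mul_assoc]
  have h3 : (2 : ℝ) ≤ 2 ^ k j := by
    calc (2 : ℝ) = 2 ^ 1 := by norm_num
      _ ≤ 2 ^ k j := pow_le_pow_right₀ (by norm_num) hk
  have h4 : (1 : ℝ) ≤ (1 - δ) * 2 ^ k j := by nlinarith
  have h5 : (0 : ℝ) ≤ (N : ℝ) ^ (2 * k j) := by positivity
  nlinarith

theorem mu1 (hN : 0 < N) {j : ℕ} (hk : 0 < k j) (h : (N : ℝ) ^ (2 * k j) ≤ cV k N j) :
    (N : ℝ) ^ 2 ≤ cV k N j * pp k N j ^ 2 := by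
  have hN0 : (0 : ℝ) < N := by exact_mod_cast hN
  have h1 := mul_le_mul_of_nonneg_right h (sq_nonneg (pp k N j))
  refine le_trans (le_of_eq ?_) h1
  unfold pp
  obtain ⟨n, hn⟩ : ∃ n, k j = n + 1 := ⟨k j - 1, by omega⟩
  rw [hn, Nat.add_sub_cancel]
  field_simp
  ring

theorem mu2 (hN : 0 < N) {j : ℕ} (hk : 0 < k j) (h : (N : ℝ) ^ (2 * k j) ≤ cV k N j) :
    (N : ℝ) ≤ cV k N j * pp k N j := by
  have hN0 : (0 : ℝ) < N := by exact_mod_cast hN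
  have hN1 : (1 : ℝ) ≤ N := by exact_mod_cast hN
  have h1 := mul_le_mul_of_nonneg_right h (pp_pos (k := k) hN j).le
  refine le_trans ?_ h1
  unfold pp
  obtain ⟨n, hn⟩ : ∃ n, k j = n + 1 := ⟨k j - 1, by omega⟩
  rw [hn, Nat.add_sub_cancel, mul_one_div, le_div_iff₀ (by positivity), ← pow_succ']
  exact pow_le_pow_right₀ hN1 (by omega)

theorem mu3 (hN : 0 < N) {j : ℕ} (hk : 0 < k j) (hk2 : 2 * k (j + 1) < 3 * k j + 1)
    (h : (N : ℝ) ^ (2 * k j) ≤ cV k N j) :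
    (N : ℝ) / 2 ^ k (j + 1) ≤ cV k N j ^ 2 * qq k N j := by
  have hN0 : (0 : ℝ) < N := by exact_mod_cast hN
  have hN1 : (1 : ℝ) ≤ N := by exact_mod_cast hN
  have h0 : (0 : ℝ) ≤ (N : ℝ) ^ (2 * k j) := by positivity
  have h1 := mul_le_mul_of_nonneg_right (pow_le_pow_left₀ h0 h 2) (qq_pos (k := k) hN j).le
  refine le_trans ?_ h1
  unfold qq pp
  rw [card_Al]
  push_cast
  rw [div_div, mul_one_div, div_le_div_iff₀ (by positivity) (by positivity), mul_pow, ← pow_mul,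
    ← pow_mul]
  have h2 : (N : ℝ) * ((N : ℝ) ^ (k j - 1) * (N : ℝ) ^ (2 * k (j + 1))) ≤
      (N : ℝ) ^ (2 * k j * 2) := by
    rw [← pow_add, ← pow_succ']
    exact pow_le_pow_right₀ hN1 (by omega)
  have h3 : (0 : ℝ) ≤ 2 ^ k (j + 1) := by positivity
  nlinarith [mul_le_mul_of_nonneg_right h2 h3]

theorem tendsto_bd (K : ℕ) {c : ℝ} (hc : 0 < c) (a b : ℝ) :
    ∃ N₀ : ℕ, ∀ N ≥ N₀, a * ((2 * (N : ℝ) ^ 2) ^ (2 * K) * Real.exp (-(c * N))) + b / N < 1 := by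
  have h1 : Filter.Tendsto (fun x : ℝ => x ^ (4 * K) * Real.exp (-x)) Filter.atTop (nhds 0) :=
    Real.tendsto_pow_mul_exp_neg_atTop_nhds_zero _
  have h2 : Filter.Tendsto (fun N : ℕ => c * (N : ℝ)) Filter.atTop Filter.atTop :=
    Filter.Tendsto.const_mul_atTop hc tendsto_natCast_atTop_atTop
  have h3 := h1.comp h2
  have h4 : Filter.Tendsto (fun N : ℕ => a * (2 ^ (2 * K) / c ^ (4 * K)) *
      ((c * (N : ℝ)) ^ (4 * K) * Real.exp (-(c * N))) + b / N) Filter.atTop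
      (nhds (a * (2 ^ (2 * K) / c ^ (4 * K)) * 0 + 0)) :=
    (h3.const_mul _).add (tendsto_const_div_atTop_nhds_zero_nat b)
  rw [mul_zero, add_zero] at h4
  have h5 := h4.eventually (gt_mem_nhds (show (0 : ℝ) < 1 by norm_num))
  rw [Filter.eventually_atTop] at h5
  obtain ⟨N₀, hN₀⟩ := h5
  refine ⟨N₀, fun N hN => ?_⟩
  have h6 := hN₀ N hN
  have h7 : a * ((2 * (N : ℝ) ^ 2) ^ (2 * K) * Real.exp (-(c * N))) =
      a * (2 ^ (2 * K) / c ^ (4 * K)) * ((c * (N : ℝ)) ^ (4 * K) * Real.exp (-(c * N))) := by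
    rw [mul_pow, mul_pow, ← pow_mul, show 2 * (2 * K) = 4 * K by ring]
    have : c ^ (4 * K) ≠ 0 := by positivity
    field_simp
  rw [h7]
  exact h6

/-- all bad events at scale `j` -/
def BadJ (J : ℕ) (k : ℕ → ℕ) (N : ℕ) (ε : ℝ) (j : Fin J) (ω : ∀ i, Sx J k N i) : Prop :=
  ((∃ b : VV (k j) N × VV (k j) N, b.1 ≠ b.2 ∧
    ¬ |(∑ v : VV (k j) N, ind (Ad J k N ⟨j, (b.1, v)⟩ (ω ⟨j, (b.1, v)⟩) ∧
      Ad J k N ⟨j, (b.2, v)⟩ (ω ⟨j, (b.2, v)⟩))) -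
      cV k N j * pp k N j ^ 2| ≤ ε * (cV k N j * pp k N j ^ 2)) ∨
  (∃ b : VV (k j) N × VV (k j) N, b.1 ≠ b.2 ∧
    ¬ |(∑ u : VV (k j) N, ind (Ad J k N ⟨j, (u, b.1)⟩ (ω ⟨j, (u, b.1)⟩) ∧
      Ad J k N ⟨j, (u, b.2)⟩ (ω ⟨j, (u, b.2)⟩))) -
      cV k N j * pp k N j ^ 2| ≤ ε * (cV k N j * pp k N j ^ 2))) ∨
  ((∃ v : VV (k j) N, ¬ (∑ u : VV (k j) N, ind (Ad J k N ⟨j, (u, v)⟩ (ω ⟨j, (u, v)⟩))) ≤
      (1 + ε) * (cV k N j * pp k N j)) ∨
  (∃ c : Fin (k (j + 1)) → Al N, ¬ (∑ b : VV (k j) N × VV (k j) N,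
      ind (Ac J k N (List.ofFn c) ⟨j, b⟩ (ω ⟨j, b⟩))) ≤
      (1 + ε) * (cV k N j ^ 2 * qq k N j)))

theorem Pr_BadJ (hN : 0 < N) {ε δ : ℝ} (hε : 0 < ε) (hε1 : ε ≤ 1) (hδ : δ = ε / 12) (j : Fin J)
    (hLB : LB N (k j) (k j) δ) (hLB' : LB N (k (j + 1)) (k j) δ) (hk : 0 < k j)
    (hk2 : 2 * k (j + 1) < 3 * k j + 1) {K : ℕ} (hK : k j + k (j + 1) ≤ K) :
    Pr (wt J k N) (BadJ J k N ε j) ≤
      6 * ((2 * (N : ℝ) ^ 2) ^ (2 * K) * Real.exp (-(ε ^ 2 / 8 / 2 ^ K * N))) := by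
  have hw := wt_nonneg (J := J) (k := k) hN
  have hN0 : (0 : ℝ) < N := by exact_mod_cast hN
  have hN1 : (1 : ℝ) ≤ N := by exact_mod_cast hN
  have hcV := cV_ge hLB (by rw [hδ]; linarith) hk
  have m1 := mu1 hN hk hcV
  have m2 := mu2 hN hk hcV
  have m3 := mu3 hN hk hk2 hcV
  have hcard : (Fintype.card (Al N) : ℝ) = 2 * (N : ℝ) ^ 2 := by rw [card_Al]; push_cast; ring
  have hA1 : (1 : ℝ) ≤ 2 * (N : ℝ) ^ 2 := by nlinarith
  have hle : ∀ n : ℕ, n ≤ 2 * K → (Fintype.card (Al N) : ℝ) ^ n ≤ (2 * (N : ℝ) ^ 2) ^ (2 * K) := by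
    intro n hn
    rw [hcard]
    exact pow_le_pow_right₀ hA1 hn
  set E := Real.exp (-(ε ^ 2 / 8 / 2 ^ K * N)) with hE
  have hE0 : 0 ≤ E := (Real.exp_pos _).le
  set C := (2 * (N : ℝ) ^ 2) ^ (2 * K) with hC
  have h2K : (1 : ℝ) ≤ 2 ^ K := one_le_pow₀ (by norm_num)
  have hcN : ε ^ 2 / 8 / 2 ^ K * N ≤ ε ^ 2 / 8 * N := by
    refine mul_le_mul_of_nonneg_right ?_ hN0.le
    exact div_le_self (by positivity) h2K
  have hV : cV k N j ≤ (Fintype.card (Al N) : ℝ) ^ k j := cardV_le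
  have hcVV : (Fintype.card (VV (k j) N × VV (k j) N) : ℝ) ≤ C := by
    rw [Fintype.card_prod, Nat.cast_mul]
    calc (Fintype.card (VV (k j) N) : ℝ) * (Fintype.card (VV (k j) N) : ℝ)
        ≤ (Fintype.card (Al N) : ℝ) ^ k j * (Fintype.card (Al N) : ℝ) ^ k j :=
          mul_le_mul hV hV (Nat.cast_nonneg _) (by positivity)
      _ = (Fintype.card (Al N) : ℝ) ^ (k j + k j) := by rw [pow_add]
      _ ≤ C := hle _ (by omega)
  have hcV1 : (Fintype.card (VV (k j) N) : ℝ) ≤ C := le_trans hV (hle _ (by omega))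
  have hcC : (Fintype.card (Fin (k (j + 1)) → Al N) : ℝ) ≤ C := by
    rw [Fintype.card_fun, Fintype.card_fin, Nat.cast_pow]
    exact hle _ (by omega)
  have e1 : Real.exp (-(ε ^ 2 / 8) * (cV k N j * pp k N j ^ 2)) ≤ E := by
    apply Real.exp_le_exp.2
    have : (N : ℝ) ≤ cV k N j * pp k N j ^ 2 := by nlinarith
    nlinarith [mul_le_mul_of_nonneg_left this (show 0 ≤ ε ^ 2 / 8 by positivity)]
  have e2 : Real.exp (-(ε ^ 2 / 4) * (cV k N j * pp k N j)) ≤ E := by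
    apply Real.exp_le_exp.2
    nlinarith [mul_le_mul_of_nonneg_left m2 (show 0 ≤ ε ^ 2 / 8 by positivity),
      mul_nonneg (sq_nonneg ε) hN0.le]
  have e3 : Real.exp (-(ε ^ 2 / 4) * (cV k N j ^ 2 * qq k N j)) ≤ E := by
    apply Real.exp_le_exp.2
    have h1 : (N : ℝ) / 2 ^ K ≤ (N : ℝ) / 2 ^ k (j + 1) := by
      apply div_le_div_of_nonneg_left hN0.le (by positivity)
      exact pow_le_pow_right₀ (by norm_num) (by omega)
    have h2 := h1.trans m3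
    have h3 : ε ^ 2 / 8 / 2 ^ K * N = ε ^ 2 / 8 * (N / 2 ^ K) := by ring
    rw [h3]
    have h4 : (0 : ℝ) ≤ N / 2 ^ K := by positivity
    nlinarith [mul_le_mul_of_nonneg_left h2 (show 0 ≤ ε ^ 2 / 8 by positivity),
      mul_nonneg (sq_nonneg ε) h4]
  have p1 := Pr_union hw (fun (b : VV (k j) N × VV (k j) N) ω => b.1 ≠ b.2 ∧
    ¬ |(∑ v : VV (k j) N, ind (Ad J k N ⟨j, (b.1, v)⟩ (ω ⟨j, (b.1, v)⟩) ∧
      Ad J k N ⟨j, (b.2, v)⟩ (ω ⟨j, (b.2, v)⟩))) -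
      cV k N j * pp k N j ^ 2| ≤ ε * (cV k N j * pp k N j ^ 2)) hcVV
      (show 0 ≤ 2 * E by positivity) (fun b => Pr_and_of _ _ (by positivity) fun hb =>
        (tail_row hN hε hε1 hδ j hLB hLB' b.1 b.2 hb).trans (by linarith))
  have p2 := Pr_union hw (fun (b : VV (k j) N × VV (k j) N) ω => b.1 ≠ b.2 ∧
    ¬ |(∑ u : VV (k j) N, ind (Ad J k N ⟨j, (u, b.1)⟩ (ω ⟨j, (u, b.1)⟩) ∧
      Ad J k N ⟨j, (u, b.2)⟩ (ω ⟨j, (u, b.2)⟩))) -
      cV k N j * pp k N j ^ 2| ≤ ε * (cV k N j * pp k N j ^ 2)) hcVV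
      (show 0 ≤ 2 * E by positivity) (fun b => Pr_and_of _ _ (by positivity) fun hb =>
        (tail_col hN hε hε1 hδ j hLB hLB' b.1 b.2 hb).trans (by linarith))
  have p3 := Pr_union hw (fun (v : VV (k j) N) ω =>
    ¬ (∑ u : VV (k j) N, ind (Ad J k N ⟨j, (u, v)⟩ (ω ⟨j, (u, v)⟩))) ≤
      (1 + ε) * (cV k N j * pp k N j)) hcV1 hE0 (fun v => (tail_deg hN hε hε1 j v).trans e2)
  have p4 := Pr_union hw (fun (c : Fin (k (j + 1)) → Al N) ω =>
    ¬ (∑ b : VV (k j) N × VV (k j) N,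
      ind (Ac J k N (List.ofFn c) ⟨j, b⟩ (ω ⟨j, b⟩))) ≤
      (1 + ε) * (cV k N j ^ 2 * qq k N j)) hcC hE0 (fun c => (tail_c hN hε hε1 j c).trans e3)
  unfold BadJ
  refine (Pr_or hw _ _).trans ?_
  refine (add_le_add (Pr_or hw _ _) (Pr_or hw _ _)).trans ?_
  refine (add_le_add (add_le_add p1 p2) (add_le_add p3 p4)).trans (le_of_eq ?_)
  ring

theorem eventually_all_LB (n m : ℕ → ℕ) {δ : ℝ} (hδ : 0 < δ) (J : ℕ) :
    ∃ N₀ : ℕ, ∀ N ≥ N₀, ∀ j < J, LB N (n j) (m j) δ := by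
  choose f hf using fun j => eventually_LB (n j) (m j) hδ
  refine ⟨∑ j ∈ Finset.range J, f j, fun N hN j hj => hf j N (le_trans ?_ hN)⟩
  exact Finset.single_le_sum (f := f) (fun _ _ => Nat.zero_le _) (Finset.mem_range.2 hj)

end Vale.Agent.P172.Rnd

namespace Vale.Agent.P172

open Rnd Finset

theorem stmtRand : StmtRand := by
  classical
  intro J k e ε M he hε hk0 hk1 hk2 hk3
  have hkpos : ∀ j ≤ J, 0 < k j := by
    intro j
    induction j with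
    | zero => exact fun _ => hk0
    | succ n ih =>
      intro hn
      have := hk1 n (by omega)
      omega
  set ε' : ℝ := min ε 1 with hε'
  have hε'0 : 0 < ε' := lt_min hε one_pos
  have hε'1 : ε' ≤ 1 := min_le_right _ _
  have hε'e : ε' ≤ ε := min_le_left _ _
  set δ : ℝ := ε' / 12 with hδ
  have hδ0 : 0 < δ := by positivity
  set K : ℕ := ∑ j ∈ Finset.range J, (k j + k (j + 1)) with hK
  have hKj : ∀ j < J, k j + k (j + 1) ≤ K := fun j hj =>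
    Finset.single_le_sum (f := fun j => k j + k (j + 1)) (fun _ _ => Nat.zero_le _)
      (Finset.mem_range.2 hj)
  obtain ⟨N₁, hN₁⟩ := eventually_all_LB k k hδ0 J
  obtain ⟨N₂, hN₂⟩ := eventually_all_LB (fun j => k (j + 1)) k hδ0 J
  obtain ⟨N₃, hN₃⟩ := tendsto_bd K (c := ε' ^ 2 / 8 / 2 ^ K) (by positivity) (J * 6) (Csp J k M)
  obtain ⟨N₄, hN₄⟩ := exists_nat_gt (1 / ε')
  refine ⟨N₁ + N₂ + N₃ + N₄ + 1, fun N hN => ?_⟩
  have hNpos : 0 < N := by omega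
  have hN0 : (0 : ℝ) < N := by exact_mod_cast hNpos
  have hN1 : (1 : ℝ) ≤ N := by exact_mod_cast hNpos
  have hLB := hN₁ N (by omega)
  have hLB' := hN₂ N (by omega)
  have hw := wt_nonneg (J := J) (k := k) hNpos
  -- the good event has positive probability
  have hPr : Pr (wt J k N) (fun ω => Bad J k N M ω ∨ ∃ j : Fin J, BadJ J k N ε' j ω) < 1 := by
    refine lt_of_le_of_lt ((Pr_or hw _ _).trans (add_le_add (Pr_Bad hNpos M)
      (Pr_union hw (C := J) (t := 6 * ((2 * (N : ℝ) ^ 2) ^ (2 * K) *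
        Real.exp (-(ε' ^ 2 / 8 / 2 ^ K * N)))) (fun j ω => BadJ J k N ε' j ω) (by simp)
        (by positivity) fun j => Pr_BadJ hNpos hε'0 hε'1 hδ j (hLB j j.2) (hLB' j j.2)
          (hkpos j j.2.le) (hk2 j j.2) (hKj j j.2)))) ?_
    have := hN₃ N (by omega)
    linarith
  obtain ⟨ω, hω⟩ := exists_not (wt_sum hNpos) hPr
  push Not at hω
  obtain ⟨hω1, hω2⟩ := hω
  refine ⟨fun j => Rl ω j, ?_, ?_, ?_, ?_, ?_⟩
  · intro j hj t ht
    rw [mem_Rl] at ht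
    obtain ⟨_, _, _, _, h⟩ := ht
    exact h
  · intro j hj t ht t' ht' h1 h2
    exact det_Rl ω j t t' ht ht' h1 h2
  · intro j hj
    have hb := hω2 ⟨j, hj⟩
    unfold BadJ at hb
    push Not at hb
    obtain ⟨⟨hrow, hcol⟩, hdeg, hc⟩ := hb
    have hcV := cV_ge (hLB j hj) (by rw [hδ]; linarith) (hkpos j hj.le)
    have m1 := mu1 hNpos (hkpos j hj.le) hcV
    have m2 := mu2 hNpos (hkpos j hj.le) hcV
    have key : QR (V := VV (k j) N) (fun u v => ∃ c, (u.1, c, v.1) ∈ Rl ω j)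
        (1 / (N : ℝ) ^ (k j - 1)) ε := by
      refine QR_of_ind _ _ _ (pp_pos (k := k) hNpos j) (pp_le_one hNpos j) ?_ ?_ ?_ ?_
      · have h1 : (N : ℝ) ≤ cV k N j * pp k N j ^ 2 := by nlinarith
        have h2 : (1 : ℝ) ≤ ε' * N := by
          have h3 : (N₄ : ℝ) ≤ N := by exact_mod_cast (by omega : N₄ ≤ N)
          have h4 := hN₄.trans_le h3
          rw [div_lt_iff₀ hε'0] at h4
          linarith
        have h3 : ε' * N ≤ ε * (cV k N j * pp k N j ^ 2) :=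
          mul_le_mul hε'e h1 hN0.le hε.le
        exact h2.trans h3
      · intro v
        have h1 := hdeg v
        have h2 : ∑ u : VV (k j) N, ind (∃ c, (u.1, c, v.1) ∈ Rl ω j) =
            ∑ u : VV (k j) N, ind (Ad J k N ⟨⟨j, hj⟩, (u, v)⟩ (ω ⟨⟨j, hj⟩, (u, v)⟩)) :=
          Finset.sum_congr rfl fun u _ => by
            rw [propext (adj_iff ω ⟨j, hj⟩ u v)]
        rw [h2]
        refine h1.trans (mul_le_mul_of_nonneg_right (by linarith) ?_)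
        exact (hN0.le.trans m2)
      · intro u u' huu'
        have h1 := hrow (u, u') huu'
        have h2 : ∑ v : VV (k j) N, ind ((∃ c, (u.1, c, v.1) ∈ Rl ω j) ∧
            ∃ c, (u'.1, c, v.1) ∈ Rl ω j) =
            ∑ v : VV (k j) N, ind (Ad J k N ⟨⟨j, hj⟩, (u, v)⟩ (ω ⟨⟨j, hj⟩, (u, v)⟩) ∧
              Ad J k N ⟨⟨j, hj⟩, (u', v)⟩ (ω ⟨⟨j, hj⟩, (u', v)⟩)) :=
          Finset.sum_congr rfl fun v _ => by
            rw [propext (adj_iff ω ⟨j, hj⟩ u v), propext (adj_iff ω ⟨j, hj⟩ u' v)]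
        rw [h2]
        refine h1.trans (mul_le_mul_of_nonneg_right hε'e ?_)
        exact (sq_nonneg (N : ℝ)).trans m1
      · intro v v' hvv'
        have h1 := hcol (v, v') hvv'
        have h2 : ∑ u : VV (k j) N, ind ((∃ c, (u.1, c, v.1) ∈ Rl ω j) ∧
            ∃ c, (u.1, c, v'.1) ∈ Rl ω j) =
            ∑ u : VV (k j) N, ind (Ad J k N ⟨⟨j, hj⟩, (u, v)⟩ (ω ⟨⟨j, hj⟩, (u, v)⟩) ∧
              Ad J k N ⟨⟨j, hj⟩, (u, v')⟩ (ω ⟨⟨j, hj⟩, (u, v')⟩)) :=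
          Finset.sum_congr rfl fun u _ => by
            rw [propext (adj_iff ω ⟨j, hj⟩ u v), propext (adj_iff ω ⟨j, hj⟩ u v')]
        rw [h2]
        refine h1.trans (mul_le_mul_of_nonneg_right hε'e ?_)
        exact (sq_nonneg (N : ℝ)).trans m1
    convert key
  · intro j hj c
    have hb := hω2 ⟨j, hj⟩
    unfold BadJ at hb
    push Not at hb
    obtain ⟨-, -, hc⟩ := hb
    have h1 := card_c_le ω ⟨j, hj⟩ c
    have h2 := h1.trans (hc c)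
    have h3 : (cV k N j ^ 2 * qq k N j) = cV k N j ^ 2 *
        (1 / (N : ℝ) ^ (k j - 1)) / (Fintype.card (Al N) : ℝ) ^ k (j + 1) := by
      unfold qq pp
      ring
    have h4 : (0 : ℝ) ≤ cV k N j ^ 2 * qq k N j :=
      mul_nonneg (sq_nonneg _) (qq_pos hNpos _).le
    have h5 := h2.trans (mul_le_mul_of_nonneg_right (show 1 + ε' ≤ 1 + ε by linarith) h4)
    simp only at h5
    rw [h3] at h5
    have h6 : (Fintype.card {w : Fin (k j) → Al N // Good (List.ofFn w)} : ℝ) = cV k N j := by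
      unfold cV
      congr!
    rw [h6]
    refine le_trans (le_of_eq ?_) h5
    congr!
  · refine sparse_of hk3 (fun j hj => hkpos j hj.le) ω hω1 _ ?_
    intro w hw
    rw [Finset.mem_biUnion] at hw
    obtain ⟨j, hj, hw⟩ := hw
    rw [Finset.mem_image] at hw
    obtain ⟨t, ht, rfl⟩ := hw
    rw [mem_Rl] at ht
    obtain ⟨h, hu, hv, h1, h2⟩ := ht
    exact ⟨⟨j, h⟩, (⟨t.1, hu⟩, ⟨t.2.2, hv⟩, t.2.1), h1, rfl⟩

end Vale.Agent.P172
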