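import Vale.Agent.P172.Sys
import Vale.Agent.P201.S.Tor

/-!
# P172, route DIM, blocks D3/D4: the group `Gr W` as a retract of the group of the machine
(helper427)
-/

namespace Vale.Agent.P172.RG

open Vale.Agent.P201.S Vale.Agent.P172

section Free

variable {N : ℕ} {W : Finset (List (Al N))}

/-- product of the letters from a position to the end of the word -/
def fsuf (c : Cell W) : FreeGroup (Fin N ⊕ Fin N) := ((c.1.1.drop c.2.1).map gf).prod

/-- image of the letter `y_c` -/
def ysuf (c : Cell W) : FreeGroup (Fin N ⊕ Fin N) := if c.2.1 = 0 then 1 else fsuf c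

theorem gf_mul_ysuf (c : Cell W) : gf c.lt * ysuf c.nx = fsuf c := by
  have hdrop : c.1.1.drop c.2.1 = c.lt :: c.1.1.drop (c.2.1 + 1) :=
    List.drop_eq_getElem_cons c.2.2
  have h1 : fsuf c = gf c.lt * ((c.1.1.drop (c.2.1 + 1)).map gf).prod := by
    unfold fsuf
    rw [hdrop, List.map_cons, List.prod_cons]
  rw [h1]
  congr 1
  have hnx : (Cell.nx c).2.1 = (c.2.1 + 1) % c.1.1.length := rfl
  rcases Nat.lt_or_ge (c.2.1 + 1) c.1.1.length with h | h
  · have h2 : (Cell.nx c).2.1 = c.2.1 + 1 := by rw [hnx, Nat.mod_eq_of_lt h]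
    unfold ysuf fsuf
    rw [if_neg (by omega), h2]
    rfl
  · have h3 : c.2.1 + 1 = c.1.1.length := le_antisymm c.2.2 h
    have h2 : (Cell.nx c).2.1 = 0 := by rw [hnx, h3, Nat.mod_self]
    unfold ysuf
    rw [if_pos h2, h3, List.drop_length]
    rfl

variable (hG : ∀ w ∈ W, Good w)

/-- the retraction on free groups: `t ↦ 1`, `x_r ↦ x_r`, `y_c ↦ ysuf c` -/
def rhoF : FreeGroup (Let (sysW W hG)) →* FreeGroup (Fin N ⊕ Fin N) :=
  FreeGroup.lift fun a => match a with
    | Let.t => 1
    | Let.x r => FreeGroup.of r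
    | Let.y c => ysuf c

theorem rhoF_half (q : Cell W × Bool) : rhoF hG (val (half (S := sysW W hG) q)) =
    FreeGroup.of (prc q) * ysuf (pblk q) := by
  have h1 : half (S := sysW W hG) q = [(Let.x (prc q), true), (Let.y (pblk q), true)] := rfl
  rw [h1]
  simp [val, rhoF]

theorem rhoF_relw (q : Cell W × Bool) : rhoF hG (val (relw (S := sysW W hG) 1 q)) = 1 ∨
    ∃ g, ∃ w ∈ W, rhoF hG (val (relw (S := sysW W hG) 1 q)) = g * (w.map gf).prod * g⁻¹ ∨
      rhoF hG (val (relw (S := sysW W hG) 1 q)) = g * ((w.map gf).prod)⁻¹ * g⁻¹ := by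
  have hval : ∀ q : Cell W × Bool, rhoF hG (val (relw (S := sysW W hG) 1 q)) =
      FreeGroup.of (prc q) * ysuf (pblk q) *
        (FreeGroup.of (prc (q.1, !q.2)) * ysuf (pblk (q.1, !q.2)))⁻¹ := by
    intro q
    rw [TF.val_relw, map_mul, map_inv, rhoF_half, mt_sys, rhoF_half]
  -- the case of the port `true`
  have key : ∀ c : Cell W, (c.2.1 ≠ 0 ∧ rhoF hG (val (relw (S := sysW W hG) 1 (c, true))) = 1) ∨
      ∃ g, rhoF hG (val (relw (S := sysW W hG) 1 (c, true))) = g * (c.1.1.map gf).prod * g⁻¹ ∨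
      rhoF hG (val (relw (S := sysW W hG) 1 (c, true))) = g * ((c.1.1.map gf).prod)⁻¹ * g⁻¹ := by
    intro c
    rw [hval]
    have hs := gf_mul_ysuf c
    have h0 : c.2.1 = 0 → ysuf c = 1 ∧ fsuf c = (c.1.1.map gf).prod := by
      intro h
      refine ⟨by unfold ysuf; rw [if_pos h], ?_⟩
      unfold fsuf
      rw [h, List.drop_zero]
    have h1 : c.2.1 ≠ 0 → ysuf c = fsuf c := fun h => by unfold ysuf; rw [if_neg h]
    rcases hb : c.lt.2 with _ | _
    · -- sign false
      have e1 : pblk (c, true) = c.nx := by unfold pblk; rw [if_neg]; simp [hb]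
      have e2 : pblk (c, false) = c := by unfold pblk; rw [if_pos]; simp [hb]
      have e3 : gf c.lt = (FreeGroup.of (prc (c, false)))⁻¹ * FreeGroup.of (prc (c, true)) := by
        unfold gf
        rw [hb]
        simp [prc]
      have e4 : FreeGroup.of (prc (c, true)) * ysuf c.nx =
          FreeGroup.of (prc (c, false)) * fsuf c := by
        rw [← hs, e3]
        group
      simp only [Bool.not_true]
      rw [e1, e2, e4]
      by_cases h : c.2.1 = 0
      · right
        refine ⟨FreeGroup.of (prc (c, false)), Or.inl ?_⟩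
        rw [(h0 h).1, (h0 h).2]
        group
      · left
        refine ⟨h, ?_⟩
        rw [h1 h]
        group
    · have e1 : pblk (c, true) = c := by unfold pblk; rw [if_pos]; simp [hb]
      have e2 : pblk (c, false) = c.nx := by unfold pblk; rw [if_neg]; simp [hb]
      have e3 : gf c.lt = (FreeGroup.of (prc (c, true)))⁻¹ * FreeGroup.of (prc (c, false)) := by
        unfold gf
        rw [hb]
        simp [prc]
      have e4 : FreeGroup.of (prc (c, false)) * ysuf c.nx =
          FreeGroup.of (prc (c, true)) * fsuf c := by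
        rw [← hs, e3]
        group
      simp only [Bool.not_true]
      rw [e1, e2, e4]
      by_cases h : c.2.1 = 0
      · right
        refine ⟨FreeGroup.of (prc (c, true)), Or.inr ?_⟩
        rw [(h0 h).1, (h0 h).2]
        group
      · left
        refine ⟨h, ?_⟩
        rw [h1 h]
        group
  obtain ⟨c, b⟩ := q
  cases b
  · have h1 : rhoF hG (val (relw (S := sysW W hG) 1 (c, false))) =
        (rhoF hG (val (relw (S := sysW W hG) 1 (c, true))))⁻¹ := by
      rw [hval, hval, Bool.not_false, Bool.not_true, mul_inv_rev (FreeGroup.of (prc (c, true)) * _),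
        inv_inv]
    rw [h1]
    rcases key c with h | ⟨g, h | h⟩
    · left
      rw [h.2, inv_one]
    · right
      refine ⟨g, c.1.1, c.1.2, Or.inr ?_⟩
      rw [h]
      group
    · right
      refine ⟨g, c.1.1, c.1.2, Or.inl ?_⟩
      rw [h]
      group
  · rcases key c with h | ⟨g, h | h⟩
    · exact Or.inl h.2
    · exact Or.inr ⟨g, c.1.1, c.1.2, Or.inl h⟩
    · exact Or.inr ⟨g, c.1.1, c.1.2, Or.inr h⟩

end Free

section Emb

variable {N : ℕ} {W : Finset (List (Al (N + 1)))} (hG : ∀ w ∈ W, Good w)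

/-- image of a letter in the group of the machine -/
def gx' (r : Fin (N + 1) ⊕ Fin (N + 1)) : Gp (S := sysW W hG) 1 :=
  PresentedGroup.of (rels := rels (S := sysW W hG) 1) (Let.x r)

def gy (c : Cell W) : Gp (S := sysW W hG) 1 :=
  PresentedGroup.of (rels := rels (S := sysW W hG) 1) (Let.y c)

/-- a letter of the alphabet in the group of the machine -/
def ga (e : Al (N + 1)) : Gp (S := sysW W hG) 1 :=
  if e.2 then (gx' hG (Sum.inl e.1.1))⁻¹ * gx' hG (Sum.inr e.1.2)
  else (gx' hG (Sum.inr e.1.2))⁻¹ * gx' hG (Sum.inl e.1.1)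

theorem port_rel (c : Cell W) : gx' hG (prc (c, true)) * gy hG (pblk (c, true)) =
    gx' hG (prc (c, false)) * gy hG (pblk (c, false)) := by
  have h1 : TF.prj (S := sysW W hG) 1 (val (relw (S := sysW W hG) 1 (c, true))) = 1 :=
    TF.prj_rel (S := sysW W hG) 1 (c, true)
  rw [TF.val_relw, map_mul, map_inv, mul_inv_eq_one, mt_sys] at h1
  have h2 : ∀ q : Cell W × Bool, TF.prj (S := sysW W hG) 1 (val (half (S := sysW W hG) q)) =
      gx' hG (prc q) * gy hG (pblk q) := by
    intro q
    have h3 : half (S := sysW W hG) q = [(Let.x (prc q), true), (Let.y (pblk q), true)] := rfl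
    have h4 : val (half (S := sysW W hG) q) =
        FreeGroup.of (Let.x (prc q)) * FreeGroup.of (Let.y (pblk q)) := by
      rw [h3]
      simp [val, FreeGroup.of]
    rw [h4, map_mul]
    rfl
  rw [h2, h2] at h1
  exact h1

theorem gy_step (c : Cell W) : gy hG c = ga hG c.lt * gy hG c.nx := by
  have h := port_rel hG c
  unfold ga
  rcases hb : c.lt.2 with _ | _
  · have e1 : pblk (c, true) = c.nx := by unfold pblk; rw [if_neg]; simp [hb]
    have e2 : pblk (c, false) = c := by unfold pblk; rw [if_pos]; simp [hb]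
    rw [e1, e2] at h
    simp only [Bool.false_eq_true, if_false]
    rw [mul_assoc]
    have h' : gx' hG (Sum.inl c.lt.1.1) * gy hG c.nx = gx' hG (Sum.inr c.lt.1.2) * gy hG c := h
    rw [h', inv_mul_cancel_left]
  · have e1 : pblk (c, true) = c := by unfold pblk; rw [if_pos]; simp [hb]
    have e2 : pblk (c, false) = c.nx := by unfold pblk; rw [if_neg]; simp [hb]
    rw [e1, e2] at h
    simp only [if_true]
    rw [mul_assoc]
    have h' : gx' hG (Sum.inl c.lt.1.1) * gy hG c = gx' hG (Sum.inr c.lt.1.2) * gy hG c.nx := h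
    rw [← h', inv_mul_cancel_left]

theorem prod_ga (w : {w // w ∈ W}) (h0 : 0 < w.1.length) : ∀ k p : ℕ, p + k = w.1.length →
    ((w.1.drop p).map (ga hG)).prod =
      gy hG ⟨w, ⟨p % w.1.length, Nat.mod_lt _ h0⟩⟩ * (gy hG ⟨w, ⟨0, h0⟩⟩)⁻¹ := by
  intro k
  induction k with
  | zero =>
    intro p hp
    have h1 : p = w.1.length := by omega
    subst h1
    rw [List.drop_length, List.map_nil, List.prod_nil]
    have h2 : (⟨w, ⟨w.1.length % w.1.length, Nat.mod_lt _ h0⟩⟩ : Cell W) = ⟨w, ⟨0, h0⟩⟩ := by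
      congr 2
      exact Nat.mod_self _
    rw [h2, mul_inv_cancel]
  | succ k ih =>
    intro p hp
    have hlt : p < w.1.length := by omega
    rw [List.drop_eq_getElem_cons hlt, List.map_cons, List.prod_cons, ih (p + 1) (by omega)]
    have h2 : (⟨w, ⟨p % w.1.length, Nat.mod_lt _ h0⟩⟩ : Cell W) = ⟨w, ⟨p, hlt⟩⟩ := by
      congr 2
      exact Nat.mod_eq_of_lt hlt
    rw [h2, gy_step hG ⟨w, ⟨p, hlt⟩⟩, mul_assoc]
    rfl

theorem prod_ga_eq_one (w : List (Al (N + 1))) (hw : w ∈ W) : (w.map (ga hG)).prod = 1 := by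
  rcases Nat.eq_zero_or_pos w.length with h0 | h0
  · rw [List.length_eq_zero_iff.1 h0]
    rfl
  · have h1 := prod_ga hG ⟨w, hw⟩ h0 w.length 0 (zero_add _)
    rw [List.drop_zero] at h1
    rw [h1]
    have h2 : (⟨⟨w, hw⟩, ⟨0 % w.length, Nat.mod_lt _ h0⟩⟩ : Cell W) = ⟨⟨w, hw⟩, ⟨0, h0⟩⟩ :=
      Sigma.ext rfl (heq_of_eq (Fin.ext (Nat.zero_mod _)))
    rw [h2, mul_inv_cancel]

/-- image of a generator of `Gr W` -/
def fe (r : Fin (N + 1) ⊕ Fin (N + 1)) : Gp (S := sysW W hG) 1 :=
  (gx' hG (Sum.inl 0))⁻¹ * gx' hG r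

theorem lift_fe_gf (e : Al (N + 1)) : FreeGroup.lift (fe hG) (gf e) = ga hG e := by
  unfold gf ga fe
  split_ifs
  · rw [map_mul, map_inv, FreeGroup.lift_apply_of, FreeGroup.lift_apply_of]
    group
  · rw [map_mul, map_inv, FreeGroup.lift_apply_of, FreeGroup.lift_apply_of]
    group

theorem lift_fe_rl : ∀ r ∈ rl W, FreeGroup.lift (fe hG) r = 1 := by
  rintro r (hr | ⟨w, hw, rfl⟩)
  · rw [Set.mem_singleton_iff.1 hr, FreeGroup.lift_apply_of]
    unfold fe
    rw [inv_mul_cancel]
  · rw [map_list_prod, List.map_map]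
    have h1 : (⇑(FreeGroup.lift (fe hG)) ∘ gf) = ga hG := funext fun e => lift_fe_gf hG e
    rw [h1]
    exact prod_ga_eq_one hG w hw

/-- the embedding of `Gr W` in the group of the machine: `x_r ↦ x_0⁻¹ x_r` -/
def emb : Gr W →* Gp (S := sysW W hG) 1 := PresentedGroup.toGroup (lift_fe_rl hG)

theorem emb_of (r : Fin (N + 1) ⊕ Fin (N + 1)) :
    emb hG (PresentedGroup.of r) = (gx' hG (Sum.inl 0))⁻¹ * gx' hG r :=
  PresentedGroup.toGroup.of (lift_fe_rl hG)

/-- the retraction `t ↦ 1`, `x_r ↦ x_r`, `y_c ↦ ysuf c` -/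
def ret : Gp (S := sysW W hG) 1 →* Gr W :=
  QuotientGroup.lift _ ((PresentedGroup.mk (rl W)).comp (rhoF hG)) (by
    have h : Subgroup.normalClosure (rels (S := sysW W hG) 1) ≤
        ((PresentedGroup.mk (rl W)).comp (rhoF hG)).ker := by
      refine Subgroup.normalClosure_le_normal ?_
      rintro _ ⟨q, rfl⟩
      rw [SetLike.mem_coe, MonoidHom.mem_ker, MonoidHom.comp_apply]
      have hW : ∀ w ∈ W, PresentedGroup.mk (rl W) (w.map gf).prod = 1 := fun w hw =>
        PresentedGroup.one_of_mem (Or.inr ⟨w, hw, rfl⟩)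
      rcases rhoF_relw hG q with h | ⟨g, w, hw, h | h⟩
      · rw [h, map_one]
      · rw [h, map_mul, map_mul, hW w hw, mul_one, map_inv, mul_inv_cancel]
      · rw [h, map_mul, map_mul, map_inv, hW w hw, inv_one, mul_one, map_inv, mul_inv_cancel]
    intro x hx
    exact h hx)

theorem ret_mk (u : FreeGroup (Let (sysW W hG))) :
    ret hG (PresentedGroup.mk (rels (S := sysW W hG) 1) u) =
      PresentedGroup.mk (rl W) (rhoF hG u) := rfl

theorem ret_gx (r : Fin (N + 1) ⊕ Fin (N + 1)) : ret hG (gx' hG r) = PresentedGroup.of r := by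
  have h : gx' hG r = PresentedGroup.mk (rels (S := sysW W hG) 1) (FreeGroup.of (Let.x r)) := rfl
  rw [h, ret_mk]
  unfold rhoF
  rw [FreeGroup.lift_apply_of]
  rfl

theorem of_zero : (PresentedGroup.of (Sum.inl 0) : Gr W) = 1 :=
  PresentedGroup.one_of_mem (Or.inl rfl)

theorem ret_emb (g : Gr W) : ret hG (emb hG g) = g := by
  have h : (ret hG).comp (emb hG) = MonoidHom.id (Gr W) := by
    apply PresentedGroup.ext
    intro r
    rw [MonoidHom.comp_apply, emb_of, map_mul, map_inv, ret_gx, ret_gx, of_zero, inv_one, one_mul]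
    rfl
  exact DFunLike.congr_fun h g

theorem emb_injective : Function.Injective (emb hG) :=
  Function.LeftInverse.injective (ret_emb hG)

/-- D4: torsion -/
theorem torsion_gr (has : ∀ k z, Expr (S := sysW W hG) 1 k 1 z → z = 0) :
    ∀ h : Gr W, ∀ m : ℕ, 0 < m → h ^ m = 1 → h = 1 := by
  intro h m hm he
  apply emb_injective hG
  rw [map_one]
  refine TF.torsion_free (S := sysW W hG) 1 has _ m hm ?_
  rw [← map_pow, he, map_one]

/-- D4: the generators `x_r` are not trivial -/
theorem of_inr_ne (Y : ℕ)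
    (hinj : ∀ l : List (Let (sysW W hG) × Bool), (∀ a ∈ l, ∀ j, a.1 ≠ Let.y j) → wtw Y l ≤ 2 →
      PresentedGroup.mk (rels (S := sysW W hG) 1) (val l) = 1 → val l = 1) (r : Fin (N + 1)) :
    (PresentedGroup.of (Sum.inr r) : Gr W) ≠ 1 := by
  intro h
  have h1 := emb_of hG (Sum.inr r)
  rw [h, map_one] at h1
  have h2 := hinj [(Let.x (Sum.inl 0), false), (Let.x (Sum.inr r), true)] (by
    intro a ha j
    simp only [List.mem_cons, List.not_mem_nil, or_false] at ha
    rcases ha with rfl | rfl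
    · exact fun h => by cases h
    · exact fun h => by cases h) (by simp [wtw, wtl]) (by
    have h3 : (val [(Let.x (Sum.inl 0), false), (Let.x (Sum.inr r), true)] :
        FreeGroup (Let (sysW W hG))) =
        (FreeGroup.of (Let.x (Sum.inl 0)))⁻¹ * FreeGroup.of (Let.x (Sum.inr r)) := by
      simp [val, FreeGroup.of, FreeGroup.invRev]
    rw [h3, map_mul, map_inv]
    exact h1.symm)
  have h3 : FreeGroup.lift (fun a : Let (sysW W hG) => match a with
      | Let.x (Sum.inr _) => Multiplicative.ofAdd (1 : ℤ)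
      | _ => 1) (val [(Let.x (Sum.inl 0), false), (Let.x (Sum.inr r), true)]) = 1 := by
    rw [h2, map_one]
  simp [val] at h3

end Emb

end Vale.Agent.P172.RG
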