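import Vale.Agent.P172.Iface
import Vale.Agent.P201.S.Defs

/-!
# P172, route DIM, block D1: the system of squares of a set of words (helper427)

The relator of a word `w = e_0 e_1 ... e_{l-1}` is cut into `l` squares `(w, p)` around a central
vertex; the edge from the central vertex to the `p`-th corner is the letter `y_(w,p)`.
The relation of the square `(w, p)` with letter `e_p = ((a, b), s)` is
`x_a y_p = x_b y_{p+1}` (`s = false`, with `p` and `p+1` exchanged) in such a way that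
`y_p = gf(e_p) y_{p+1}`.
-/

namespace Vale.Agent.P172

open Vale.Agent.P201.S

variable {N : ℕ}

/-- positions in the words of `W` -/
abbrev Cell (W : Finset (List (Al N))) : Type := Σ w : {w // w ∈ W}, Fin w.1.length

variable {W : Finset (List (Al N))}

/-- the letter at a position -/
def Cell.lt (c : Cell W) : Al N := c.1.1[c.2.1]

theorem Cell.pos (c : Cell W) : 0 < c.1.1.length := lt_of_le_of_lt (Nat.zero_le _) c.2.2

/-- the cyclically next position -/
def Cell.nx (c : Cell W) : Cell W := ⟨c.1, ⟨(c.2.1 + 1) % c.1.1.length, Nat.mod_lt _ c.pos⟩⟩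

theorem Cell.nx_fst (c : Cell W) : c.nx.1 = c.1 := rfl

theorem succ_mod_inj {l a b : ℕ} (ha : a < l) (hb : b < l) (h : (a + 1) % l = (b + 1) % l) :
    a = b := by
  rcases Nat.lt_or_ge (a + 1) l with h1 | h1 <;> rcases Nat.lt_or_ge (b + 1) l with h2 | h2
  · rw [Nat.mod_eq_of_lt h1, Nat.mod_eq_of_lt h2] at h
    omega
  · have e : b + 1 = l := by omega
    rw [e, Nat.mod_self, Nat.mod_eq_of_lt h1] at h
    omega
  · have e : a + 1 = l := by omega
    rw [e, Nat.mod_self, Nat.mod_eq_of_lt h2] at h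
    omega
  · omega

theorem Cell.nx_injective : Function.Injective (Cell.nx (W := W)) := by
  rintro ⟨w, p⟩ ⟨w', p'⟩ h
  unfold Cell.nx at h
  simp only [Sigma.mk.injEq] at h
  obtain ⟨h1, h2⟩ := h
  subst h1
  rw [heq_iff_eq, Fin.mk.injEq] at h2
  have h3 := succ_mod_inj p.2 p'.2 h2
  rw [Fin.ext h3]

/-- the `x`-letter of a port: the `a`-letter for `true`, the `b`-letter for `false` -/
def prc (q : Cell W × Bool) : Fin N ⊕ Fin N :=
  if q.2 then Sum.inl q.1.lt.1.1 else Sum.inr q.1.lt.1.2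

/-- the block of a port -/
def pblk (q : Cell W × Bool) : Cell W := if q.2 = q.1.lt.2 then q.1 else q.1.nx

theorem pblk_fst (q : Cell W × Bool) : (pblk q).1 = q.1.1 := by
  unfold pblk
  split_ifs <;> rfl

theorem prc_cp {q q' : Cell W × Bool} (h : prc q = prc q') : q.2 = q'.2 := by
  obtain ⟨c, b⟩ := q
  obtain ⟨c', b'⟩ := q'
  cases b <;> cases b' <;> simp_all [prc]

theorem prc_inj (hG : ∀ w ∈ W, Good w) {q q' : Cell W × Bool} (h : prc q = prc q')
    (h2 : q.1.1 = q'.1.1) : q = q' := by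
  have hb := prc_cp h
  obtain ⟨⟨w, p⟩, b⟩ := q
  obtain ⟨⟨w', p'⟩, b'⟩ := q'
  simp only at h2 hb
  subst h2 hb
  have hg := hG w.1 w.2
  have key : p = p' := by
    cases b
    · have h3 : (w.1[p.1]).1.2 = (w.1[p'.1]).1.2 := by simpa [prc, Cell.lt] using h
      have h4 := hg.2
      have h5 := (List.Nodup.getElem_inj_iff h4 (i := p.1) (j := p'.1) (hi := by simp)
        (hj := by simp)).1 (by simpa using h3)
      exact Fin.ext h5
    · have h3 : (w.1[p.1]).1.1 = (w.1[p'.1]).1.1 := by simpa [prc, Cell.lt] using h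
      have h4 := hg.1
      have h5 := (List.Nodup.getElem_inj_iff h4 (i := p.1) (j := p'.1) (hi := by simp)
        (hj := by simp)).1 (by simpa using h3)
      exact Fin.ext h5
  rw [key]

/-- the system of squares of a set of good words -/
abbrev sysW (W : Finset (List (Al N))) (hG : ∀ w ∈ W, Good w) : Sys where
  C := Cell W
  R := Fin N ⊕ Fin N
  B := Cell W
  rc := prc
  blk := pblk
  ht := fun _ => 0
  inj := fun q q' h1 h2 _ => prc_inj hG h1 (by rw [← pblk_fst, h2, pblk_fst])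
  cp := fun _ _ h => prc_cp h

/-- the port on the other side of the square -/
theorem mt_one_eq {S : Sys} (q : Port S) : mt (1 : Equiv.Perm S.C) q = (q.1, !q.2) := by
  obtain ⟨c, b⟩ := q
  cases b
  · show ((1 : Equiv.Perm S.C).symm c, true) = _
    rfl
  · rfl

theorem mt_sys (hG : ∀ w ∈ W, Good w) (q : Cell W × Bool) :
    Vale.Agent.P201.S.mt (S := sysW W hG) 1 q = (q.1, !q.2) := mt_one_eq (S := sysW W hG) q

theorem mt_blk (hG : ∀ w ∈ W, Good w) {a b : Cell W × Bool}
    (h : (sysW W hG).blk (Vale.Agent.P201.S.mt (S := sysW W hG) 1 a) = (sysW W hG).blk b) :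
    pblk (a.1, !a.2) = pblk b := by
  rw [← mt_sys hG]
  exact h

theorem mt_ne (hG : ∀ w ∈ W, Good w) {a b : Cell W × Bool}
    (h : b ≠ Vale.Agent.P201.S.mt (S := sysW W hG) 1 a) : b ≠ (a.1, !a.2) := by
  rw [← mt_sys hG]
  exact h

/-- one step of a walk: forward -/
theorem step_fwd {a b : Cell W × Bool} (h : pblk (a.1, !a.2) = pblk b) (hne : b ≠ (a.1, !a.2))
    (ha : a.2 = a.1.lt.2) : b.1 = a.1.nx ∧ b.2 = b.1.lt.2 := by
  have h1 : pblk (a.1, !a.2) = a.1.nx := by
    unfold pblk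
    rw [if_neg]
    simp [ha]
  rw [h1] at h
  by_cases hb : b.2 = b.1.lt.2
  · refine ⟨?_, hb⟩
    rw [h]
    unfold pblk
    rw [if_pos hb]
  · exfalso
    have h2 : pblk b = b.1.nx := by
      unfold pblk
      rw [if_neg hb]
    rw [h2] at h
    have h3 := Cell.nx_injective h
    apply hne
    refine Prod.ext h3.symm ?_
    rw [← h3, ← ha] at hb
    show b.2 = !a.2
    rw [Bool.eq_not_iff]
    exact hb

/-- one step of a walk: backward -/
theorem step_bwd {a b : Cell W × Bool} (h : pblk (a.1, !a.2) = pblk b) (hne : b ≠ (a.1, !a.2))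
    (ha : a.2 ≠ a.1.lt.2) : a.1 = b.1.nx ∧ b.2 ≠ b.1.lt.2 := by
  have ha' : (!a.2) = a.1.lt.2 := by
    rw [eq_comm, Bool.eq_not_iff]
    exact fun h => ha h.symm
  have h1 : pblk (a.1, !a.2) = a.1 := by
    unfold pblk
    rw [if_pos ha']
  rw [h1] at h
  by_cases hb : b.2 = b.1.lt.2
  · exfalso
    have h2 : pblk b = b.1 := by
      unfold pblk
      rw [if_pos hb]
    rw [h2] at h
    apply hne
    refine Prod.ext h.symm ?_
    show b.2 = !a.2
    rw [hb, ha', h]
  · refine ⟨?_, hb⟩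
    rw [h]
    unfold pblk
    rw [if_neg hb]

/-- position of iterates -/
theorem Cell.nx_iter (c : Cell W) (k : ℕ) : (Cell.nx^[k] c).1 = c.1 ∧
    (Cell.nx^[k] c).2.1 = (c.2.1 + k) % c.1.1.length := by
  induction k with
  | zero => exact ⟨rfl, by simp [Nat.mod_eq_of_lt c.2.2]⟩
  | succ k ih =>
    rw [Function.iterate_succ_apply']
    obtain ⟨h1, h2⟩ := ih
    refine ⟨h1, ?_⟩
    have h3 : (Cell.nx (Cell.nx^[k] c)).2.1 =
        ((Cell.nx^[k] c).2.1 + 1) % (Cell.nx^[k] c).1.1.length := rfl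
    rw [h3, h2, h1, Nat.mod_add_mod, add_assoc]

/-- a return takes at least the length of the word -/
theorem Cell.nx_iter_ret (c : Cell W) {k : ℕ} (hk : 0 < k) (h : Cell.nx^[k] c = c) :
    c.1.1.length ≤ k := by
  by_contra hlt
  push Not at hlt
  have h1 := (c.nx_iter k).2
  rw [h] at h1
  have hp := c.2.2
  rcases Nat.lt_or_ge (c.2.1 + k) c.1.1.length with h2 | h2
  · rw [Nat.mod_eq_of_lt h2] at h1
    omega
  · rw [Nat.mod_eq_sub_mod h2, Nat.mod_eq_of_lt (by omega)] at h1
    omega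

/-- every position of the word is reached -/
theorem Cell.nx_reach (c c' : Cell W) (h : c.1 = c'.1) : ∃ k, Cell.nx^[k] c = c' := by
  obtain ⟨w, p⟩ := c
  obtain ⟨w', p'⟩ := c'
  simp only at h
  subst h
  refine ⟨w.1.length - p.1 + p'.1, ?_⟩
  obtain ⟨h1, h2⟩ := Cell.nx_iter (⟨w, p⟩ : Cell W) (w.1.length - p.1 + p'.1)
  have h3 : p.1 + (w.1.length - p.1 + p'.1) = w.1.length + p'.1 := by
    have := p.2
    omega
  simp only [h3, Nat.add_mod_left, Nat.mod_eq_of_lt p'.2] at h2
  exact Sigma.ext h1 (by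
    have h4 : ∀ (d : Cell W), d.1 = w → d.2.1 = p'.1 → HEq d.2 p' := by
      rintro ⟨v, q⟩ hv hq
      simp only at hv
      subst hv
      exact heq_of_eq (Fin.ext hq)
    exact h4 _ h1 h2)

/-- girth of the system -/
theorem girth_sysW (hG : ∀ w ∈ W, Good w) (g : ℕ) (hg : ∀ w ∈ W, g ≤ w.length) :
    Girth (S := sysW W hG) 1 g := by
  intro l hl hw
  obtain ⟨a, l', rfl⟩ := List.exists_cons_of_ne_nil hl
  obtain ⟨hw1, hw2⟩ := hw
  -- the two directions
  have hfw : ∀ (l' : List (Cell W × Bool)) (a : Cell W × Bool), a.2 = a.1.lt.2 →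
      IsWalk (S := sysW W hG) 1 (a :: l') → ∀ b ∈ (a :: l').getLast?,
        b.1 = Cell.nx^[l'.length] a.1 ∧ b.2 = b.1.lt.2 := by
    intro l'
    induction l' with
    | nil =>
      intro a ha _ b hb
      simp only [List.getLast?_singleton, Option.mem_def, Option.some.injEq] at hb
      subst hb
      exact ⟨rfl, ha⟩
    | cons a' l' ih =>
      intro a ha hw b hb
      obtain ⟨⟨h1, h2⟩, h3⟩ := List.isChain_cons_cons.1 hw
      obtain ⟨h4, h5⟩ := step_fwd (b := a') (mt_blk hG h1) (mt_ne hG h2) ha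
      rw [List.getLast?_cons_cons] at hb
      obtain ⟨h6, h7⟩ := ih a' h5 h3 b hb
      refine ⟨?_, h7⟩
      rw [h6, h4, List.length_cons, Function.iterate_succ_apply]
  have hbw : ∀ (l' : List (Cell W × Bool)) (a : Cell W × Bool), a.2 ≠ a.1.lt.2 →
      IsWalk (S := sysW W hG) 1 (a :: l') → ∀ b ∈ (a :: l').getLast?,
        a.1 = Cell.nx^[l'.length] b.1 ∧ b.2 ≠ b.1.lt.2 := by
    intro l'
    induction l' with
    | nil =>
      intro a ha _ b hb
      simp only [List.getLast?_singleton, Option.mem_def, Option.some.injEq] at hb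
      subst hb
      exact ⟨rfl, ha⟩
    | cons a' l' ih =>
      intro a ha hw b hb
      obtain ⟨⟨h1, h2⟩, h3⟩ := List.isChain_cons_cons.1 hw
      obtain ⟨h4, h5⟩ := step_bwd (b := a') (mt_blk hG h1) (mt_ne hG h2) ha
      rw [List.getLast?_cons_cons] at hb
      obtain ⟨h6, h7⟩ := ih a' h5 h3 b hb
      refine ⟨?_, h7⟩
      rw [h4, h6, List.length_cons, Function.iterate_succ_apply']
  obtain ⟨b, hb⟩ : ∃ b, b ∈ (a :: l').getLast? :=
    ⟨_, List.getLast?_eq_some_getLast (List.cons_ne_nil a l')⟩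
  obtain ⟨h1, h2⟩ := hw2 b hb a (by simp)
  by_cases ha : a.2 = a.1.lt.2
  · obtain ⟨h3, h4⟩ := hfw l' a ha hw1 b hb
    obtain ⟨h5, -⟩ := step_fwd (b := a) (mt_blk hG h1) (mt_ne hG h2) h4
    rw [h3, ← Function.iterate_succ_apply' Cell.nx] at h5
    have h6 := Cell.nx_iter_ret a.1 (Nat.succ_pos _) h5.symm
    rw [List.length_cons]
    exact (hg _ a.1.1.2).trans h6
  · obtain ⟨h3, h4⟩ := hbw l' a ha hw1 b hb
    obtain ⟨h5, -⟩ := step_bwd (b := a) (mt_blk hG h1) (mt_ne hG h2) h4
    rw [h3, ← Function.iterate_succ_apply' Cell.nx] at h5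
    have h6 := Cell.nx_iter_ret b.1 (Nat.succ_pos _) h5.symm
    rw [List.length_cons]
    exact (hg _ b.1.1.2).trans h6

end Vale.Agent.P172
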